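import Vale.Agent.P002.Punct.Defs
import Vale.Agent.P002.Prod.Cond

/-!
P002, punctured surface groups: an integral base point.  Every quasi-unipotent class has an upper
triangular integral representative, and the product of such representatives is the inverse of one
commutator of matrices with algebraic integer entries.
-/

namespace Vale.Agent.P002.Punct

open Matrix Polynomial Module
open scoped DirectSum
open Vale.Agent.P002.Surf

variable {r : ℕ}

/-! ### Triangular normal form -/

/-- Bidiagonal normal form with a height that increases along the off diagonal entries. -/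
theorem exists_normal_height {d : ℕ} (A : Matrix (Fin d) (Fin d) ℂ) :
    ∃ (P : (Matrix (Fin d) (Fin d) ℂ)ˣ) (J : Matrix (Fin d) (Fin d) ℂ) (h : Fin d → ℕ),
      A = (P : Matrix (Fin d) (Fin d) ℂ) * J * ((P⁻¹ : (Matrix (Fin d) (Fin d) ℂ)ˣ) :
        Matrix (Fin d) (Fin d) ℂ) ∧
      (∀ p q, J p q = 0 ∨ J p q = 1 ∨ A.charpoly.IsRoot (J p q)) ∧
      ∀ p q, J p q ≠ 0 → p = q ∨ h p < h q := by
  classical
  set T : Module.End ℂ (Fin d → ℂ) := Matrix.toLin' A with hT
  have : Module.Finite ℂ[X] (AEval' T) := inferInstance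
  have htors : Module.IsTorsion ℂ[X] (AEval' T) := AEval.isTorsion_of_finiteDimensional ℂ _ T
  obtain ⟨ι, _, p, hp, e, ⟨E⟩⟩ := Module.equiv_directSum_of_isTorsion htors
  choose μ hμ using fun i => exists_root_span (p i) (hp i)
  let E1 : AEval' T ≃ₗ[ℂ[X]] ⨁ i, ℂ[X] ⧸ ℂ[X] ∙ (X - Polynomial.C (μ i)) ^ e i :=
    E.trans (DFinsupp.mapRange.linearEquiv fun i => Submodule.quotEquivOfEq _ _ (hμ i (e i)))
  choose v hv using fun i => exists_piece (μ i) (e i)
  let B0 : Basis (Σ i, Fin (e i)) ℂ (⨁ i, ℂ[X] ⧸ ℂ[X] ∙ (X - Polynomial.C (μ i)) ^ e i) :=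
    DFinsupp.basis v
  let toV : (⨁ i, ℂ[X] ⧸ ℂ[X] ∙ (X - Polynomial.C (μ i)) ^ e i) ≃ₗ[ℂ] (Fin d → ℂ) :=
    (E1.symm.restrictScalars ℂ).trans (AEval'.of T).symm
  let B1 : Basis (Σ i, Fin (e i)) ℂ (Fin d → ℂ) := B0.map toV
  let en := B1.indexEquiv (Pi.basisFun ℂ (Fin d))
  let B := B1.reindex en
  have hX : ∀ z, T (toV z) = toV ((X : ℂ[X]) • z) := by
    intro z
    simp only [toV, LinearEquiv.trans_apply, LinearEquiv.restrictScalars_apply, map_smul]
    rw [AEval'.of_symm_X_smul]
  have hact : ∀ i (k : Fin (e i)), T (B1 ⟨i, k⟩) =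
      μ i • B1 ⟨i, k⟩ + if h : (k : ℕ) + 1 < e i then B1 ⟨i, ⟨k + 1, h⟩⟩ else 0 := by
    intro i k
    have hB0 : ∀ q : Fin (e i), B0 ⟨i, q⟩ =
        DirectSum.lof ℂ[X] ι
          (fun i => ℂ[X] ⧸ ℂ[X] ∙ (X - Polynomial.C (μ i)) ^ e i) i (v i q) := by
      intro q
      simp [B0, DFinsupp.basis, DirectSum.lof]
      rfl
    simp only [B1, Basis.map_apply, hX, hB0, ← map_smul, hv i k, map_add]
    congr 1
    · exact congrArg toV (LinearMap.map_smul_of_tower _ _ _)
    · split_ifs with h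
      · rfl
      · simp
  have hroot : ∀ i, 0 < e i → A.charpoly.IsRoot (μ i) := by
    intro i hi
    rw [← Matrix.charpoly_toLin', ← Module.End.hasEigenvalue_iff_isRoot_charpoly]
    refine Module.End.hasEigenvalue_of_hasEigenvector (x := B1 ⟨i, ⟨e i - 1, by omega⟩⟩)
      ⟨?_, Basis.ne_zero _ _⟩
    rw [Module.End.mem_eigenspace_iff, hT.symm, hact, dif_neg (by simp only; omega), add_zero]
  let P0 : Matrix (Fin d) (Fin d) ℂ := Matrix.of fun a q => B q a
  have hP : IsUnit P0 := Matrix.linearIndependent_cols_iff_isUnit.1 B.linearIndependent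
  let J : Matrix (Fin d) (Fin d) ℂ := Matrix.of fun a q => B.repr (T (B q)) a
  let ht : Fin d → ℕ := fun a => e (en.symm a).1 - (en.symm a).2.val
  have hent : ∀ a i (k : Fin (e i)), J a (en ⟨i, k⟩) =
      (if (⟨i, k⟩ : Σ i, Fin (e i)) = en.symm a then μ i else 0) +
        if h : (k : ℕ) + 1 < e i then
          (if (⟨i, ⟨k + 1, h⟩⟩ : Σ i, Fin (e i)) = en.symm a then 1 else 0) else 0 := by
    intro a i k
    have hq : B (en ⟨i, k⟩) = B1 ⟨i, k⟩ := by rw [Basis.reindex_apply, Equiv.symm_apply_apply]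
    simp only [J, Matrix.of_apply]
    rw [hq, hact, Basis.repr_reindex_apply]
    simp only [map_add, map_smul, Finsupp.add_apply, Finsupp.smul_apply, smul_eq_mul,
      Basis.repr_self]
    rw [Finsupp.single_apply, mul_ite, mul_one, mul_zero]
    congr 1
    split_ifs with h h'
    · rw [Basis.repr_self, Finsupp.single_apply, if_pos h']
    · rw [Basis.repr_self, Finsupp.single_apply, if_neg h']
    · simp
  refine ⟨hP.unit, J, ht, ?_, fun a q => ?_, fun a q hne => ?_⟩
  · have h1 : A * P0 = P0 * J := by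
      ext a q
      have h2 := congrFun (B.sum_repr (T (B q))) a
      rw [Finset.sum_apply] at h2
      have h3 : (A * P0) a q = T (B q) a := by
        simp [hT, Matrix.mul_apply, Matrix.mulVec, dotProduct, P0]
      rw [h3, ← h2, Matrix.mul_apply]
      exact Finset.sum_congr rfl fun c _ => by simp [P0, J, mul_comm]
    rw [IsUnit.unit_spec, ← h1, mul_assoc, IsUnit.mul_val_inv, mul_one]
  · obtain ⟨⟨i, k⟩, rfl⟩ := en.surjective q
    rw [hent]
    by_cases hak : (⟨i, k⟩ : Σ i, Fin (e i)) = en.symm a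
    · refine Or.inr (Or.inr ?_)
      rw [if_pos hak]
      split_ifs with h h'
      · rw [← hak] at h'
        simp [Fin.ext_iff] at h'
      all_goals simpa using hroot i k.pos
    · rw [if_neg hak]
      split_ifs <;> simp
  · obtain ⟨⟨i, k⟩, rfl⟩ := en.surjective q
    rw [hent] at hne
    by_cases hak : (⟨i, k⟩ : Σ i, Fin (e i)) = en.symm a
    · exact Or.inl (by rw [hak, Equiv.apply_symm_apply])
    · rw [if_neg hak, zero_add] at hne
      split_ifs at hne with h h'
      · refine Or.inr ?_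
        have h1 : ht a = e i - (k.val + 1) :=
          congrArg (fun x : Σ i, Fin (e i) => e x.1 - x.2.val) h'.symm
        have h2 : ht (en ⟨i, k⟩) = e i - k.val :=
          congrArg (fun x : Σ i, Fin (e i) => e x.1 - x.2.val) (en.symm_apply_apply ⟨i, k⟩)
        rw [h1, h2]
        omega
      all_goals exact absurd rfl hne

/-! ### Roots of unity -/

/-- A root of unity. -/
def RootU (z : ℂ) : Prop := ∃ k : ℕ, 0 < k ∧ z ^ k = 1

theorem RootU.mul {x y : ℂ} (hx : RootU x) (hy : RootU y) : RootU (x * y) := by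
  obtain ⟨a, ha, hxa⟩ := hx
  obtain ⟨c, hc, hyc⟩ := hy
  refine ⟨a * c, Nat.mul_pos ha hc, ?_⟩
  rw [mul_pow, pow_mul x a c, hxa, one_pow, pow_mul' y a c, hyc, one_pow, mul_one]

theorem RootU.inv {x : ℂ} (hx : RootU x) : RootU x⁻¹ := by
  obtain ⟨a, ha, hxa⟩ := hx
  exact ⟨a, ha, by rw [_root_.inv_pow, hxa, inv_one]⟩

theorem rootU_one : RootU 1 := ⟨1, one_pos, one_pow 1⟩

theorem rootU_prod {κ : Type*} (s : Finset κ) {f : κ → ℂ} (h : ∀ i ∈ s, RootU (f i)) :
    RootU (∏ i ∈ s, f i) :=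
  Finset.prod_induction f RootU (fun _ _ => RootU.mul) rootU_one h

theorem RootU.of_pow {x : ℂ} {n : ℕ} (hn : 0 < n) (hx : RootU (x ^ n)) : RootU x := by
  obtain ⟨a, ha, hxa⟩ := hx
  exact ⟨n * a, Nat.mul_pos hn ha, by rw [pow_mul, hxa]⟩

theorem RootU.ne_zero {x : ℂ} (hx : RootU x) : x ≠ 0 := by
  obtain ⟨a, ha, hxa⟩ := hx
  rintro rfl
  rw [zero_pow ha.ne'] at hxa
  exact zero_ne_one hxa

theorem RootU.isIntegral {x : ℂ} (hx : RootU x) : IsIntegral ℤ x := by
  obtain ⟨a, ha, hxa⟩ := hx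
  exact IsIntegral.of_pow ha (hxa ▸ isIntegral_one)

theorem rootU_infinite : {z : ℂ | RootU z}.Infinite := by
  refine Set.infinite_of_injective_forall_mem
    (f := fun n : ℕ => Complex.exp (2 * Real.pi * Complex.I / ((n + 1 : ℕ) : ℂ))) ?_ fun n =>
      ⟨n + 1, Nat.succ_pos n, (Complex.isPrimitiveRoot_exp (n + 1) (by omega)).pow_eq_one⟩
  intro m n h
  simp only at h
  have hm := Complex.isPrimitiveRoot_exp (m + 1) (by omega)
  have hn := Complex.isPrimitiveRoot_exp (n + 1) (by omega)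
  rw [h] at hm
  have := hm.unique hn
  omega

/-! ### Cycles with prescribed ratios -/

/-- Distinct roots of unity and a permutation of them with prescribed ratios. -/
theorem exists_cycles (d : Fin r → ℂ) (hd : ∀ i, RootU (d i)) :
    ∀ s : Finset (Fin r), ∏ i ∈ s, d i = 1 → ∃ (f : Fin r → Fin r) (e : Fin r → ℂ),
      (∀ i ∈ s, f i ∈ s) ∧ Set.InjOn f s ∧ Set.InjOn e s ∧
        ∀ i ∈ s, RootU (e i) ∧ e i * (d i)⁻¹ = e (f i) := by
  classical
  intro s
  induction s using Finset.strongInduction with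
  | H s ih =>
    intro hs
    by_cases hne : s.Nonempty
    swap
    · exact ⟨id, fun _ => 1, by simp [Finset.not_nonempty_iff_eq_empty.1 hne]⟩
    have hC : (s.powerset.filter fun t => t.Nonempty ∧ ∏ i ∈ t, d i = 1).Nonempty :=
      ⟨s, by simp [hne, hs]⟩
    obtain ⟨t, ht, hmin⟩ := Finset.exists_min_image _ (fun t => t.card) hC
    simp only [Finset.mem_filter, Finset.mem_powerset] at ht hmin
    obtain ⟨hts, htne, ht1⟩ := ht
    obtain ⟨f', e', hf', hfi', hei', he'⟩ := ih (s \ t) (Finset.sdiff_ssubset hts htne) (by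
      have h := Finset.prod_sdiff (f := d) hts
      rwa [ht1, hs, mul_one] at h)
    let m := t.card
    have hm : 0 < m := htne.card_pos
    let g : Fin m ≃ t := t.equivFin.symm
    let D : ℕ → ℂ := fun j => if h : j < m then d (g ⟨j, h⟩) else 1
    let p : ℕ → ℂ := fun k => ∏ j ∈ Finset.range k, D j
    have hD : ∀ j, RootU (D j) := fun j => by
      simp only [D]
      split
      exacts [hd _, rootU_one]
    have hp : ∀ k, RootU (p k) := fun k => rootU_prod _ fun j _ => hD j
    have hpm : p m = 1 := by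
      simp only [p]
      rw [Finset.prod_range, ← ht1, ← Finset.prod_coe_sort t d, ← Equiv.prod_comp g]
      exact Finset.prod_congr rfl fun j _ => by simp [D, j.isLt]
    have hdist : ∀ k k', k < k' → k' < m → p k ≠ p k' := by
      intro k k' hkk hk' he
      have hI : ∏ j ∈ Finset.Ico k k', D j = 1 := by
        have h := Finset.prod_range_mul_prod_Ico D hkk.le
        change p k * _ = p k' at h
        rw [← he] at h
        exact (mul_eq_left₀ (hp k).ne_zero).1 h
      let u : Finset (Fin r) :=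
        (Finset.univ.filter fun j : Fin m => k ≤ j.val ∧ j.val < k').image fun j => (g j).1
      have hu : ∏ i ∈ u, d i = 1 := by
        rw [Finset.prod_image fun a _ c _ h => g.injective (Subtype.ext h), ← hI]
        refine Finset.prod_bij (fun j _ => j.val) (fun j hj => ?_)
          (fun a _ c _ h => Fin.ext h) (fun j hj => ?_) fun j hj => by simp [D, j.isLt]
        · simpa using hj
        · simp only [Finset.mem_Ico] at hj
          exact ⟨⟨j, by omega⟩, by simp; omega, rfl⟩
      have huc : u.card ≤ k' - k := by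
        refine Finset.card_image_le.trans ?_
        rw [← Nat.card_Ico]
        exact Finset.card_le_card_of_injOn (fun j => j.val)
          (fun j hj => by simpa using hj) fun a _ c _ h => Fin.ext h
      have huns : u ⊆ s := fun i hi => by
        obtain ⟨j, -, rfl⟩ := Finset.mem_image.1 hi
        exact hts (g j).2
      have hune : u.Nonempty :=
        ⟨_, Finset.mem_image_of_mem _ (a := ⟨k, by omega⟩) (by simp; omega)⟩
      have := hmin u ⟨huns, hune, hu⟩
      omega
    obtain ⟨ζ, hζ, hζn⟩ := rootU_infinite.exists_notMem_finset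
      (((s \ t) ×ˢ Finset.range m).image fun x => e' x.1 * p x.2)
    let f : Fin r → Fin r := fun i => if h : i ∈ t then
      (g ⟨((g.symm ⟨i, h⟩).val + 1) % m, Nat.mod_lt _ hm⟩).1 else f' i
    let e : Fin r → ℂ := fun i => if h : i ∈ t then
      ζ * (p (g.symm ⟨i, h⟩).val)⁻¹ else e' i
    have hft : ∀ i, i ∈ t → f i ∈ t := fun i hi => by
      simp only [f, dif_pos hi]
      exact Subtype.coe_prop _
    have hfn : ∀ i, i ∈ s → i ∉ t → f i ∈ s ∧ f i ∉ t := fun i hi hit => by
      simp only [f, dif_neg hit]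
      exact Finset.mem_sdiff.1 (hf' i (Finset.mem_sdiff.2 ⟨hi, hit⟩))
    refine ⟨f, e, fun i hi => ?_, ?_, ?_, fun i hi => ?_⟩
    · by_cases hit : i ∈ t
      exacts [hts (hft i hit), (hfn i hi hit).1]
    · intro i hi j hj h
      by_cases hit : i ∈ t <;> by_cases hjt : j ∈ t
      · simp only [f, dif_pos hit, dif_pos hjt] at h
        have h1 := congrArg Fin.val (g.injective (Subtype.ext h))
        have ha := (g.symm ⟨i, hit⟩).isLt
        have hb := (g.symm ⟨j, hjt⟩).isLt
        have : g.symm ⟨i, hit⟩ = g.symm ⟨j, hjt⟩ := by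
          have key : ∀ x, x < m → (x + 1) % m = if x + 1 = m then 0 else x + 1 := fun x hx => by
            split
            · next h => rw [h, Nat.mod_self]
            · next h => exact Nat.mod_eq_of_lt (by omega)
          have h2 := (key _ ha).symm.trans (h1.trans (key _ hb))
          refine Fin.ext ?_
          split_ifs at h2 <;> omega
        exact congrArg Subtype.val (g.symm.injective this)
      · exact absurd (h ▸ hft i hit) (hfn j hj hjt).2
      · exact absurd (h ▸ hft j hjt) (hfn i hi hit).2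
      · simp only [f, dif_neg hit, dif_neg hjt] at h
        exact hfi' (by simp [hit, Finset.mem_coe.1 hi]) (by simp [hjt, Finset.mem_coe.1 hj]) h
    · intro i hi j hj h
      have key : ∀ i j (hit : i ∈ t), j ∈ s → j ∉ t → e i ≠ e j := by
        intro i j hit hj hjt h
        simp only [e, dif_pos hit, dif_neg hjt] at h
        refine hζn (Finset.mem_image.2 ⟨(j, (g.symm ⟨i, hit⟩).val), by simp [hj, hjt], ?_⟩)
        show e' j * p (g.symm ⟨i, hit⟩).val = ζ
        rw [← h, mul_assoc, inv_mul_cancel₀ (hp _).ne_zero, mul_one]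
      by_cases hit : i ∈ t <;> by_cases hjt : j ∈ t
      · simp only [e, dif_pos hit, dif_pos hjt] at h
        have h1 := inv_injective (mul_left_cancel₀ (RootU.ne_zero hζ) h)
        have : g.symm ⟨i, hit⟩ = g.symm ⟨j, hjt⟩ := by
          refine Fin.ext ?_
          rcases lt_trichotomy (g.symm ⟨i, hit⟩).val (g.symm ⟨j, hjt⟩).val with h2 | h2 | h2
          · exact absurd h1 (hdist _ _ h2 (Fin.isLt _))
          · exact h2
          · exact absurd h1.symm (hdist _ _ h2 (Fin.isLt _))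
        exact congrArg Subtype.val (g.symm.injective this)
      · exact absurd h (key i j hit (Finset.mem_coe.1 hj) hjt)
      · exact absurd h.symm (key j i hjt (Finset.mem_coe.1 hi) hit)
      · simp only [e, dif_neg hit, dif_neg hjt] at h
        exact hei' (by simp [hit, Finset.mem_coe.1 hi]) (by simp [hjt, Finset.mem_coe.1 hj]) h
    · by_cases hit : i ∈ t
      · refine ⟨by simp only [e, dif_pos hit]; exact RootU.mul hζ (hp _).inv, ?_⟩
        have hfit := hft i hit
        simp only [e, dif_pos hit, dif_pos hfit]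
        have h1 : (g.symm ⟨f i, hfit⟩).val = ((g.symm ⟨i, hit⟩).val + 1) % m := by
          simp [f, hit]
        have h2 : d i = D (g.symm ⟨i, hit⟩).val := by simp [D]
        rw [h1, h2, mul_assoc, ← mul_inv,
          show p (g.symm ⟨i, hit⟩).val * D (g.symm ⟨i, hit⟩).val =
            p ((g.symm ⟨i, hit⟩).val + 1) from (Finset.prod_range_succ _ _).symm]
        rcases Nat.eq_or_lt_of_le (g.symm ⟨i, hit⟩).isLt with ha' | ha'
        · simp only [Nat.succ_eq_add_one] at ha'
          rw [ha', Nat.mod_self, hpm]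
          simp [p]
        · rw [Nat.mod_eq_of_lt ha']
      · have h := he' i (Finset.mem_sdiff.2 ⟨hi, hit⟩)
        have hfit := (hfn i hi hit).2
        simp only [f, dif_neg hit] at hfit
        simp only [e, f, dif_neg hit, dif_neg hfit]
        exact h

/-! ### Triangular integral matrices -/

/-- Upper triangular, with entries algebraic integers. -/
def TriInt (M : Mat r) : Prop := M.BlockTriangular id ∧ ∀ i j, IsIntegral ℤ (M i j)

theorem triInt_diagonal {v : Fin r → ℂ} (h : ∀ i, IsIntegral ℤ (v i)) : TriInt (diagonal v) :=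
  ⟨blockTriangular_diagonal v, fun i j => by
    rw [Matrix.diagonal_apply]; split; exacts [h i, isIntegral_zero]⟩

theorem triInt_one : TriInt (1 : Mat r) := by
  simpa using triInt_diagonal (v := fun _ : Fin r => (1 : ℂ)) fun _ => isIntegral_one

theorem TriInt.mul {M N : Mat r} (hM : TriInt M) (hN : TriInt N) : TriInt (M * N) :=
  ⟨hM.1.mul hN.1, fun i j => by
    rw [Matrix.mul_apply]; exact IsIntegral.sum _ fun k _ => (hM.2 i k).mul (hN.2 k j)⟩

theorem TriInt.sub {M N : Mat r} (hM : TriInt M) (hN : TriInt N) : TriInt (M - N) :=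
  ⟨hM.1.sub hN.1, fun i j => (hM.2 i j).sub (hN.2 i j)⟩

theorem mul_diag_tri {M N : Mat r} (hM : M.BlockTriangular id) (hN : N.BlockTriangular id)
    (i : Fin r) : (M * N) i i = M i i * N i i := by
  rw [Matrix.mul_apply, Fintype.sum_eq_single i]
  intro k hk
  rcases lt_or_gt_of_ne hk with h | h
  · rw [hM h, zero_mul]
  · rw [hN h, mul_zero]

/-- The eigenvectors of a triangular matrix with distinct diagonal. -/
theorem exists_eigvec {U : Mat r} (hU : TriInt U) (hu : Function.Injective fun i => U i i) :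
    ∃ W : Mat r, W.BlockTriangular id ∧ (∀ i, W i i = 1) ∧ (∀ i j, IsAlgebraic ℤ (W i j)) ∧
      U * W = W * diagonal (fun i => U i i) := by
  classical
  let q : Finset (Fin r) → ℂ[X] := fun s => ∏ k ∈ s, (X - Polynomial.C (U k k))
  have hq : ∀ s, TriInt (aeval U (q s)) ∧
      ∀ i, (aeval U (q s)) i i = ∏ k ∈ s, (U i i - U k k) := by
    intro s
    induction s using Finset.induction_on with
    | empty => exact ⟨by simpa [q] using triInt_one, fun i => by simp [q]⟩
    | insert k s hk ih =>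
      have h1 : aeval U (q (insert k s)) = (U - diagonal fun _ => U k k) * aeval U (q s) := by
        simp only [q, Finset.prod_insert hk, map_mul, map_sub, aeval_X, aeval_C]
        rfl
      have h2 : TriInt (U - diagonal fun _ => U k k) :=
        hU.sub (triInt_diagonal fun _ => hU.2 k k)
      refine ⟨h1 ▸ h2.mul ih.1, fun i => ?_⟩
      rw [h1, mul_diag_tri h2.1 ih.1.1, ih.2, Finset.prod_insert hk]
      simp
  let Q : Fin r → Mat r := fun j => aeval U (q (Finset.univ.erase j))
  have hQ0 : ∀ j, Q j j j ≠ 0 := fun j => by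
    refine ne_of_eq_of_ne ((hq _).2 j) (Finset.prod_ne_zero_iff.2 fun k hk => ?_)
    exact sub_ne_zero.2 fun h => Finset.ne_of_mem_erase hk (hu h).symm
  have hkill : ∀ j, U * Q j = U j j • Q j := fun j => by
    have h : aeval U ((X - Polynomial.C (U j j)) * q (Finset.univ.erase j)) = 0 := by
      rw [Finset.mul_prod_erase Finset.univ (fun k => X - Polynomial.C (U k k))
        (Finset.mem_univ j), ← Matrix.charpoly_of_isUpperTriangular _ hU.1,
        Matrix.aeval_self_charpoly]
    rw [map_mul, map_sub, aeval_X, aeval_C, sub_mul, sub_eq_zero] at h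
    rw [h, Algebra.smul_def]
  refine ⟨Matrix.of fun i j => Q j i j * (Q j j j)⁻¹, fun i j hij => ?_, fun i => ?_,
    fun i j => ?_, ?_⟩
  · exact mul_eq_zero_of_left ((hq _).1.1 hij) _
  · exact mul_inv_cancel₀ (hQ0 i)
  · exact ((hq _).1.2 i j).isAlgebraic.mul (((hq _).1.2 j j).isAlgebraic).inv
  · ext i j
    rw [Matrix.mul_apply, Matrix.mul_diagonal]
    simp only [Matrix.of_apply, ← mul_assoc, ← Finset.sum_mul]
    rw [← Matrix.mul_apply, hkill, Matrix.smul_apply, smul_eq_mul]
    ring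

theorem mem_intClosure {z : ℂ} : z ∈ (integralClosure ℤ ℂ).toSubring ↔ IsIntegral ℤ z := Iff.rfl

/-- The integral base point. -/
theorem base_spec : BaseSpec := by
  intro b r hr C hC
  classical
  let S : Subgroup (SLC r) := intSL (integralClosure ℤ ℂ).toSubring r
  have hrep : ∀ j, ∃ J : SLC r, IsConj (C j) J ∧ TriInt J.1 ∧ ∀ i, RootU (J.1 i i) := by
    intro j
    obtain ⟨P, J0, h, hCJ, hJ, hh⟩ := exists_normal_height (C j).1
    let σ := Tuple.sort h
    let J1 : Mat r := J0.submatrix σ σ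
    have hroot : ∀ z, (C j).1.charpoly.IsRoot z → RootU z := hC j
    have htri : J1.BlockTriangular id := by
      intro p q hqp
      by_contra hne
      rcases hh _ _ hne with h1 | h1
      · exact (ne_of_lt hqp) (σ.injective h1).symm
      · exact absurd h1 (not_lt.2 (Tuple.monotone_sort h (le_of_lt hqp)))
    have hint : ∀ p q, IsIntegral ℤ (J1 p q) := fun p q => by
      rcases hJ (σ p) (σ q) with h1 | h1 | h1
      · simp [J1, h1, isIntegral_zero]
      · simp [J1, h1, isIntegral_one]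
      · exact (hroot _ h1).isIntegral
    have hdet : J1.det = 1 := by
      rw [Matrix.det_submatrix_equiv_self, ← Matrix.det_units_conj P J0, ← hCJ]
      exact (C j).2
    obtain ⟨J, hJv⟩ : ∃ J : SLC r, J.1 = J1 := ⟨⟨J1, hdet⟩, rfl⟩
    refine ⟨J, ?_, hJv ▸ ⟨htri, hint⟩, fun i => ?_⟩
    · let Pm : Mat r := σ.permMatrix ℂ
      have hJ1 : J1 = Pm * J0 * Equiv.Perm.permMatrix ℂ σ.symm := by
        ext p q
        simp [J1, Pm, Equiv.Perm.permMatrix, PEquiv.toMatrix_toPEquiv_mul,
          PEquiv.mul_toMatrix_toPEquiv]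
      have hu1 : Pm * Equiv.Perm.permMatrix ℂ σ.symm = 1 := by
        simp [Pm, Equiv.Perm.permMatrix, ← PEquiv.toMatrix_trans, ← Equiv.toPEquiv_trans]
      let U : (Mat r)ˣ := ⟨Pm, Equiv.Perm.permMatrix ℂ σ.symm, hu1, mul_eq_one_comm.1 hu1⟩
      refine isConj_of_units J (C j) (U * P⁻¹) ?_
      rw [hJv, hJ1, _root_.mul_inv_rev, inv_inv, Units.val_mul, Units.val_mul, hCJ]
      show Pm * J0 * Equiv.Perm.permMatrix ℂ σ.symm = _
      simp only [Matrix.mul_assoc, Units.inv_mul_cancel_left]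
      rfl
    · have hd : ∏ k, J1 k k = 1 := by rw [← Matrix.det_of_isUpperTriangular htri, hdet]
      rw [hJv]
      rcases hJ (σ i) (σ i) with h1 | h1 | h1
      · exfalso
        rw [Finset.prod_eq_zero (Finset.mem_univ i) (by simpa [J1] using h1)] at hd
        exact zero_ne_one hd
      · simp [J1, h1, rootU_one]
      · exact hroot _ h1
  choose J hJC hJT hJR using hrep
  have hS : ∀ {M : SLC r}, M ∈ S ↔ ∀ i j, IsIntegral ℤ (M.1 i j) := Iff.rfl
  have hT : ∀ k, TriInt (tpre J k).1 ∧ ∀ i, RootU ((tpre J k).1 i i) := by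
    intro k
    induction k with
    | zero => exact ⟨triInt_one, fun i => by simp [tpre, rootU_one]⟩
    | succ k ih =>
      simp only [tpre]
      split
      · rw [Matrix.SpecialLinearGroup.coe_mul]
        exact ⟨ih.1.mul (hJT _), fun i => by
          rw [mul_diag_tri ih.1.1 (hJT _).1]; exact (ih.2 i).mul (hJR _ i)⟩
      · exact ih
  obtain ⟨T, hTdef⟩ : ∃ T, T = tpre J b := ⟨_, rfl⟩
  obtain ⟨⟨hTt, hTi⟩, hTR⟩ := hTdef ▸ hT b
  have hTinv : (T⁻¹).1 * T.1 = 1 := congrArg Subtype.val (inv_mul_cancel T)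
  have hTit : ((T⁻¹).1).BlockTriangular id := by
    have : Invertible T.1 := ⟨(T⁻¹).1, hTinv, mul_eq_one_comm.1 hTinv⟩
    rw [← Matrix.inv_eq_left_inv hTinv]
    exact blockTriangular_inv_of_blockTriangular hTt
  have hTid : ∀ i, (T⁻¹).1 i i = (T.1 i i)⁻¹ := fun i => by
    refine eq_inv_of_mul_eq_one_left ?_
    rw [← mul_diag_tri hTit hTt, hTinv, Matrix.one_apply_eq]
  have hTprod : ∏ i, T.1 i i = 1 := by rw [← Matrix.det_of_isUpperTriangular hTt, T.2]
  obtain ⟨f, e0, -, hfi, hei, he0⟩ := exists_cycles (fun i => T.1 i i) hTR Finset.univ hTprod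
  let σ : Equiv.Perm (Fin r) := Equiv.ofBijective f (Finite.injective_iff_bijective.1
    fun i j h => hfi (by simp) (by simp) h)
  obtain ⟨lam, hlam⟩ := IsAlgClosed.exists_pow_nat_eq (∏ i, e0 i)⁻¹ (n := r) (by omega)
  have hlamR : RootU lam :=
    RootU.of_pow (by omega : 0 < r) (hlam ▸ (rootU_prod _ fun i hi => (he0 i hi).1).inv)
  let e : Fin r → ℂ := fun i => lam * e0 i
  have heR : ∀ i, RootU (e i) := fun i => hlamR.mul (he0 i (Finset.mem_univ i)).1
  have he1 : ∏ i, e i = 1 := by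
    rw [Finset.prod_mul_distrib, Finset.prod_const, Finset.card_univ, Fintype.card_fin, hlam,
      inv_mul_cancel₀ (rootU_prod _ fun i hi => (he0 i hi).1).ne_zero]
  obtain ⟨c, hc⟩ : ∃ c : SLC r, c.1 = diagonal e := ⟨⟨diagonal e, by rw [det_diagonal, he1]⟩, rfl⟩
  obtain ⟨Du, hDu⟩ : ∃ Du : SLC r, Du.1 = diagonal fun i => e (σ i) :=
    ⟨⟨diagonal fun i => e (σ i), by rw [det_diagonal, Equiv.prod_comp σ e, he1]⟩, rfl⟩
  obtain ⟨s, hs⟩ := IsAlgClosed.exists_pow_nat_eq ((Equiv.Perm.sign σ : ℤ) : ℂ) (n := r)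
    (by omega)
  have hsgn : (((Equiv.Perm.sign σ : ℤ) : ℂ)) * ((Equiv.Perm.sign σ : ℤ) : ℂ) = 1 := by
    rw [← Int.cast_mul, ← Units.val_mul, Int.units_mul_self]; simp
  have hsR : RootU s := RootU.of_pow (by omega : 0 < r) ⟨2, two_pos, by rw [hs, sq, hsgn]⟩
  obtain ⟨Pi, hPi⟩ : ∃ Pi : SLC r, Pi.1 = s • σ.permMatrix ℂ := ⟨⟨s • σ.permMatrix ℂ, by
    rw [Matrix.det_smul, Fintype.card_fin, hs, Matrix.det_permutation]; exact hsgn⟩, rfl⟩
  have hPc : Pi * c = Du * Pi := Subtype.ext (by
    rw [Matrix.SpecialLinearGroup.coe_mul, Matrix.SpecialLinearGroup.coe_mul, hPi, hc, hDu]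
    ext i k
    rw [Matrix.mul_diagonal, Matrix.diagonal_mul]
    by_cases h : σ i = k <;> simp [Equiv.Perm.permMatrix, h, mul_comm])
  obtain ⟨U, hU⟩ : ∃ U : Mat r, U = (T⁻¹).1 * c.1 := ⟨_, rfl⟩
  have hUd : ∀ i, U i i = e (σ i) := fun i => by
    rw [hU, hc, Matrix.mul_diagonal, hTid, mul_comm, mul_assoc]
    exact congrArg (lam * ·) (he0 i (Finset.mem_univ i)).2
  have hUT : TriInt U := hU ▸ TriInt.mul
    ⟨hTit, hS.1 (S.inv_mem (hS.2 hTi))⟩ (hc ▸ triInt_diagonal fun i => (heR i).isIntegral)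
  obtain ⟨W0, hWt, hW1, hWa, hWU⟩ := exists_eigvec hUT (fun i j h => by
    simp only [hUd] at h
    exact σ.injective (hei (by simp) (by simp) (mul_left_cancel₀ hlamR.ne_zero h)))
  simp only [hUd] at hWU
  obtain ⟨W, hW⟩ : ∃ W : SLC r, W.1 = W0 :=
    ⟨⟨W0, by rw [Matrix.det_of_isUpperTriangular hWt]; simp [hW1]⟩, rfl⟩
  have hTW : T⁻¹ * c * W = W * Du := Subtype.ext (by
    rw [Matrix.SpecialLinearGroup.coe_mul, Matrix.SpecialLinearGroup.coe_mul,
      Matrix.SpecialLinearGroup.coe_mul, hW, hDu, ← hU, hWU])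
  choose y hy0 hy using fun p : Fin r × Fin r => (hWa p.1 p.2).exists_integral_multiple
  let K : ℤ := ∏ p, y p
  have hK0 : (K : ℂ) ≠ 0 := Int.cast_ne_zero.2 (Finset.prod_ne_zero_iff.2 fun p _ => hy0 p)
  have hKW : ∀ i j, IsIntegral ℤ ((K : ℂ) * W0 i j) := fun i j => by
    have h1 : (K : ℂ) * W0 i j =
        ((∏ p ∈ Finset.univ.erase (i, j), y p : ℤ) : ℂ) * (y (i, j) • W0 i j) := by
      rw [zsmul_eq_mul, ← mul_assoc, ← Int.cast_mul, mul_comm (∏ p ∈ _, y p),
        Finset.mul_prod_erase _ _ (Finset.mem_univ _)]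
    rw [h1]
    exact (isIntegral_algebraMap (R := ℤ) (A := ℂ)).mul (hy (i, j))
  obtain ⟨ν, hν⟩ := IsAlgClosed.exists_pow_nat_eq (∏ i : Fin r, (K : ℂ) ^ i.val)⁻¹ (n := r)
    (by omega)
  obtain ⟨H, hH⟩ : ∃ H : SLC r, H.1 = diagonal fun i => ν * (K : ℂ) ^ i.val := ⟨⟨diagonal fun i : Fin r => ν * (K : ℂ) ^ i.val, by
    rw [det_diagonal, Finset.prod_mul_distrib, Finset.prod_const, Finset.card_univ,
      Fintype.card_fin, hν,
      inv_mul_cancel₀ (Finset.prod_ne_zero_iff.2 fun i _ => pow_ne_zero _ hK0)]⟩, rfl⟩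
  have hdiag : ∀ M : SLC r, ∀ v, M.1 = diagonal v → H * M = M * H := fun M v hM => Subtype.ext (by
    rw [Matrix.SpecialLinearGroup.coe_mul, Matrix.SpecialLinearGroup.coe_mul, hH, hM,
      diagonal_mul_diagonal, diagonal_mul_diagonal]
    exact congrArg diagonal (funext fun i => mul_comm _ _))
  have hscale : ∀ M : SLC r, M.1.BlockTriangular id → (∀ i, IsIntegral ℤ (M.1 i i)) →
      (∀ i j, IsIntegral ℤ ((K : ℂ) * M.1 i j)) → H⁻¹ * M * H ∈ S := by
    intro M hMt hMd hMK
    let X : Mat r := Matrix.of fun i j => M.1 i j * (K : ℂ) ^ (j.val - i.val)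
    have h1 : H.1 * X = M.1 * H.1 := by
      ext i j
      rw [hH, Matrix.diagonal_mul, Matrix.mul_diagonal]
      simp only [X, Matrix.of_apply]
      rcases lt_or_ge j i with h | h
      · rw [hMt h]; ring
      · conv_rhs => rw [← Nat.add_sub_cancel' (Fin.le_def.1 h), pow_add]
        ring
    have h2 : (H⁻¹ * M * H).1 = X := by
      rw [Matrix.SpecialLinearGroup.coe_mul, Matrix.SpecialLinearGroup.coe_mul, Matrix.mul_assoc,
        ← h1, ← Matrix.mul_assoc]
      rw [show (H⁻¹).1 * H.1 = 1 from congrArg Subtype.val (inv_mul_cancel H), Matrix.one_mul]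
    rw [hS, h2]
    intro i j
    simp only [X, Matrix.of_apply]
    rcases lt_trichotomy i j with h | h | h
    · obtain ⟨n, hn⟩ : ∃ n, j.val - i.val = n + 1 :=
        ⟨j.val - i.val - 1, by have := Fin.lt_def.1 h; omega⟩
      rw [hn, pow_succ, ← mul_assoc, mul_right_comm, mul_comm (M.1 i j)]
      exact (hMK i j).mul ((isIntegral_algebraMap (R := ℤ) (A := ℂ)).pow n)
    · subst h; simpa using hMd i
    · rw [hMt h, zero_mul]; exact isIntegral_zero
  let J' : Fin b → SLC r := fun j => H⁻¹ * J j * H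
  let a : SLC r := H⁻¹ * W * H * Pi
  have hconj : ∀ k, tpre J' k = H⁻¹ * tpre J k * H := by
    intro k
    induction k with
    | zero => simp [tpre]
    | succ k ih =>
      simp only [tpre]
      split
      · rw [ih]; simp only [J', mul_assoc, mul_inv_cancel_left]
      · exact ih
  have hJ'S : ∀ j, J' j ∈ S := fun j => hscale _ (hJT j).1 (fun i => (hJT j).2 i i) fun i k =>
    (isIntegral_algebraMap (R := ℤ) (A := ℂ)).mul ((hJT j).2 i k)
  have hPiS : Pi ∈ S := hS.2 fun i k => by
    rw [hPi]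
    by_cases h : σ i = k <;>
      simp [Equiv.Perm.permMatrix, h, hsR.isIntegral, isIntegral_zero]
  have haS : a ∈ S := S.mul_mem (hscale W (hW ▸ hWt)
    (fun i => by rw [hW, hW1]; exact isIntegral_one) (fun i k => hW ▸ hKW i k)) hPiS
  have hcS : c ∈ S := hS.2 (hc ▸ (triInt_diagonal fun i => (heR i).isIntegral).2)
  have hac : a * c = (tpre J' b)⁻¹ * c * a := by
    have h1 := hdiag c e hc
    have h2 := hdiag Du _ hDu
    calc a * c = H⁻¹ * W * (H * Du) * Pi := by simp only [a, mul_assoc, hPc]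
      _ = H⁻¹ * (W * Du) * H * Pi := by rw [h2]; simp only [mul_assoc]
      _ = H⁻¹ * T⁻¹ * (H * c) * (H⁻¹ * W * H * Pi) := by
          rw [← hTW, h1]; simp only [mul_assoc, mul_inv_cancel_left]
      _ = _ := by
          rw [hconj, ← hTdef]
          simp only [a, _root_.mul_inv_rev, inv_inv, mul_assoc]
  let Ent : Set ℂ := Set.range (fun p : Fin r × Fin r => a.1 p.1 p.2) ∪
    Set.range (fun p : Fin r × Fin r => c.1 p.1 p.2) ∪
    Set.range fun p : Fin b × Fin r × Fin r => (J' p.1).1 p.2.1 p.2.2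
  have : Finite Ent :=
    (((Set.finite_range _).union (Set.finite_range _)).union (Set.finite_range _)).to_subtype
  have hEnt : ∀ x ∈ Ent, IsIntegral ℤ x := by
    rintro x ((⟨p, rfl⟩ | ⟨p, rfl⟩) | ⟨p, rfl⟩)
    exacts [hS.1 haS _ _, hS.1 hcS _ _, hS.1 (hJ'S _) _ _]
  refine ⟨IntermediateField.adjoin ℚ Ent,
    IntermediateField.finiteDimensional_adjoin fun x hx => (hEnt x hx).tower_top,
    J', a, c, fun j => (hJC j).trans (isConj_iff.2 ⟨H⁻¹, by simp [J']⟩), ?_, ?_, ?_, ?_⟩
  · exact fun i k => ⟨IntermediateField.subset_adjoin ℚ Ent (Or.inl (Or.inl ⟨(i, k), rfl⟩)),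
      hS.1 haS i k⟩
  · exact fun i k => ⟨IntermediateField.subset_adjoin ℚ Ent (Or.inl (Or.inr ⟨(i, k), rfl⟩)),
      hS.1 hcS i k⟩
  · exact fun j i k => ⟨IntermediateField.subset_adjoin ℚ Ent (Or.inr ⟨(j, i, k), rfl⟩),
      hS.1 (hJ'S j) i k⟩
  · show a * c * a⁻¹ * c⁻¹ * tpre J' b = 1
    rw [hac]
    group

end Vale.Agent.P002.Punct
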