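import Vale.Agent.P002.Punct.Deriv

/-!
P002, punctured surface groups: near a brick representation with conjugated punctures there are
representations with irreducible handles and the chosen pair in a given open dense set.
-/

namespace Vale.Agent.P002.Punct.Dens

open Matrix Module Filter
open Vale.Agent.P002.Surf
open scoped Matrix.Norms.Operator Topology

variable {g b r : ℕ}

/-- Translation of the conjugating matrices. -/
def shiftX (X : Fin b → Mat r) (w : PPt g b r) : PPt g b r := (w.1, fun j => w.2 j * X j)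

theorem continuous_shiftX (X : Fin b → Mat r) : Continuous (shiftX (g := g) X) := by
  unfold shiftX
  fun_prop

theorem shiftX_base (z : PPt g b r) :
    shiftX z.2 ((z.1, fun _ => 1) : PPt g b r) = z := by
  simp [shiftX]

theorem tconj_shift {J X : Fin b → Mat r} (W : Fin b → Mat r) :
    tconj J (fun j => W j * X j) = tconj (tconj J X) W := by
  funext j
  simp only [tconj, Matrix.mul_inv_rev, mul_assoc]

theorem isLift_shiftX {J X : Fin b → Mat r} (hX : ∀ j, IsUnit (X j).det) {w : PPt g b r}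
    (hw : IsLift (tconj J X) w) : IsLift J (shiftX X w) := by
  refine ⟨hw.1, fun j => ?_, ?_⟩
  · show IsUnit (w.2 j * X j).det
    rw [det_mul]
    exact (hw.2.1 j).mul (hX j)
  · show relProd w.1 * tProd (tconj J fun j => w.2 j * X j) = 1
    rw [tconj_shift]
    exact hw.2.2

theorem isUnit_det_J {J : Fin b → Mat r} {z : PPt g b r} (hJ : ∀ j, IsUnit (J j).det)
    (hz : IsLift J z) : IsPRep (lower J z) :=
  ⟨hz.1, fun j => by show IsUnit (tconj J z.2 j).det; rw [det_tconj hz.2.1]; exact hJ j, hz.2.2⟩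

theorem continuousAt_tconj {J : Fin b → Mat r} {z : PPt g b r} (hz : ∀ j, IsUnit (z.2 j).det) :
    ContinuousAt (fun w : PPt g b r => tconj J w.2) z := by
  refine continuousAt_pi.2 fun j => ?_
  have hu : IsUnit (z.2 j) := (Matrix.isUnit_iff_isUnit_det _).2 (hz j)
  have hi : ContinuousAt (fun M : Mat r => M⁻¹) (z.2 j) := by
    simp only [Matrix.nonsing_inv_eq_ringInverse]
    exact (hu.unit_spec ▸ contDiffAt_ringInverse (n := 1) ℂ hu.unit).continuousAt
  have h1 : ContinuousAt (fun w : PPt g b r => w.2 j) z := Continuous.continuousAt (by fun_prop)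
  exact (h1.mul continuousAt_const).mul (hi.comp (f := fun w : PPt g b r => w.2 j) h1)

theorem eventually_units {z : PPt g b r} (hg : IsGL z.1) (hz : ∀ j, IsUnit (z.2 j).det) :
    ∀ᶠ w in 𝓝 z, IsGL w.1 ∧ ∀ j, IsUnit (w.2 j).det := by
  refine Eventually.and ((continuous_fst.tendsto z).eventually (isOpen_isGL.eventually_mem hg)) ?_
  refine eventually_all.2 fun j => ?_
  have hc : Continuous fun w : PPt g b r => (w.2 j).det := by fun_prop
  filter_upwards [(isOpen_ne.preimage hc).eventually_mem (hz j).ne_zero] with w hw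
  exact isUnit_iff_ne_zero.2 hw

theorem isLift_eventually [NeZero r] {y : PPt g b r} (hy : IsPRep y) :
    ∀ᶠ w in 𝓝 ((y.1, fun _ => 1) : PPt g b r),
      slProj r (phi y.2 w) = 0 → IsLift y.2 w := by
  have hu1 : ∀ j : Fin b, IsUnit (((y.1, fun _ => 1) : PPt g b r).2 j).det := fun _ => by simp
  have hc := (contDiffAt_phi (c := y.2) (w := ((y.1, fun _ => 1) : PPt g b r)) hy.1
    hu1).continuousAt
  have h1 : ∀ᶠ w in 𝓝 ((y.1, fun _ => 1) : PPt g b r),
      (phi y.2 w).det = 1 → slProj r (phi y.2 w) = 0 → phi y.2 w = 1 :=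
    hc.eventually (p := fun M => M.det = 1 → slProj r M = 0 → M = 1)
      (by rw [phi_base hy]; exact eventually_eq_one)
  filter_upwards [h1, eventually_units (z := ((y.1, fun _ => 1) : PPt g b r)) hy.1 hu1]
    with w hw hu hp
  refine ⟨hu.1, hu.2, hw ?_ hp⟩
  have h := congrArg Matrix.det hy.2.2
  rw [det_mul, det_relProd_gl hy.1, one_mul, det_one] at h
  rw [phi, det_mul, det_relProd_gl hu.1, one_mul, det_tProd_tconj hu.2, h]

theorem hasStrictFDerivAt_slPhi [NeZero r] {y : PPt g b r} (hy : IsPRep y) :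
    HasStrictFDerivAt (fun w : PPt g b r => slProj r (phi y.2 w))
      ((slProj r).comp (dPh y).toContinuousLinearMap) ((y.1, fun _ => 1) : PPt g b r) :=
  (slProj r).hasStrictFDerivAt.comp _ (hasStrictFDerivAt_phi hy)

theorem slProj_dPh [NeZero r] {y : PPt g b r} (hy : IsPRep y) (v : PPt g b r) :
    ((slProj r (dPh y v) : slMat r) : Mat r) = dPh y v := by
  rw [slProj_of_mem (dPh_mem_slMat hy v)]

theorem exists_curve_lift [NeZero r] {y : PPt g b r} (hy : IsPRep y) (hb : PBrick y)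
    {v : PPt g b r} (hv : dPh y v = 0) :
    ∃ γ : ℂ → PPt g b r, γ 0 = ((y.1, fun _ => 1) : PPt g b r) ∧ HasDerivAt γ v 0 ∧
      ∀ᶠ t in 𝓝 0, IsLift y.2 (γ t) := by
  have : @CompleteSpace (PPt g b r) PseudoMetricSpace.toUniformSpace :=
    FiniteDimensional.complete ℂ _
  set x0 : PPt g b r := (y.1, fun _ => 1) with hx0
  set f' := (slProj r).comp (dPh y).toContinuousLinearMap with hf'
  have hsurj : LinearMap.range (f' : PPt g b r →ₗ[ℂ] slMat r) = ⊤ := by
    refine LinearMap.range_eq_top.2 fun s => ?_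
    obtain ⟨u, hu⟩ := (range_dPh hy hb).ge s.2
    exact ⟨u, Subtype.ext ((slProj_dPh hy u).trans hu)⟩
  have hf : HasStrictFDerivAt (fun w : PPt g b r => slProj r (phi y.2 w)) f' x0 :=
    hasStrictFDerivAt_slPhi hy
  have hker : v ∈ LinearMap.ker (f' : PPt g b r →ₗ[ℂ] slMat r) := by simp [hf', hv]
  set φ := hf.implicitFunction _ _ hsurj (slProj r (phi y.2 x0)) with hφ
  have hφ0 : φ 0 = x0 := hf.implicitFunction_apply_image hsurj
  let u : LinearMap.ker (f' : PPt g b r →ₗ[ℂ] slMat r) := ⟨v, hker⟩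
  have hd : HasDerivAt (fun t : ℂ => φ (t • u)) v 0 := by
    have h2 : HasDerivAt (fun t : ℂ => t • u) u 0 :=
      ((hasDerivAt_id (0 : ℂ)).smul_const u).congr_deriv (one_smul ℂ _)
    exact (hf.to_implicitFunction hsurj).hasFDerivAt.comp_hasDerivAt_of_eq (0 : ℂ) h2
      (zero_smul ℂ u).symm
  have hz : φ ((0 : ℂ) • u) = x0 := (congrArg φ (zero_smul ℂ u)).trans hφ0
  refine ⟨fun t => φ (t • u), hz, hd, ?_⟩
  have ht0 : Tendsto (fun t : ℂ => t • u) (𝓝 0) (𝓝 0) := by
    have := (continuous_id.smul continuous_const).tendsto (0 : ℂ) (f := fun t : ℂ => t • u)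
    simpa using this
  have h1 : ∀ᶠ t : ℂ in 𝓝 0, slProj r (phi y.2 (φ (t • u))) = slProj r (phi y.2 x0) := by
    have h := hf.map_implicitFunction_eq hsurj
    have hp : ∀ᶠ t : ℂ in 𝓝 0, (slProj r (phi y.2 x0), t • u) ∈
        {p | slProj r (phi y.2 (hf.implicitFunction _ _ hsurj p.1 p.2)) = p.1} :=
      (tendsto_const_nhds.prodMk_nhds ht0).eventually h
    exact hp
  have h2 : Tendsto (fun t : ℂ => φ (t • u)) (𝓝 0) (𝓝 x0) := by
    have := hd.continuousAt.tendsto
    rwa [hz] at this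
  filter_upwards [h1, h2.eventually (isLift_eventually hy)] with t ht hrep
  refine hrep ?_
  rw [ht, phi_base hy, slProj_one]

/-- A velocity of one handle is realised by a curve of lifts. -/
theorem exists_curve_handle [NeZero r] {J : Fin b → Mat r} (hJ : ∀ j, IsUnit (J j).det)
    {z : PPt g b r} (hz : IsLift J z) (hb : PBrick (lower J z)) {v : PPt g b r}
    (hv : dPh (lower J z) v = 0) (k : Fin g) :
    ∃ γ : ℂ → {w : PPt g b r // IsLift J w}, γ 0 = ⟨z, hz⟩ ∧ ContinuousAt γ 0 ∧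
      HasDerivAt (fun t => (γ t : PPt g b r).1 k) (v.1 k) 0 := by
  classical
  obtain ⟨c, h0, hd, hev⟩ := exists_curve_lift (isUnit_det_J hJ hz) hb hv
  have hev' : ∀ᶠ t in 𝓝 0, IsLift J (shiftX z.2 (c t)) :=
    hev.mono fun t ht => isLift_shiftX hz.2.1 ht
  have hc0 : shiftX z.2 (c 0) = z := by rw [h0]; exact shiftX_base z
  refine ⟨fun t => if h : IsLift J (shiftX z.2 (c t)) then ⟨_, h⟩ else ⟨z, hz⟩, ?_, ?_, ?_⟩
  · dsimp only
    split_ifs
    · exact Subtype.ext hc0
    · rfl
  · refine (Topology.IsInducing.subtypeVal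
      (t := {w : PPt g b r | IsLift J w})).continuousAt_iff.2 ?_
    refine ((continuous_shiftX z.2).continuousAt.comp hd.continuousAt).congr ?_
    filter_upwards [hev'] with t ht
    simp only [Function.comp_apply, dif_pos ht]
  · have hd1 : HasDerivAt (fun t => (c t).1 k) (v.1 k) 0 :=
      hasDerivAt_pi.1 (hasFDerivAt_fst.comp_hasDerivAt (0 : ℂ) hd) k
    refine hd1.congr_of_eventuallyEq ?_
    filter_upwards [hev'] with t ht
    rw [dif_pos ht]
    rfl

theorem eventually_pbrick [NeZero r] {J : Fin b → Mat r} {z : PPt g b r}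
    (hz : ∀ j, IsUnit (z.2 j).det) (hb : PBrick (lower J z)) :
    ∀ᶠ w in 𝓝 z, PBrick (lower J w) := by
  have hc : ContinuousAt (fun w : PPt g b r => enl (lower J w)) z := by
    have ha : ∀ i, ContinuousAt (fun w : PPt g b r => (w.1 i).1) z ∧
        ContinuousAt (fun w : PPt g b r => (w.1 i).2) z := fun i =>
      ⟨Continuous.continuousAt (by fun_prop), Continuous.continuousAt (by fun_prop)⟩
    have hd : ∀ k, ContinuousAt (fun w : PPt g b r => (enl (lower J w) k).1) z := by
      intro k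
      induction k using Fin.addCases with
      | left k =>
        induction k using Fin.addCases with
        | left i => simpa only [enl, lower, Fin.append_left, Fin.append_right] using (ha i).1
        | right i => simpa only [enl, lower, Fin.append_left, Fin.append_right] using (ha i).2
      | right j =>
        simpa only [enl, lower, Fin.append_left, Fin.append_right] using
          continuousAt_pi.1 (continuousAt_tconj (J := J) hz) j
    exact continuousAt_pi.2 fun k => (hd k).prodMk (hd k)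
  exact (hc.eventually (eventually_brick (brick_enl.2 hb))).mono fun w hw => brick_enl.1 hw

theorem exists_scalar_pair' [NeZero r] (PB : PairBound) {J : Fin b → Mat r}
    (hJ : ∀ j, IsUnit (J j).det) {z : PPt g b r} (hz : IsLift J z) (hb : PBrick (lower J z))
    {i j : Fin g} (hij : i ≠ j) {N : Set (PPt g b r)} (hN : N ∈ 𝓝 z) :
    ∃ w ∈ N, IsLift J w ∧ (PairScalar (w.1 i) ∨ PairScalar (w.1 j)) := by
  by_contra hcon
  push Not at hcon
  obtain ⟨U₀, hU₀s, hU₀, hzU₀⟩ :=
    mem_nhds_iff.1 (inter_mem hN (eventually_pbrick hz.2.1 hb))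
  let X := {w : PPt g b r // IsLift J w}
  let U : Set X := Subtype.val ⁻¹' U₀
  have hpc : ∀ k : Fin g, Continuous fun w : X => (w : PPt g b r).1 k :=
    fun k => (continuous_apply k).comp (continuous_fst.comp continuous_subtype_val)
  obtain ⟨U₁, hU₁o, hU₁ne, hU₁s, hU₁⟩ := PB r X (fun w => (w : PPt g b r).1 i) (hpc i) U
    (hU₀.preimage continuous_subtype_val) ⟨⟨z, hz⟩, hzU₀⟩
    fun w hw => (hcon w (hU₀s hw).1 w.2).1
  obtain ⟨U₂, -, ⟨w, hw⟩, hU₂s, hU₂⟩ := PB r X (fun w => (w : PPt g b r).1 j) (hpc j) U₁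
    hU₁o hU₁ne fun w hw => (hcon w (hU₀s (hU₁s hw)).1 w.2).2
  have hbw : PBrick (lower J (w : PPt g b r)) := (hU₀s (hU₁s (hU₂s hw))).2
  have hcur : ∀ k : Fin g, ∀ v ∈ (LinearMap.ker (dPh (lower J (w : PPt g b r)))).map
      (LinearMap.proj k ∘ₗ LinearMap.fst ℂ (Pt g r) (Fin b → Mat r)),
      ∃ γ : ℂ → X, γ 0 = w ∧ ContinuousAt γ 0 ∧
        HasDerivAt ((fun u : X => (u : PPt g b r).1 k) ∘ γ) v 0 := by
    rintro k _ ⟨u, hu, rfl⟩
    exact exists_curve_handle hJ w.2 hbw (LinearMap.mem_ker.1 hu) k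
  have b1 := hU₁ w (hU₂s hw) _ (hcur i)
  have b2 := hU₂ w hw _ (hcur j)
  have hrep := isUnit_det_J hJ w.2
  have l1 : 2 * (r * r) + 1 ≤ finrank ℂ ((LinearMap.ker (dPh (lower J (w : PPt g b r)))).map
      (LinearMap.proj i ∘ₗ LinearMap.fst ℂ (Pt g r) (Fin b → Mat r)))
      + finrank ℂ (pairCommutant ((w : PPt g b r).1 j)) :=
    finrank_tangent_proj' hrep hbw (i := i) hij.symm
  have l2 : 2 * (r * r) + 1 ≤ finrank ℂ ((LinearMap.ker (dPh (lower J (w : PPt g b r)))).map
      (LinearMap.proj j ∘ₗ LinearMap.fst ℂ (Pt g r) (Fin b → Mat r)))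
      + finrank ℂ (pairCommutant ((w : PPt g b r).1 i)) :=
    finrank_tangent_proj' hrep hbw (i := j) hij
  simp only [mul_assoc] at b1 b2
  omega

theorem open_proj_base [NeZero r] {y : PPt g b r} (hy : IsPRep y) {i k : Fin g} (hik : i ≠ k)
    (hk : PairScalar (y.1 k)) {N : Set (PPt g b r)}
    (hN : N ∈ 𝓝 ((y.1, fun _ => 1) : PPt g b r)) :
    {p | ∃ w ∈ N, IsLift y.2 w ∧ w.1 i = p} ∈ 𝓝 (y.1 i) := by
  have : @CompleteSpace (PPt g b r) PseudoMetricSpace.toUniformSpace :=
    FiniteDimensional.complete ℂ _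
  have : @CompleteSpace (slMat r × Pair r) PseudoMetricSpace.toUniformSpace :=
    FiniteDimensional.complete ℂ _
  set P := (ContinuousLinearMap.proj (R := ℂ) (φ := fun _ : Fin g => Pair r) i).comp
    (ContinuousLinearMap.fst ℂ (Pt g r) (Fin b → Mat r)) with hP
  set H' := ((slProj r).comp (dPh y).toContinuousLinearMap).prod P with hH'
  have hH : HasStrictFDerivAt (fun w : PPt g b r => (slProj r (phi y.2 w), w.1 i)) H'
      ((y.1, fun _ => 1) : PPt g b r) :=
    (hasStrictFDerivAt_slPhi hy).prodMk P.hasStrictFDerivAt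
  have hsurj : LinearMap.range (H' : PPt g b r →ₗ[ℂ] slMat r × Pair r) = ⊤ := by
    refine LinearMap.range_eq_top.2 fun sw => ?_
    obtain ⟨s, w⟩ := sw
    have hmem : (s : Mat r) - relTerm y.1 i w ∈ LinearMap.range (relTerm y.1 k) := by
      rw [range_relTerm_of_scalar hy.1 hk]
      refine Submodule.sub_mem _ s.2 ?_
      rw [← dPh_single]
      exact dPh_mem_slMat hy _
    obtain ⟨u, hu⟩ := hmem
    let U : PPt g b r := (Pi.single k u, 0)
    let V : PPt g b r := (Pi.single i w, 0)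
    have hUV : dPh y (U + V) = (s : Mat r) := by
      rw [map_add, dPh_single, dPh_single, hu, sub_add_cancel]
    refine ⟨U + V, ?_⟩
    have e1 : slProj r (dPh y (U + V)) = s :=
      Subtype.ext ((slProj_dPh hy (U + V)).trans hUV)
    have e2 : P (U + V) = w := by simp [hP, U, V, hik]
    exact Prod.ext e1 e2
  have hmap := hH.map_nhds_eq_of_surj hsurj
  have hmem : N ∩ {w | slProj r (phi y.2 w) = 0 → IsLift y.2 w} ∈
      𝓝 ((y.1, fun _ => 1) : PPt g b r) := inter_mem hN (isLift_eventually hy)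
  have himg := image_mem_map (m := fun w : PPt g b r => (slProj r (phi y.2 w), w.1 i)) hmem
  have himg2 := Filter.le_def.1 hmap.ge _ himg
  rw [phi_base hy, slProj_one] at himg2
  have hc : Continuous fun p : Pair r => ((0 : slMat r), p) := by fun_prop
  refine mem_of_superset (hc.continuousAt.preimage_mem_nhds himg2) ?_
  rintro p ⟨w, ⟨hwN, hwR⟩, hw⟩
  obtain ⟨h1, h2⟩ := Prod.ext_iff.1 hw
  exact ⟨w, hwN, hwR h1, h2⟩

/-- A pair with scalar commutant makes the projection to another handle open. -/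
theorem open_proj' [NeZero r] {J : Fin b → Mat r} (hJ : ∀ j, IsUnit (J j).det) {z : PPt g b r}
    (hz : IsLift J z) {i k : Fin g} (hik : i ≠ k) (hk : PairScalar (z.1 k))
    {N : Set (PPt g b r)} (hN : N ∈ 𝓝 z) :
    {p | ∃ w ∈ N, IsLift J w ∧ w.1 i = p} ∈ 𝓝 (z.1 i) := by
  have hN' : shiftX z.2 ⁻¹' N ∈ 𝓝 ((z.1, fun _ => 1) : PPt g b r) :=
    (continuous_shiftX z.2).continuousAt.preimage_mem_nhds (by rwa [shiftX_base])
  refine mem_of_superset (open_proj_base (y := lower J z) (isUnit_det_J hJ hz) hik hk hN') ?_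
  rintro p ⟨w, hwN, hw, hp⟩
  exact ⟨shiftX z.2 w, hwN, isLift_shiftX hz.2.1 hw, hp⟩

/-- A brick lift is a limit of lifts with irreducible handles and the chosen pair in a dense open
set. -/
theorem mem_closure_of_pbrick [NeZero r] (PB : PairBound) (hg : 2 ≤ g) (i0 : Fin g)
    {P : Set (Pair r)} (hPo : IsOpen P) (hPd : Dense P) {J : Fin b → Mat r}
    (hJ : ∀ j, IsUnit (J j).det) {z : PPt g b r} (hz : IsLift J z) (hb : PBrick (lower J z)) :
    z ∈ closure {w | IsLift J w ∧ Irred w.1 ∧ w.1 i0 ∈ P} := by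
  have : Nontrivial (Fin g) := Fin.nontrivial_iff_two_le.2 hg
  obtain ⟨j0, hj0⟩ := exists_ne i0
  rw [mem_closure_iff]
  intro o ho hzo
  obtain ⟨y, hyN, hy, hs⟩ := exists_scalar_pair' PB hJ hz hb hj0.symm (ho.mem_nhds hzo)
  -- make the other pair scalar
  obtain ⟨u, huN, hu, hus⟩ : ∃ u ∈ o, IsLift J u ∧ PairScalar (u.1 j0) := by
    rcases hs with hs | hs
    · obtain ⟨q, hq, ⟨u, huN, hu, rfl⟩⟩ := dense_wordGood.inter_nhds_nonempty
        (open_proj' hJ hy hj0 hs (ho.mem_nhds hyN))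
      exact ⟨u, huN, hu, pairScalar_of_wordGood hq⟩
    · exact ⟨y, hyN, hy, hs⟩
  obtain ⟨q, hq, ⟨w, hwN, hw, rfl⟩⟩ :=
    (hPd.inter_of_isOpen_left dense_wordGood hPo).inter_nhds_nonempty
      (open_proj' hJ hu hj0.symm hus (ho.mem_nhds huN))
  exact ⟨w, hwN, hw, irred_of_wordGood hq.2, hq.1⟩

end Vale.Agent.P002.Punct.Dens
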