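import Vale.Agent.P002.Surf.ForcedFlow
import Vale.Agent.P002.Surf.GoodCond
import Vale.Agent.P002.Defs

/-!
P002, punctured surface groups: tuples with a tail of boundary matrices, the lifted tuples, the
forced points, and the statements of the main steps.
-/

namespace Vale.Agent.P002.Punct

open Matrix Topology Filter
open Vale.Agent.P002.Surf

/-- Tuples in a group: handles, then punctures. -/
abbrev St (g b : ℕ) (G : Type*) := (Fin g → G × G) × (Fin b → G)

/-- Tuples of matrices: handles, then punctures (or their conjugating matrices). -/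
abbrev PPt (g b r : ℕ) := Pt g r × (Fin b → Mat r)

variable {g b r : ℕ} {G : Type*} [Group G]

/-- The product of the first `k` entries. -/
def tpre (c : Fin b → G) : ℕ → G
  | 0 => 1
  | k + 1 => if h : k < b then tpre c k * c ⟨k, h⟩ else tpre c k

/-- The value of the relator. -/
def sval (x : St g b G) : G := gpre x.1 g * tpre x.2 b

/-- All entries of the tuple. -/
def InSub (S : Subgroup G) (x : St g b G) : Prop :=
  (∀ k, (x.1 k).1 ∈ S ∧ (x.1 k).2 ∈ S) ∧ ∀ j, x.2 j ∈ S

/-- A tuple in the special linear group as a tuple of matrices. -/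
def toP (x : St g b (SLC r)) : PPt g b r := (toPt x.1, fun j => (x.2 j).1)

/-- The product of the punctures. -/
noncomputable def tProd (c : Fin b → Mat r) : Mat r := (List.ofFn c).prod

/-- Conjugates of the given matrices. -/
noncomputable def tconj (J X : Fin b → Mat r) : Fin b → Mat r := fun j => X j * J j * (X j)⁻¹

/-- The tuple under a lifted one. -/
noncomputable def lower (J : Fin b → Mat r) (z : PPt g b r) : PPt g b r := (z.1, tconj J z.2)

/-- A representation in the special linear group. -/
def IsPSLRep (y : PPt g b r) : Prop :=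
  IsSL y.1 ∧ (∀ j, (y.2 j).det = 1) ∧ relProd y.1 * tProd y.2 = 1

/-- A lift of a representation in the special linear group with classes given by `J`. -/
def IsSLLift (J : Fin b → Mat r) (z : PPt g b r) : Prop :=
  IsSL z.1 ∧ (∀ j, (z.2 j).det = 1) ∧ relProd z.1 * tProd (tconj J z.2) = 1

/-- A lift of a representation in the general linear group with classes given by `J`. -/
def IsLift (J : Fin b → Mat r) (z : PPt g b r) : Prop :=
  IsGL z.1 ∧ (∀ j, IsUnit (z.2 j).det) ∧ relProd z.1 * tProd (tconj J z.2) = 1

/-- The punctures lie in the classes of `J`. -/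
def InClass (J c : Fin b → Mat r) : Prop :=
  ∀ j, ∃ X : Mat r, X.det = 1 ∧ c j = X * J j * X⁻¹

/-- A subspace stable under the whole tuple. -/
def PStable (y : PPt g b r) (W : Submodule ℂ (Fin r → ℂ)) : Prop :=
  (∀ i, PairInv (y.1 i) W) ∧ ∀ j, ∀ v ∈ W, y.2 j *ᵥ v ∈ W

/-- The tuple has no proper nonzero stable subspace. -/
def PIrred (y : PPt g b r) : Prop :=
  ∀ W : Submodule ℂ (Fin r → ℂ), PStable y W → W = ⊥ ∨ W = ⊤

/-- Every stable subspace has a stable complement. -/
def PSemisimple (y : PPt g b r) : Prop :=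
  ∀ W : Submodule ℂ (Fin r → ℂ), PStable y W →
    ∃ W' : Submodule ℂ (Fin r → ℂ), PStable y W' ∧ IsCompl W W'

/-- Only scalars commute with the whole tuple. -/
def PBrick (y : PPt g b r) : Prop :=
  ∀ Z : Mat r, (∀ i, Commute Z (y.1 i).1 ∧ Commute Z (y.1 i).2) → (∀ j, Commute Z (y.2 j)) →
    ∃ c : ℂ, Z = c • (1 : Mat r)

/-- The algebraic integers of a field of complex numbers. -/
noncomputable def intRing (L : IntermediateField ℚ ℂ) : Subring ℂ :=
  L.toSubalgebra.toSubring ⊓ (integralClosure ℤ ℂ).toSubring

/-- All entries of all the matrices lie in `O`. -/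
def IsOPt (O : Subring ℂ) (y : PPt g b r) : Prop :=
  (∀ i k l, (y.1 i).1 k l ∈ O ∧ (y.1 i).2 k l ∈ O) ∧ ∀ j k l, y.2 j k l ∈ O

/-- The matrices of determinant one with entries in `O`. -/
noncomputable def intSL (O : Subring ℂ) (r : ℕ) : Subgroup (SLC r) where
  carrier := {A | ∀ k l, A.1 k l ∈ O}
  mul_mem' {A B} hA hB k l := by
    show (A.1 * B.1) k l ∈ O
    rw [Matrix.mul_apply]
    exact sum_mem fun x _ => mul_mem (hA k x) (hB x l)
  one_mem' k l := by
    show (1 : Mat r) k l ∈ O
    rw [Matrix.one_apply]
    split_ifs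
    exacts [one_mem O, zero_mem O]
  inv_mem' {A} hA k l := by
    have h : A.1 = O.subtype.mapMatrix (Matrix.of fun i j => (⟨A.1 i j, hA i j⟩ : O)) := rfl
    have h1 : A.1.adjugate = O.subtype.mapMatrix
        (Matrix.of fun i j => (⟨A.1 i j, hA i j⟩ : O)).adjugate := by
      exact (congrArg Matrix.adjugate h).trans (RingHom.map_adjugate O.subtype _).symm
    show A.1.adjugate k l ∈ O
    rw [h1]
    exact ((Matrix.of fun i j => (⟨A.1 i j, hA i j⟩ : O)).adjugate k l).2

/-- The variables of polynomials in the entries. -/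
abbrev PVar (g b r : ℕ) := Var g r ⊕ Fin b × Fin r × Fin r

/-- The entry named by a variable. -/
def pentry (y : PPt g b r) : PVar g b r → ℂ :=
  Sum.elim (entry y.1) fun v => y.2 v.1 v.2.1 v.2.2

/-- The value of a polynomial in the entries. -/
noncomputable def evalP (F : MvPolynomial (PVar g b r) ℂ) (y : PPt g b r) : ℂ :=
  MvPolynomial.eval (pentry y) F

/-- Every polynomial vanishing at the irreducible representations over `O` with the given classes
vanishes here. -/
def PForced (O : Subring ℂ) (J : Fin b → Mat r) (y : PPt g b r) : Prop :=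
  ∀ F : MvPolynomial (PVar g b r) ℂ,
    (∀ w : PPt g b r, IsPSLRep w → InClass J w.2 → IsOPt O w → PIrred w → evalP F w = 0) →
      evalP F y = 0

/-! ### Moves -/

/-- The flows that are used: those of closed surfaces and the pushes of an initial segment of
the punctures, with all later handles, around a handle. -/
inductive PMove (g b : ℕ) where
  | closed (c : Curve g)
  | push (i : Fin g) (j : Fin b)

/-- The group element of the curve of a flow. -/
def pcurve : PMove g b → St g b G → G
  | .closed c, x => curveElt c x.1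
  | .push i j, x => ((x.1 i).2 * (x.1 i).1⁻¹)⁻¹ *
      ((gpre x.1 (i.val + 1))⁻¹ * gpre x.1 g * tpre x.2 (j.val + 1))

/-- The element conjugating each puncture. -/
def pconj : PMove g b → G → Fin b → G
  | .closed _, _, _ => 1
  | .push _ j, h, k => if k ≤ j then h⁻¹ else 1

/-- The flow along a curve by an element. -/
def pflow : PMove g b → St g b G → G → St g b G
  | .closed c, x, h => (flow c x.1 h, x.2)
  | .push i j, x, h =>
      (fun k => if k = i then
          ((x.1 k).1 * h, h⁻¹ * ((x.1 k).2 * (x.1 k).1⁻¹) * h * ((x.1 k).1 * h))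
        else if i < k then (h⁻¹ * (x.1 k).1 * h, h⁻¹ * (x.1 k).2 * h) else x.1 k,
      fun k => if k ≤ j then h⁻¹ * x.2 k * h else x.2 k)

/-- Flows along curves by given powers of the curves, the head of the list first. -/
def slide : List (Curve g × ℤ) → (Fin g → G × G) → (Fin g → G × G)
  | [], x => x
  | c :: cs, x => slide cs (flow c.1 x (curveElt c.1 x ^ c.2))

/-- The word carrying two handlebody handles `(A, 1)`, `(C, 1)` to a position in which the left
part of the curves is `omegaW A C q l`. -/
def slideWord (z o : Fin g) (hzo : z < o) (q l : ℕ) : List (Curve g × ℤ) :=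
  [(.twist z, 1 - q), (.bridge z o hzo l, 1), (.twist z, -1)]

/-- The word undoing a word. -/
def slideInv (w : List (Curve g × ℤ)) : List (Curve g × ℤ) :=
  (w.map fun c => (c.1, -c.2)).reverse

/-- A flow taken in the coordinates moved by a word. -/
abbrev TMove (g b : ℕ) := List (Curve g × ℤ) × PMove g b

/-- The curve of a moved flow. -/
def tcurve (t : TMove g b) (x : St g b G) : G := pcurve t.2 (slide t.1 x.1, x.2)

/-- The element conjugating each puncture in a moved flow. -/
def tpush (t : TMove g b) (h : G) : Fin b → G := pconj t.2 h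

/-- A moved flow. -/
def tflow (t : TMove g b) (x : St g b G) (h : G) : St g b G :=
  (slide (slideInv t.1) (pflow t.2 (slide t.1 x.1, x.2) h).1,
    (pflow t.2 (slide t.1 x.1, x.2) h).2)

/-- The handlebody tuple with one special handle at the end and the given punctures. -/
def seedPt (A : Fin g → G) (a c : G) (J : Fin b → G) : St (g + 1) b G :=
  (Fin.snoc (fun i => (A i, 1)) (a, c), J)

/-- The left part of the curve of a slid flow at a handlebody point. -/
def omegaW {M : Type*} [Monoid M] (A C' : M) (q l : ℕ) : M := A ^ (q + 1) * C' ^ l * A ^ q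

/-! ### The statements of the main steps -/

/-- Integral base point: one handle commutator inverse to a product of integral representatives. -/
def BaseSpec : Prop :=
  ∀ (b r : ℕ), 2 ≤ r → ∀ C : Fin b → SLC r, (∀ j, QuasiUnipotent (C j)) →
    ∃ L : IntermediateField ℚ ℂ, FiniteDimensional ℚ L ∧
      ∃ (J : Fin b → SLC r) (a c : SLC r), (∀ j, IsConj (C j) (J j)) ∧
        a ∈ intSL (intRing L) r ∧ c ∈ intSL (intRing L) r ∧ (∀ j, J j ∈ intSL (intRing L) r) ∧
          gcomm (a, c) * tpre J b = 1

/-- The left parts span all matrices at some point. -/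
def OmegaSpanSpec : Prop :=
  ∀ r : ℕ, 3 ≤ r → ∃ (A C : SLC r) (N : ℕ),
    Submodule.span ℂ (Set.range fun p : Fin N × Fin N =>
      (omegaW A C⁻¹ p.1.val p.2.val).1) = ⊤

/-- Each slid curve has independent eigenvalues somewhere. -/
def OmegaIndepSpec : Prop :=
  ∀ r : ℕ, 2 ≤ r → ∀ (Q : SLC r) (q : ℕ), ∃ A : SLC r, Indep (A ^ (2 * q + 1) * Q).1

/-- All lifted representations near some irreducible one are forced. -/
def OpenSpec : Prop :=
  ∀ (g b r : ℕ), 3 ≤ g → 3 ≤ r → ∀ (O : Subring ℂ) (J : Fin b → SLC r) (a c : SLC r),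
    a ∈ intSL O r → c ∈ intSL O r → (∀ j, J j ∈ intSL O r) → gcomm (a, c) * tpre J b = 1 →
      ∃ z0 : PPt g b r, IsSLLift (fun j => (J j).1) z0 ∧
        PIrred (lower (fun j => (J j).1) z0) ∧
          ∀ᶠ z in 𝓝 z0, IsSLLift (fun j => (J j).1) z →
            PForced O (fun j => (J j).1) (lower (fun j => (J j).1) z)

/-- If the lifted representations near one good point are forced, all good ones are. -/
def GoodSpec : Prop :=
  ∀ (g b r : ℕ), 2 ≤ g → 2 ≤ r → ∀ (O : Subring ℂ) (J : Fin b → Mat r), (∀ j, (J j).det = 1) →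
    ∀ (i0 : Fin g), i0.val = 0 → ∀ z1 : PPt g b r, IsSLLift J z1 → GoodPair (z1.1 i0) →
      (∀ᶠ z in 𝓝 z1, IsSLLift J z → PForced O J (lower J z)) →
        ∀ z, IsSLLift J z → GoodPair (z.1 i0) → PForced O J (lower J z)

/-- Semisimple lifted representations are limits of irreducible ones in a dense open set. -/
def DensitySpec : Prop :=
  ∀ (g b r : ℕ), 2 ≤ g → ∀ (J : Fin b → Mat r), (∀ j, (J j).det = 1) →
    ∀ (i0 : Fin g) (P : Set (Pair r)), IsOpen P → Dense P →
      (∀ s t : ℂ, s ≠ 0 → t ≠ 0 → ∀ p ∈ P, (s • p.1, t • p.2) ∈ P) →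
        ∀ z : PPt g b r, IsSLLift J z → PSemisimple (lower J z) →
          z ∈ closure {w | IsSLLift J w ∧ PIrred (lower J w) ∧ w.1 i0 ∈ P}

end Vale.Agent.P002.Punct
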