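import Vale.Agent.P002.Punct.Split
import Vale.Agent.P002.Surf.PairLemma

/-!
P002, punctured surface groups: semisimple lifts are limits of lifts with irreducible handles and
the chosen pair in a dense open set.
-/

namespace Vale.Agent.P002.Punct.Dens

open Matrix Module Filter
open Vale.Agent.P002.Surf
open scoped Matrix.Norms.Operator Topology

variable {g b r m n : ℕ}

theorem pairBound : PairBound :=
  fun _ _ _ p hp _ hU hne hns => pair_velocity_bound p hp hU hne hns

theorem blk_conj (e : Fin m ⊕ Fin n ≃ Fin r) {X : Mat m} {Y : Mat n} (hX : IsUnit X.det)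
    (hY : IsUnit Y.det) (A : Mat m) (B : Mat n) :
    blk e X 0 Y * blk e A 0 B * (blk e X 0 Y)⁻¹ = blk e (X * A * X⁻¹) 0 (Y * B * Y⁻¹) := by
  rw [blk_inv e hX hY, blk_mul, blk_mul]

/-- Conjugators of the blocks give conjugators of the sum. -/
noncomputable def sumX (S : Mat r) (e : Fin m ⊕ Fin n ≃ Fin r) (X₁ : Fin b → Mat m)
    (X₂ : Fin b → Mat n) (X : Fin b → Mat r) : Fin b → Mat r :=
  fun j => cjTail S e X₁ X₂ j * X j

theorem isLift_sum {S : Mat r} (hS : IsUnit S.det) (e : Fin m ⊕ Fin n ≃ Fin r)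
    {J X : Fin b → Mat r} (hX : ∀ j, IsUnit (X j).det) {c₁ : Fin b → Mat m}
    {c₂ : Fin b → Mat n} (hc : tconj J X = cjTail S e c₁ c₂) {w₁ : PPt g b m} {w₂ : PPt g b n}
    (h₁ : IsLift c₁ w₁) (h₂ : IsLift c₂ w₂) :
    IsLift J ((cj S (tri e w₁.1 w₂.1 0), sumX S e w₁.2 w₂.2 X) : PPt g b r) := by
  have hd : ∀ j, IsUnit (blk e (w₁.2 j) 0 (w₂.2 j)).det := fun j => by
    rw [det_blk]
    exact (h₁.2.1 j).mul (h₂.2.1 j)
  refine ⟨isGL_cj hS (isGL_tri h₁.1 h₂.1 0), fun j => ?_, ?_⟩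
  · show IsUnit (cjTail S e w₁.2 w₂.2 j * X j).det
    rw [det_mul, cjTail, det_conj' hS]
    exact (hd j).mul (hX j)
  · show relProd (cj S (tri e w₁.1 w₂.1 0)) * tProd (tconj J (sumX S e w₁.2 w₂.2 X)) = 1
    have ht : tconj J (sumX S e w₁.2 w₂.2 X) = cjTail S e (tconj c₁ w₁.2) (tconj c₂ w₂.2) := by
      rw [show sumX S e w₁.2 w₂.2 X = fun j => cjTail S e w₁.2 w₂.2 j * X j from rfl,
        tconj_shift, hc]
      funext j
      simp only [tconj, cjTail, conj_inv hS (hd j), conj_mul hS,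
        blk_conj e (h₁.2.1 j) (h₂.2.1 j)]
    rw [ht, relProd_cj_tri hS e h₁.1 h₂.1, tProd_cjTail hS, conj_mul hS, blk_mul, h₁.2.2, h₂.2.2,
      blk_one, mul_one, mul_inv_self' hS]

/-- Every semisimple lift is a limit of lifts with irreducible handles and the chosen pair
in `P`. -/
theorem mem_closure_gl (hg : 2 ≤ g) (i0 : Fin g) : ∀ r : ℕ, ∀ (P : Set (Pair r)), IsOpen P →
    Dense P → ∀ (J : Fin b → Mat r), (∀ j, IsUnit (J j).det) → ∀ z : PPt g b r, IsLift J z →
      PSemisimple (lower J z) → z ∈ closure {w | IsLift J w ∧ Irred w.1 ∧ w.1 i0 ∈ P} := by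
  intro r
  induction r using Nat.strong_induction_on with
  | _ r ih =>
    intro P hPo hPd J hJ z hz hs
    rcases Nat.eq_zero_or_pos r with rfl | hr
    · refine subset_closure ⟨hz, fun W _ => Or.inl (Subsingleton.elim _ _), ?_⟩
      obtain ⟨p, hp⟩ := hPd.nonempty
      rwa [Subsingleton.elim (z.1 i0) p]
    have : NeZero r := ⟨hr.ne'⟩
    -- it is enough to reach bricks
    suffices h : z ∈ closure {w : PPt g b r | IsLift J w ∧ PBrick (lower J w)} from
      closure_minimal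
        (fun w hw => mem_closure_of_pbrick pairBound hg i0 hPo hPd hJ hw.1 hw.2)
        isClosed_closure h
    by_cases hi : PIrred (lower J z)
    · exact subset_closure ⟨hz, pbrick_of_pirred hr hi⟩
    obtain ⟨m, n, e, S, y₁, y₂, hm, hn, hS, h₁, h₂, hs₁, hs₂, heq⟩ :=
      exists_psplit (isUnit_det_J hJ hz) hs hi
    have hab : m + n = r := by simpa using Fintype.card_congr e
    have hzx : z.1 = cj S (tri e y₁.1 y₂.1 0) := congrArg Prod.fst heq
    have hzc : tconj J z.2 = cjTail S e y₁.2 y₂.2 := congrArg Prod.snd heq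
    let F : PPt g b m × PPt g b n → PPt g b r :=
      fun p => (cj S (tri e p.1.1 p.2.1 0), sumX S e p.1.2 p.2.2 z.2)
    have hF : Continuous F := by
      unfold F cj tri sumX cjTail blk
      simp only [coe_reindexAlgEquiv, reindex_apply, Pi.zero_apply, Prod.fst_zero, Prod.snd_zero]
      fun_prop
    let z₁ : PPt g b m := (y₁.1, fun _ => 1)
    let z₂ : PPt g b n := (y₂.1, fun _ => 1)
    have hz₁ : IsLift y₁.2 z₁ :=
      ⟨h₁.1, fun j => by simp [z₁], by simpa [z₁, tconj_one] using h₁.2.2⟩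
    have hz₂ : IsLift y₂.2 z₂ :=
      ⟨h₂.1, fun j => by simp [z₂], by simpa [z₂, tconj_one] using h₂.2.2⟩
    have hl₁ : lower y₁.2 z₁ = y₁ := by simp [lower, z₁, tconj_one]
    have hl₂ : lower y₂.2 z₂ = y₂ := by simp [lower, z₂, tconj_one]
    have hFz : F (z₁, z₂) = z := by
      refine Prod.ext hzx.symm (funext fun j => ?_)
      simp [F, z₁, z₂, sumX, cjTail, blk_one, mul_inv_self' hS]
    have hmem : (z₁, z₂) ∈ closure ({w : PPt g b m | IsLift y₁.2 w ∧ Irred w.1 ∧ w.1 i0 ∈ Set.univ}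
        ×ˢ {w : PPt g b n | IsLift y₂.2 w ∧ Irred w.1 ∧ w.1 i0 ∈ Set.univ}) := by
      rw [closure_prod_eq]
      exact ⟨ih m (by omega) _ isOpen_univ dense_univ _ h₁.2.1 z₁ hz₁ (hl₁.symm ▸ hs₁),
        ih n (by omega) _ isOpen_univ dense_univ _ h₂.2.1 z₂ hz₂ (hl₂.symm ▸ hs₂)⟩
    rw [← hFz]
    refine closure_minimal ?_ isClosed_closure
      (image_closure_subset_closure_image hF ⟨_, hmem, rfl⟩)
    rintro _ ⟨⟨w₁, w₂⟩, ⟨⟨hw₁, hi₁, -⟩, hw₂, hi₂, -⟩, rfl⟩
    -- scale one matrix to separate the determinants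
    let t : ℂ → PPt g b m := fun c => (scalePt (Function.update 1 i0 c) 1 w₁.1, w₁.2)
    have hcont : Continuous fun c => F (t c, w₂) := by
      refine hF.comp (Continuous.prodMk (Continuous.prodMk ?_ continuous_const) continuous_const)
      refine continuous_pi fun i => ?_
      simp only [scalePt, Function.update_apply, Pi.one_apply]
      split_ifs <;> fun_prop
    let bad : Finset ℂ := insert 0 (Polynomial.nthRoots m
      ((w₂.1 i0).1.det / (w₁.1 i0).1.det)).toFinset
    have h1 : F (t 1, w₂) = F (w₁, w₂) := by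
      have ht1 : t 1 = w₁ := by
        refine Prod.ext ?_ rfl
        funext i
        simp [t, scalePt, Function.update_apply]
      rw [ht1]
    have hd : Dense ((bad : Set ℂ)ᶜ) := bad.finite_toSet.countable.dense_compl ℂ
    rw [← h1]
    refine closure_minimal (s := (fun c => F (t c, w₂)) '' (bad : Set ℂ)ᶜ) ?_ isClosed_closure
      (image_closure_subset_closure_image hcont ⟨1, hd 1, rfl⟩)
    rintro _ ⟨c, hc, rfl⟩
    simp only [bad, Finset.coe_insert, Set.mem_compl_iff, Set.mem_insert_iff, not_or,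
      Finset.mem_coe, Multiset.mem_toFinset, Polynomial.mem_nthRoots hm] at hc
    have hc0 : ∀ i, Function.update (1 : Fin g → ℂ) i0 c i ≠ 0 := fun i => by
      rw [Function.update_apply]
      split_ifs
      exacts [hc.1, one_ne_zero]
    have h1' : ∀ i, (1 : Fin g → ℂ) i ≠ 0 := fun _ => one_ne_zero
    have hwt : IsLift y₁.2 (t c) := ⟨isGL_scalePt hw₁.1 hc0 h1', hw₁.2.1, by
      show relProd (scalePt _ _ w₁.1) * tProd (tconj y₁.2 w₁.2) = 1
      rw [relProd_scalePt hw₁.1 hc0 h1']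
      exact hw₁.2.2⟩
    refine mem_closure_pbrick_split hg hm hn hwt.1 hw₂.1 (irred_scalePt hi₁ hc0 h1') hi₂ i0 ?_ hS
      (isLift_sum hS e hz.2.1 hzc hwt hw₂)
    intro hdet
    simp only [t, scalePt, Function.update_self, det_smul, Fintype.card_fin] at hdet
    exact hc.2 ((eq_div_iff (hw₁.1 i0).1.ne_zero).2 hdet)

theorem det_cpow_smul {w : ℂ} (hr : r = 0 ∨ (r : ℂ) * w = -1) {A : Mat r} (hA : IsUnit A.det) :
    (A.det ^ w • A).det = 1 := by
  rcases hr with rfl | hr
  · simp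
  rw [det_smul, Fintype.card_fin, ← Complex.cpow_nat_mul, hr, Complex.cpow_neg_one,
    inv_mul_cancel₀ hA.ne_zero]

theorem tconj_smul (J X : Fin b → Mat r) {s : Fin b → ℂ} (hs : ∀ j, s j ≠ 0)
    (hX : ∀ j, IsUnit (X j).det) : tconj J (fun j => s j • X j) = tconj J X := by
  funext j
  have h : (s j • X j)⁻¹ = (s j)⁻¹ • (X j)⁻¹ := by
    refine Matrix.inv_eq_right_inv ?_
    rw [smul_mul_smul_comm, mul_inv_cancel₀ (hs j), mul_inv_self' (hX j), one_smul]
  simp only [tconj, h, Matrix.smul_mul, Matrix.mul_smul, smul_smul, inv_mul_cancel₀ (hs j),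
    one_smul]

end Vale.Agent.P002.Punct.Dens

namespace Vale.Agent.P002.Punct

open Matrix Filter
open Vale.Agent.P002.Surf
open scoped Matrix.Norms.Operator Topology

/-- Semisimple lifted representations are limits of irreducible ones in a dense open set. -/
theorem density_spec : DensitySpec := by
  intro g b r hg J hJ i0 P hPo hPd hPs z hz hs
  have hJ' : ∀ j, IsUnit (J j).det := fun j => by simp [hJ j]
  have hz' : IsLift J z :=
    ⟨fun i => ⟨by simp [(hz.1 i).1], by simp [(hz.1 i).2]⟩, fun j => by simp [hz.2.1 j], hz.2.2⟩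
  let w : ℂ := -(r : ℂ)⁻¹
  have hw : r = 0 ∨ (r : ℂ) * w = -1 := by
    rcases Nat.eq_zero_or_pos r with h | h
    · exact Or.inl h
    · exact Or.inr (by simp [w, Nat.cast_ne_zero.2 h.ne'])
  let N : PPt g b r → PPt g b r := fun y =>
    (scalePt (fun i => (y.1 i).1.det ^ w) (fun i => (y.1 i).2.det ^ w) y.1,
      fun j => (y.2 j).det ^ w • y.2 j)
  have hNz : N z = z := by
    refine Prod.ext (funext fun i => ?_) (funext fun j => ?_)
    · simp [N, scalePt, (hz.1 i).1, (hz.1 i).2]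
    · simp [N, hz.2.1 j]
  have hpow : ∀ {f : PPt g b r → Mat r}, Continuous f → (f z).det = 1 →
      ContinuousAt (fun y => (f y).det ^ w • f y) z := fun {f} hf h1 =>
    ((continuousAt_cpow_const (by simp [h1])).comp (f := fun y => (f y).det)
      hf.matrix_det.continuousAt).smul hf.continuousAt
  have hNc : ContinuousAt N z := by
    refine ContinuousAt.prodMk (continuousAt_pi.2 fun i => ?_) (continuousAt_pi.2 fun j => ?_)
    · exact (hpow (f := fun y => (y.1 i).1) (by fun_prop) (hz.1 i).1).prodMk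
        (hpow (f := fun y => (y.1 i).2) (by fun_prop) (hz.1 i).2)
    · exact hpow (f := fun y => y.2 j) (by fun_prop) (hz.2.1 j)
  have hmem := mem_closure_image hNc (Dens.mem_closure_gl hg i0 r P hPo hPd J hJ' z hz' hs)
  rw [hNz] at hmem
  refine closure_mono ?_ hmem
  rintro _ ⟨y, ⟨hy, hi, hyP⟩, rfl⟩
  have h1 : ∀ i, (y.1 i).1.det ^ w ≠ 0 := fun i => by
    simp [Complex.cpow_eq_zero_iff, (hy.1 i).1.ne_zero]
  have h2 : ∀ i, (y.1 i).2.det ^ w ≠ 0 := fun i => by
    simp [Complex.cpow_eq_zero_iff, (hy.1 i).2.ne_zero]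
  have h3 : ∀ j, (y.2 j).det ^ w ≠ 0 := fun j => by
    simp [Complex.cpow_eq_zero_iff, (hy.2.1 j).ne_zero]
  refine ⟨⟨fun i => ⟨Dens.det_cpow_smul hw (hy.1 i).1, Dens.det_cpow_smul hw (hy.1 i).2⟩,
    fun j => Dens.det_cpow_smul hw (hy.2.1 j), ?_⟩, Dens.pirred_of_irred (irred_scalePt hi h1 h2),
    hPs _ _ (h1 i0) (h2 i0) _ hyP⟩
  show relProd (scalePt _ _ y.1) * tProd (tconj J fun j => (y.2 j).det ^ w • y.2 j) = 1
  rw [Dens.relProd_scalePt hy.1 h1 h2, Dens.tconj_smul J y.2 h3 hy.2.1]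
  exact hy.2.2

end Vale.Agent.P002.Punct
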