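import Vale.Agent.P002.Punct.Defs
import Vale.Agent.P002.Surf.Bricks

/-!
P002, punctured surface groups: the derivative of the relation on tuples with conjugated
punctures, its image at bricks and the projection of its kernel to one handle.
-/

namespace Vale.Agent.P002.Punct.Dens

open Matrix Module Filter
open Vale.Agent.P002.Surf
open scoped Matrix.Norms.Operator Topology

variable {g b r : ℕ}

/-- A representation in the general linear group. -/
def IsPRep (y : PPt g b r) : Prop :=
  IsGL y.1 ∧ (∀ j, IsUnit (y.2 j).det) ∧ relProd y.1 * tProd y.2 = 1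

/-- The puncture with number `k`, extended by the identity. -/
noncomputable def cx (c : Fin b → Mat r) (k : ℕ) : Mat r := if h : k < b then c ⟨k, h⟩ else 1

/-- The product of the first `k` punctures. -/
noncomputable def cpre (c : Fin b → Mat r) : ℕ → Mat r
  | 0 => 1
  | k + 1 => cpre c k * cx c k

theorem tProd_eq_cpre (c : Fin b → Mat r) : tProd c = cpre c b := by
  rw [tProd, ← prod_ofFn_eq_rec (cx c) (cpre c) rfl (fun k => rfl) b]
  congr 1
  refine congrArg List.ofFn (funext fun i => ?_)
  simp [cx]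

theorem isUnit_det_cx {c : Fin b → Mat r} (hc : ∀ j, IsUnit (c j).det) (k : ℕ) :
    IsUnit (cx c k).det := by
  unfold cx
  split
  · exact hc _
  · simp

theorem isUnit_det_cpre {c : Fin b → Mat r} (hc : ∀ j, IsUnit (c j).det) :
    ∀ k, IsUnit (cpre c k).det
  | 0 => by simp [cpre]
  | k + 1 => by
    rw [cpre, det_mul]
    exact (isUnit_det_cpre hc k).mul (isUnit_det_cx hc k)

theorem tconj_one (c : Fin b → Mat r) : tconj c (fun _ => 1) = c := by
  funext j
  simp [tconj]

theorem det_tconj {c X : Fin b → Mat r} (hX : ∀ j, IsUnit (X j).det) (j : Fin b) :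
    (tconj c X j).det = (c j).det := by
  rw [tconj, det_mul, det_mul, det_nonsing_inv, mul_comm (X j).det, mul_assoc,
    Ring.mul_inverse_cancel _ (hX j), mul_one]

theorem det_tProd_tconj {c X : Fin b → Mat r} (hX : ∀ j, IsUnit (X j).det) :
    (tProd (tconj c X)).det = (tProd c).det := by
  simp only [tProd_eq_cpre]
  have : ∀ k, (cpre (tconj c X) k).det = (cpre c k).det := by
    intro k
    induction k with
    | zero => rfl
    | succ k ih =>
      simp only [cpre, det_mul, ih, cx]
      split
      · rw [det_tconj hX]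
      · rfl
  exact this b

/-- The derivative of conjugation at the identity, translated to the identity. -/
noncomputable def ellC (C : Mat r) : Mat r →ₗ[ℂ] Mat r := LinearMap.id - conjBy C

theorem ellC_apply (C W : Mat r) : ellC C W = W - C * W * C⁻¹ := by
  simp [ellC, conjBy]

/-- The part of the derivative of the relation coming from the punctures. -/
noncomputable def dTail (R : Mat r) (c : Fin b → Mat r) : (Fin b → Mat r) →ₗ[ℂ] Mat r :=
  ∑ j : Fin b, conjBy (R * cpre c j) ∘ₗ ellC (c j) ∘ₗ LinearMap.proj j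

/-- The derivative of the relation at a representation. -/
noncomputable def dPh (y : PPt g b r) : PPt g b r →ₗ[ℂ] Mat r :=
  dRel y.1 ∘ₗ LinearMap.fst ℂ _ _ + dTail (relProd y.1) y.2 ∘ₗ LinearMap.snd ℂ _ _

theorem dPh_apply (y v : PPt g b r) :
    dPh y v = dRel y.1 v.1 + dTail (relProd y.1) y.2 v.2 := by
  simp [dPh]

theorem dTail_apply (R : Mat r) (c W : Fin b → Mat r) :
    dTail R c W = ∑ j : Fin b, conjBy (R * cpre c j) (ellC (c j) (W j)) := by
  simp [dTail, LinearMap.sum_apply]

theorem conjBy_apply (Q M : Mat r) : conjBy Q M = Q * M * Q⁻¹ := by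
  simp [conjBy]

theorem conjBy_mul {Q P : Mat r} (M : Mat r) : conjBy (Q * P) M = conjBy Q (conjBy P M) := by
  simp only [conjBy_apply, Matrix.mul_inv_rev, mul_assoc]

theorem hasDerivAt_conj_line {C W : Mat r} :
    HasDerivAt (fun t : ℂ => (1 + t • W) * C * (1 + t • W)⁻¹) (W * C - C * W) 0 := by
  have h1 : HasDerivAt (fun t : ℂ => (1 : Mat r) + t • W) W 0 :=
    (((hasDerivAt_id (0 : ℂ)).smul_const W).const_add 1).congr_deriv (one_smul ℂ W)
  have h2 := (h1.mul_const C).mul
    (hasDerivAt_inv_line (A := (1 : Mat r)) (V := W) (by simp))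
  refine h2.congr_deriv ?_
  simp [sub_eq_add_neg]

theorem hasDerivAt_cpre_line {c W : Fin b → Mat r} (hc : ∀ j, IsUnit (c j).det) : ∀ k,
    HasDerivAt (fun t : ℂ => cpre (tconj c fun j => 1 + t • W j) k)
      ((∑ j ∈ Finset.range k, if h : j < b then conjBy (cpre c j) (ellC (c ⟨j, h⟩) (W ⟨j, h⟩))
        else 0) * cpre c k) 0
  | 0 => by
    simp only [cpre, Finset.range_zero, Finset.sum_empty, zero_mul]
    exact hasDerivAt_const (0 : ℂ) (1 : Mat r)
  | k + 1 => by
    by_cases hk : k < b
    · have hd : HasDerivAt (fun t : ℂ => cx (tconj c fun j => 1 + t • W j) k)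
          (W ⟨k, hk⟩ * c ⟨k, hk⟩ - c ⟨k, hk⟩ * W ⟨k, hk⟩) 0 := by
        simpa [cx, hk, tconj] using hasDerivAt_conj_line (C := c ⟨k, hk⟩) (W := W ⟨k, hk⟩)
      have h := (hasDerivAt_cpre_line (W := W) hc k).mul hd
      simp only [zero_smul, add_zero, tconj_one] at h
      refine h.congr_deriv ?_
      have e : cx c k = c ⟨k, hk⟩ := by simp [cx, hk]
      rw [Finset.sum_range_succ, dif_pos hk, add_mul, cpre, e]
      congr 1
      · rw [mul_assoc]
      · simp only [conjBy_apply, ellC_apply, mul_assoc, Matrix.sub_mul, Matrix.mul_sub]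
        rw [← mul_assoc ((cpre c k)⁻¹) (cpre c k), inv_mul_self' (isUnit_det_cpre hc k), one_mul,
          inv_mul_self' (hc _), mul_one]
    · have h := hasDerivAt_cpre_line (W := W) hc k
      simpa [cpre, cx, hk, Finset.sum_range_succ] using h

/-- The relation on tuples with conjugated punctures. -/
noncomputable def phi (J : Fin b → Mat r) (w : PPt g b r) : Mat r :=
  relProd w.1 * tProd (tconj J w.2)

theorem phi_base {y : PPt g b r} (hy : IsPRep y) : phi y.2 (y.1, fun _ => 1) = 1 := by
  rw [phi, tconj_one]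
  exact hy.2.2

theorem hasDerivAt_phi_line {y v : PPt g b r} (hy : IsPRep y) :
    HasDerivAt (fun t : ℂ => phi y.2 (((y.1, fun _ => 1) : PPt g b r) + t • v)) (dPh y v) 0 := by
  have h1 := hasDerivAt_pre_line (v := v.1) hy.1 g
  have h2 := hasDerivAt_cpre_line (W := v.2) hy.2.1 b
  have h := h1.mul h2
  simp only [zero_smul, add_zero, tconj_one] at h
  rw [← Fin.sum_univ_eq_sum_range
    (fun j => if h : j < g then relTerm y.1 ⟨j, h⟩ (v.1 ⟨j, h⟩) else 0),
    ← Fin.sum_univ_eq_sum_range
    (fun j => if h : j < b then conjBy (cpre y.2 j) (ellC (y.2 ⟨j, h⟩) (v.2 ⟨j, h⟩)) else 0)] at h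
  simp only [Fin.is_lt, dif_pos, Fin.eta, ← dRel_apply, ← relProd_eq_pre, ← tProd_eq_cpre] at h
  simp only [phi, Prod.fst_add, Prod.snd_add]
  refine (h.congr_of_eventuallyEq (Eventually.of_forall fun t => ?_)).congr_deriv ?_
  · rfl
  · rw [dPh_apply, dTail_apply]
    have hT : relProd y.1 * tProd y.2 = 1 := hy.2.2
    have hTR : tProd y.2 = (relProd y.1)⁻¹ := (Matrix.inv_eq_right_inv hT).symm
    rw [mul_assoc, hT, mul_one, hTR]
    simp only [conjBy_mul]
    rw [← map_sum, conjBy_apply (relProd y.1), mul_assoc]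

theorem contDiffAt_cpre {c : Fin b → Mat r} {w : PPt g b r} (hw : ∀ j, IsUnit (w.2 j).det)
    (k : ℕ) : ContDiffAt ℂ 1 (fun y : PPt g b r => cpre (tconj c y.2) k) w := by
  induction k with
  | zero => exact contDiffAt_const
  | succ k ih =>
    by_cases hk : k < b
    · have hu : IsUnit (w.2 ⟨k, hk⟩) := (Matrix.isUnit_iff_isUnit_det _).2 (hw _)
      have hi : ContDiffAt ℂ 1 (fun M : Mat r => M⁻¹) (w.2 ⟨k, hk⟩) := by
        simp only [Matrix.nonsing_inv_eq_ringInverse]
        exact hu.unit_spec ▸ contDiffAt_ringInverse ℂ hu.unit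
      have h1 : ContDiffAt ℂ 1 (fun y : PPt g b r => y.2 ⟨k, hk⟩) w := by fun_prop
      simpa [cpre, cx, hk, tconj] using
        ih.mul ((h1.mul contDiffAt_const).mul (hi.comp w h1))
    · simpa [cpre, cx, hk] using ih

theorem contDiffAt_phi {c : Fin b → Mat r} {w : PPt g b r} (hg : IsGL w.1)
    (hw : ∀ j, IsUnit (w.2 j).det) : ContDiffAt ℂ 1 (phi (g := g) c) w := by
  have h1 : ContDiffAt ℂ 1 (fun y : PPt g b r => relProd y.1) w :=
    (contDiffAt_relProd hg).comp w contDiffAt_fst
  have h2 : ContDiffAt ℂ 1 (fun y : PPt g b r => tProd (tconj c y.2)) w := by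
    simp only [tProd_eq_cpre]
    exact contDiffAt_cpre hw b
  exact h1.mul h2

theorem hasStrictFDerivAt_phi {y : PPt g b r} (hy : IsPRep y) :
    HasStrictFDerivAt (phi (g := g) y.2) (dPh y).toContinuousLinearMap
      ((y.1, fun _ => 1) : PPt g b r) := by
  have h := (contDiffAt_phi (c := y.2) (w := ((y.1, fun _ => 1) : PPt g b r)) hy.1
    (fun _ => by simp)).hasStrictFDerivAt one_ne_zero
  have key : fderiv ℂ (phi (g := g) y.2) ((y.1, fun _ => 1) : PPt g b r)
      = (dPh y).toContinuousLinearMap := by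
    refine ContinuousLinearMap.ext fun v => ?_
    have hl : HasDerivAt (fun t : ℂ => ((y.1, fun _ => 1) : PPt g b r) + t • v) v 0 :=
      (((hasDerivAt_id (0 : ℂ)).smul_const v).const_add _).congr_deriv (one_smul ℂ v)
    have hv := h.hasFDerivAt.comp_hasDerivAt_of_eq (0 : ℂ) hl (by simp)
    exact hv.unique (hasDerivAt_phi_line hy)
  rw [← key]
  exact h

theorem dPh_mem_slMat {y : PPt g b r} (hy : IsPRep y) (v : PPt g b r) : dPh y v ∈ slMat r := by
  rw [dPh_apply]
  refine Submodule.add_mem _ (dRel_mem_slMat hy.1 _) ?_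
  rw [slMat, LinearMap.mem_ker, traceLinearMap_apply, dTail_apply, trace_sum]
  refine Finset.sum_eq_zero fun j _ => ?_
  have hQ : IsUnit (relProd y.1 * cpre y.2 j).det := by
    rw [det_mul, det_relProd_gl hy.1, one_mul]
    exact isUnit_det_cpre hy.2.1 j
  rw [conjBy_apply, trace_mul_comm, ← mul_assoc, inv_mul_self' hQ, one_mul, ellC_apply,
    trace_sub, trace_mul_comm (y.2 j * v.2 j), ← mul_assoc, inv_mul_self' (hy.2.1 j), one_mul,
    sub_self]

/-- Both matrices of every handle and every puncture, each as a pair. -/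
def enl (y : PPt g b r) : Pt (g + g + b) r :=
  let d : Fin (g + g + b) → Mat r :=
    Fin.append (Fin.append (fun i => (y.1 i).1) fun i => (y.1 i).2) y.2
  fun k => (d k, d k)

theorem forall_enl {Q : Mat r → Prop} (y : PPt g b r) :
    (∀ k, Q (enl y k).1) ↔ (∀ i, Q (y.1 i).1 ∧ Q (y.1 i).2) ∧ ∀ j, Q (y.2 j) := by
  refine ⟨fun h => ⟨fun i => ⟨?_, ?_⟩, fun j => ?_⟩, fun h k => ?_⟩
  · simpa [enl] using h (Fin.castAdd b (Fin.castAdd g i))
  · simpa only [enl, Fin.append_left, Fin.append_right] using h (Fin.castAdd b (Fin.natAdd g i))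
  · simpa [enl] using h (Fin.natAdd (g + g) j)
  · induction k using Fin.addCases with
    | left k =>
      induction k using Fin.addCases with
      | left i => simpa [enl] using (h.1 i).1
      | right i => simpa only [enl, Fin.append_left, Fin.append_right] using (h.1 i).2
    | right j => simpa [enl] using h.2 j

theorem enl_snd (y : PPt g b r) (k : Fin (g + g + b)) : (enl y k).2 = (enl y k).1 := rfl

theorem brick_enl {y : PPt g b r} :
    Brick (enl y) ↔ PBrick y := by
  have h : ∀ Z : Mat r, (∀ k, Commute Z (enl y k).1 ∧ Commute Z (enl y k).2) ↔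
      (∀ i, Commute Z (y.1 i).1 ∧ Commute Z (y.1 i).2) ∧ ∀ j, Commute Z (y.2 j) := fun Z =>
    ⟨fun h => (forall_enl (Q := fun M => Commute Z M) y).1 fun k => (h k).1,
      fun h k => ⟨(forall_enl (Q := fun M => Commute Z M) y).2 h k,
        (forall_enl (Q := fun M => Commute Z M) y).2 h k⟩⟩
  exact ⟨fun hb Z h1 h2 => hb Z ((h Z).2 ⟨h1, h2⟩),
    fun hb Z hZ => hb Z ((h Z).1 hZ).1 ((h Z).1 hZ).2⟩

theorem commute_inv_of_commute {Z A : Mat r} (h : Commute Z A) (hA : IsUnit A.det) :
    Commute Z A⁻¹ := by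
  show Z * A⁻¹ = A⁻¹ * Z
  calc Z * A⁻¹ = A⁻¹ * (A * Z) * A⁻¹ := by rw [← mul_assoc, inv_mul_self' hA, one_mul]
    _ = A⁻¹ * Z := by rw [← h.eq, mul_assoc, mul_assoc, mul_inv_self' hA, mul_one]

/-- A matrix orthogonal to the variations of the handles commutes with all of them. -/
theorem commute_of_orth {x : Pt g r} (hx : IsGL x) {Z : Mat r}
    (hZ : ∀ v, (Z * dRel x v).trace = 0) :
    (∀ i, Commute Z (x i).1 ∧ Commute Z (x i).2) ∧ Commute Z (relProd x) := by
  have step : ∀ k (hk : k < g), Commute Z (pre x k) → Z ∈ pairCommutant (x ⟨k, hk⟩) := by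
    intro k hk hcomm
    refine annih_ell (hx _).1 (hx _).2 fun v => ?_
    have := hZ (Pi.single ⟨k, hk⟩ v)
    rw [dRel_single] at this
    simp only [relTerm, LinearMap.comp_apply, conjBy_apply] at this
    rw [← mul_assoc, ← mul_assoc, hcomm.eq, trace_mul_comm, ← mul_assoc, ← mul_assoc,
      inv_mul_self' (isUnit_det_pre hx k), one_mul] at this
    exact this
  have hall : ∀ k, Commute Z (pre x k) := by
    intro k
    induction k with
    | zero => exact Commute.one_right Z
    | succ k ih =>
      refine Commute.mul_right ih ?_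
      unfold cm
      split
      · rename_i hk
        obtain ⟨hA, hB⟩ := step k hk ih
        exact ((hA.mul_right hB).mul_right (commute_inv_of_commute hA (hx _).1)).mul_right
          (commute_inv_of_commute hB (hx _).2)
      · exact Commute.one_right Z
  exact ⟨fun i => step i i.2 (hall i), relProd_eq_pre x ▸ hall g⟩

theorem range_dPh [NeZero r] {y : PPt g b r} (hy : IsPRep y) (hb : PBrick y) :
    LinearMap.range (dPh y) = slMat r := by
  refine Submodule.eq_of_le_of_finrank_le (LinearMap.range_le_iff_comap.2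
    (eq_top_iff.2 fun v _ => dPh_mem_slMat hy v)) ?_
  have h := rank_bound (dPh y) (Submodule.span ℂ {(1 : Mat r)}) fun Z hZ => by
    have h1 := commute_of_orth hy.1 (Z := Z) fun v => by
      simpa [dPh_apply] using hZ (v, 0)
    have hstep : ∀ k, Commute Z (cpre y.2 k) → ∀ hk : k < b, Commute Z (y.2 ⟨k, hk⟩) := by
      intro k hcomm hk
      set j : Fin b := ⟨k, hk⟩
      set C := y.2 j
      set Q := relProd y.1 * cpre y.2 k with hQdef
      have hQ : IsUnit Q.det := by
        rw [hQdef, det_mul, det_relProd_gl hy.1, one_mul]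
        exact isUnit_det_cpre hy.2.1 k
      have hZQ : Commute Z Q := h1.2.mul_right hcomm
      have htr : ∀ W, (Z * W).trace = (C⁻¹ * Z * C * W).trace := by
        intro W
        have h2 := hZ (0, Pi.single j W)
        have e : dPh y (0, Pi.single j W) = conjBy Q (ellC C W) := by
          rw [dPh_apply, map_zero, zero_add, dTail_apply, Finset.sum_eq_single j]
          · simp only [Pi.single_eq_same]; rfl
          · intro i _ hi
            simp only [Pi.single_eq_of_ne hi, map_zero]
          · simp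
        rw [e, conjBy_apply, ← mul_assoc, ← mul_assoc, hZQ.eq, trace_mul_comm, ← mul_assoc,
          ← mul_assoc, inv_mul_self' hQ, one_mul, ellC_apply, mul_sub, trace_sub,
          sub_eq_zero] at h2
        rw [h2, ← mul_assoc, trace_mul_comm, ← mul_assoc, ← mul_assoc]
      have hC := eq_of_trace_mul htr
      show Z * C = C * Z
      conv_rhs => rw [hC, ← mul_assoc, ← mul_assoc, mul_inv_self' (hy.2.1 j), one_mul]
    have hall : ∀ k, Commute Z (cpre y.2 k) := by
      intro k
      induction k with
      | zero => exact Commute.one_right Z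
      | succ k ih =>
        refine Commute.mul_right ih ?_
        unfold cx
        split
        · exact hstep k ih _
        · exact Commute.one_right Z
    obtain ⟨c, hc⟩ := hb Z h1.1 fun j => hstep j (hall j) j.2
    exact hc ▸ Submodule.smul_mem _ c (Submodule.mem_span_singleton_self _)
  have h1 : finrank ℂ (Submodule.span ℂ {(1 : Mat r)}) ≤ 1 :=
    (finrank_span_le_card _).trans (by simp)
  have := finrank_slMat (r := r)
  omega

theorem dPh_single (y : PPt g b r) (i : Fin g) (v : Pair r) :
    dPh y (Pi.single i v, 0) = relTerm y.1 i v := by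
  rw [dPh_apply, map_zero, add_zero, dRel_single]

/-- The tangent space of one handle is large when another handle has a small commutant. -/
theorem finrank_tangent_proj' [NeZero r] {y : PPt g b r} (hy : IsPRep y) (hb : PBrick y)
    {i j : Fin g} (hij : j ≠ i) :
    2 * (r * r) + 1 ≤ finrank ℂ ((LinearMap.ker (dPh y)).map
        (LinearMap.proj i ∘ₗ LinearMap.fst ℂ (Pt g r) (Fin b → Mat r)))
      + finrank ℂ (pairCommutant (y.1 j)) := by
  set P : PPt g b r →ₗ[ℂ] Pair r :=
    LinearMap.proj i ∘ₗ LinearMap.fst ℂ (Pt g r) (Fin b → Mat r) with hP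
  have hsurj : LinearMap.range P = ⊤ :=
    LinearMap.range_eq_top.2 fun v => ⟨(Pi.single i v, 0), by simp [P]⟩
  have h1 := P.finrank_range_add_finrank_ker
  rw [hsurj, finrank_top, finrank_pair] at h1
  have h2 := (dPh y).finrank_range_add_finrank_ker
  rw [range_dPh hy hb] at h2
  have h3 := finrank_map_add_inf P (LinearMap.ker (dPh y))
  have h4 := finrank_map_add_inf (dPh y) (LinearMap.ker P)
  rw [inf_comm] at h4
  have h5 : finrank ℂ (LinearMap.range (relTerm y.1 j))
      ≤ finrank ℂ ((LinearMap.ker P).map (dPh y)) := by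
    refine Submodule.finrank_mono ?_
    rintro _ ⟨v, rfl⟩
    exact ⟨(Pi.single j v, 0), by simp [P, hij.symm], dPh_single y j v⟩
  have h6 := rank_relTerm hy.1 j
  have h7 := finrank_slMat (r := r)
  omega

end Vale.Agent.P002.Punct.Dens
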