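import Vale.Agent.P002.Punct.Defs
import Vale.Agent.P002.Surf.Good

/-!
P002, punctured surface groups: if all lifted representations near one good point are forced, then
every good one is forced.
-/

namespace Vale.Agent.P002.Punct

open Matrix Topology Filter
open Vale.Agent.P002.Surf

variable {g b r n : ℕ}

theorem det_tconj {J X : Fin b → Mat r} (hJ : ∀ j, (J j).det = 1) (hX : ∀ j, (X j).det = 1)
    (j : Fin b) : (tconj J X j).det = 1 := by
  simp [tconj, Matrix.det_mul, Matrix.det_nonsing_inv, hJ j, hX j]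

theorem det_tProd {c : Fin b → Mat r} (h : ∀ j, (c j).det = 1) : (tProd c).det = 1 := by
  rw [← Matrix.coe_detMonoidHom, tProd, map_list_prod]
  refine List.prod_eq_one fun a ha => ?_
  simp only [List.map_ofFn, List.mem_ofFn, Function.comp_apply] at ha
  obtain ⟨i, rfl⟩ := ha
  exact h i

/-- A polynomial at a lowered analytic family of lifts is analytic. -/
theorem analyticAt_evalP_lower {J : Fin b → Mat r} {s : ℂ}
    (F : MvPolynomial (PVar g b r) ℂ) {p : ℂ → PPt g b r}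
    (h : ∀ i, AM (fun t => ((p t).1 i).1) s ∧ AM (fun t => ((p t).1 i).2) s)
    (h' : ∀ j, AM (fun t => (p t).2 j) s) (hd : ∀ j, ((p s).2 j).det ≠ 0) :
    AnalyticAt ℂ (fun t => evalP F (lower J (p t))) s := by
  induction F using MvPolynomial.induction_on with
  | C a => simpa [evalP] using analyticAt_const
  | add P Q hP hQ =>
    simp only [evalP, map_add] at hP hQ ⊢
    exact hP.add hQ
  | mul_X P v hP =>
    simp only [evalP, map_mul, MvPolynomial.eval_X] at hP ⊢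
    refine hP.mul ?_
    rcases v with ⟨i, c, k, l⟩ | ⟨j, k, l⟩
    · cases c
      · simpa [pentry, entry, lower] using (h i).2 k l
      · simpa [pentry, entry, lower] using (h i).1 k l
    · simpa [pentry, lower, tconj] using
        (((h' j).mul (am_const (J j))).mul ((h' j).inv (hd j))) k l

/-- Two chart points are joined: a polynomial vanishing near the first one vanishes at the second
one after multiplying `A` by some `r`-th root of unity. -/
theorem preach {o : Fin r} {J : Fin b → Mat r} (hJ : ∀ j, (J j).det = 1)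
    {z1 z : PPt (n + 1) b r} (h1 : IsSLLift J z1) (h : IsSLLift J z)
    (c1 : Chart o (z1.1 0)) (c2 : Chart o (z.1 0)) (F : MvPolynomial (PVar (n + 1) b r) ℂ)
    (hnear : ∀ᶠ x in 𝓝 z1, IsSLLift J x → evalP F (lower J x) = 0) :
    ∃ u : ℂ, u ^ r = 1 ∧
      evalP F (lower J (Function.update z.1 0 (u • (z.1 0).1, (z.1 0).2), z.2)) = 0 := by
  have hr : 0 < r := Fin.pos o
  set X : ℂ → Fin n → Pair r := fun s i =>
    (lin (z1.1 i.succ).1 (z.1 i.succ).1 s, lin (z1.1 i.succ).2 (z.1 i.succ).2 s)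
  set Y : ℂ → Pt n r := fun s i => (nrm o (X s i).1, nrm o (X s i).2) with hY
  set X' : ℂ → Fin b → Mat r := fun s j => lin (z1.2 j) (z.2 j) s
  set Z : ℂ → Fin b → Mat r := fun s j => nrm o (X' s j) with hZ
  set U : ℂ → Mat r := fun s => (relProd (Y s) * tProd (tconj J (Z s)))⁻¹ with hUdef
  set D : ℂ → Mat r := lin (z1.1 0).2 (z.1 0).2
  set L : ℂ → Mat r := fun s => lmat o (U s) (D s)
  set C : ℂ → Mat r := fun s => (D s).updateCol o ((L s)⁻¹ *ᵥ rhs o (U s) (D s)) with hCdef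
  set w : ℂ → Fin r → ℂ := lin ((z1.1 0).1 *ᵥ unitVec o) ((z.1 0).1 *ᵥ unitVec o)
  set K : ℂ → Mat r := fun s => kry (C s) (unitVec o)
  set K' : ℂ → Mat r := fun s => kry (U s * C s) (w s)
  set A : ℂ → Mat r := fun s => K' s * (K s)⁻¹ with hAdef
  set d : ℂ → ℂ := fun s => (A s).det⁻¹ with hddef
  set pt : ℂ → ℂ → PPt (n + 1) b r :=
    fun c s => (Fin.cons (c • A s, C s) (Y s), Z s) with hpt
  have ends : ∀ (q : PPt (n + 1) b r) (s : ℂ), IsSLLift J q → Chart o (q.1 0) →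
      D s = (q.1 0).2 → w s = (q.1 0).1 *ᵥ unitVec o → (∀ i, X s i = q.1 i.succ) → X' s = q.2 →
      ((∀ i, (X s i).1.det ≠ 0 ∧ (X s i).2.det ≠ 0) ∧ ∀ j, (X' s j).det ≠ 0) ∧ (L s).det ≠ 0 ∧
        (K s).det * (K' s).det ≠ 0 ∧ (Y s = fun i => q.1 i.succ) ∧ Z s = q.2 ∧
        C s = (q.1 0).2 ∧ A s = (q.1 0).1 ∧ d s = 1 := by
    intro q s hq hc eD ew eX eX'
    have hXd : ∀ i, (X s i).1.det = 1 ∧ (X s i).2.det = 1 := fun i => by
      rw [eX]; exact hq.1 i.succ
    have hXd' : ∀ j, (X' s j).det = 1 := fun j => by rw [eX']; exact hq.2.1 j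
    have eZ : Z s = q.2 := by
      funext j
      simp only [hZ, nrm_eq (hXd' j)]
      exact congrFun eX' j
    have eY : Y s = fun i => q.1 i.succ := by
      funext i
      simp only [hY, nrm_eq (hXd i).1, nrm_eq (hXd i).2]
      exact eX i
    have eU : U s = comm (q.1 0) := by
      simp only [hUdef, eY, eZ]
      exact Matrix.inv_eq_left_inv (by rw [← Matrix.mul_assoc, ← relProd_succ]; exact hq.2.2)
    obtain ⟨eC, hK', eA⟩ := endpoint hc (hq.1 0).2
    have eC' : C s = (q.1 0).2 := by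
      simp only [hCdef, L, eU, eD]; exact eC
    have eA' : A s = (q.1 0).1 := by
      simp only [hAdef, K, K', eU, ew, eC']; exact eA
    refine ⟨⟨fun i => invP_of_det (hXd i).1 (hXd i).2, fun j => by rw [hXd' j]; exact one_ne_zero⟩,
      ?_, mul_ne_zero ?_ ?_, eY, eZ, eC', eA', ?_⟩
    · simp only [L, eU, eD]; exact hc.2.2.2
    · simp only [K, eC']; exact hc.2.2.1
    · simp only [K', eU, ew, eC']; exact hK'
    · simp only [hddef, eA', (hq.1 0).1, inv_one]
  obtain ⟨⟨hX0, hX0'⟩, hL0, hK0, eY0, eZ0, eC0, eA0, ed0⟩ :=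
    ends z1 0 h1 c1 (lin_zero _ _) (lin_zero _ _)
      (fun i => Prod.ext (lin_zero _ _) (lin_zero _ _)) (funext fun j => lin_zero _ _)
  obtain ⟨⟨hX1, hX1'⟩, hL1, hK1, eY1, eZ1, eC1, eA1, ed1⟩ :=
    ends z 1 h c2 (lin_one _ _) (lin_one _ _)
      (fun i => Prod.ext (lin_one _ _) (lin_one _ _)) (funext fun j => lin_one _ _)
  have hX : ∀ s i, AM (fun t => (X t i).1) s ∧ AM (fun t => (X t i).2) s :=
    fun s i => ⟨am_lin _ _ s, am_lin _ _ s⟩
  set δ : ℂ → ℂ := fun s => (∏ i, (X s i).1.det * (X s i).2.det) * ∏ j, (X' s j).det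
  have hδ : ∀ s, (∀ i, (X s i).1.det ≠ 0 ∧ (X s i).2.det ≠ 0) → (∀ j, (X' s j).det ≠ 0) →
      δ s ≠ 0 := fun s p1 p2 =>
    mul_ne_zero (Finset.prod_ne_zero_iff.2 fun i _ => mul_ne_zero (p1 i).1 (p1 i).2)
      (Finset.prod_ne_zero_iff.2 fun j _ => p2 j)
  obtain ⟨o1, c1'⟩ := layer isOpen_univ (by simp) (g := δ)
    (fun s _ => (Finset.analyticAt_fun_prod _ fun i _ => (hX s i).1.det.mul (hX s i).2.det).mul
      (Finset.analyticAt_fun_prod _ fun j _ => (am_lin _ _ s).det))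
    (Set.mem_univ (0 : ℂ)) (hδ 0 hX0 hX0')
  set W1 := Set.univ ∩ {s : ℂ | δ s ≠ 0}
  have hXne : ∀ s ∈ W1, ∀ i, (X s i).1.det ≠ 0 ∧ (X s i).2.det ≠ 0 := fun s hs i =>
    mul_ne_zero_iff.1
      (Finset.prod_ne_zero_iff.1 (left_ne_zero_of_mul hs.2) i (Finset.mem_univ i))
  have hXne' : ∀ s ∈ W1, ∀ j, (X' s j).det ≠ 0 := fun s hs j =>
    Finset.prod_ne_zero_iff.1 (right_ne_zero_of_mul hs.2) j (Finset.mem_univ j)
  have hZA : ∀ s ∈ W1, ∀ j, AM (fun t => Z t j) s := fun s hs j =>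
    am_nrm (am_lin _ _ s) (hXne' s hs j)
  have hZd : ∀ s ∈ W1, ∀ j, (Z s j).det = 1 := fun s hs j => det_nrm (hXne' s hs j)
  have hYI : ∀ s ∈ W1, ∀ i, InvP (Y s i) := fun s hs i =>
    invP_of_det (det_nrm (hXne s hs i).1) (det_nrm (hXne s hs i).2)
  have hYA : ∀ s ∈ W1, ∀ i, AM (fun t => (Y t i).1) s ∧ AM (fun t => (Y t i).2) s :=
    fun s hs i => ⟨am_nrm (hX s i).1 (hXne s hs i).1, am_nrm (hX s i).2 (hXne s hs i).2⟩
  have hRd : ∀ s ∈ W1, (relProd (Y s) * tProd (tconj J (Z s))).det = 1 := fun s hs => by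
    rw [Matrix.det_mul, det_relProd (hYI s hs), det_tProd fun j => det_tconj hJ (hZd s hs) j,
      one_mul]
  have hUA : ∀ s ∈ W1, AM U s := fun s hs =>
    ((am_prod_ofFn (fun i t => comm (Y t i)) fun i =>
      AM.comm' (hYA s hs i).1 (hYA s hs i).2 (hYI s hs i)).mul
      (am_prod_ofFn (fun j t => Z t j * J j * (Z t j)⁻¹) fun j =>
        ((hZA s hs j).mul (am_const _)).mul
          ((hZA s hs j).inv (by rw [hZd s hs j]; exact one_ne_zero)))).inv
      (by change (relProd (Y s) * tProd (tconj J (Z s))).det ≠ 0; rw [hRd s hs]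
          exact one_ne_zero)
  obtain ⟨o2, c2'⟩ := layer o1 c1' (g := fun s => (L s).det)
    (fun s hs => (am_lmat (hUA s hs) (am_lin _ _ s)).det) (p := 0)
    ⟨Set.mem_univ _, hδ 0 hX0 hX0'⟩ hL0
  set W2 := W1 ∩ {s : ℂ | (L s).det ≠ 0}
  have hCA : ∀ s ∈ W2, AM C s := fun s hs => (am_lin _ _ s).updateCol o
    ((am_lmat (hUA s hs.1) (am_lin _ _ s)).inv hs.2 |>.mulVec
      (av_rhs (hUA s hs.1) (am_lin _ _ s)))
  have m0 : (0 : ℂ) ∈ W2 :=
    ⟨⟨Set.mem_univ _, hδ 0 hX0 hX0'⟩, hL0⟩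
  obtain ⟨o3, c3'⟩ := layer o2 c2' (g := fun s => (K s).det * (K' s).det)
    (fun s hs => ((am_kry (hCA s hs) (av_const _)).det).mul
      (am_kry ((hUA s hs.1).mul (hCA s hs)) (av_lin _ _ s)).det) (p := 0) m0 hK0
  set W3 := W2 ∩ {s : ℂ | (K s).det * (K' s).det ≠ 0}
  have hAA : ∀ s ∈ W3, AM A s := fun s hs =>
    (am_kry ((hUA s hs.1.1).mul (hCA s hs.1)) (av_lin _ _ s)).mul
      ((am_kry (hCA s hs.1) (av_const _)).inv (left_ne_zero_of_mul hs.2))
  have hAd : ∀ s ∈ W3, (A s).det ≠ 0 := fun s hs => by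
    rw [hAdef, Matrix.det_mul]
    exact mul_ne_zero (right_ne_zero_of_mul hs.2)
      (by simpa [Matrix.det_nonsing_inv] using left_ne_zero_of_mul hs.2)
  have hdA : ∀ s ∈ W3, AnalyticAt ℂ d s := fun s hs => (hAA s hs).det.inv (hAd s hs)
  have hptA : ∀ s ∈ W3, ∀ e : ℂ → ℂ, AnalyticAt ℂ e s → ∀ i,
      AM (fun t => ((pt (e t) t).1 i).1) s ∧ AM (fun t => ((pt (e t) t).1 i).2) s := by
    intro s hs e hb i
    refine Fin.cases ?_ (fun j => ?_) i
    · simp only [hpt, Fin.cons_zero]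
      exact ⟨AM.smul hb (hAA s hs), hCA s hs.1⟩
    · simp only [hpt, Fin.cons_succ]
      exact hYA s hs.1.1 j
  set G : ℂ → ℂ := fun s => ∏ z ∈ Polynomial.nthRootsFinset r (1 : ℂ),
    evalP F (lower J (pt (z * d s ^ ((r : ℂ)⁻¹)) s)) with hG
  have hGA : AnalyticOnNhd ℂ G W3 := fun s hs =>
    analyticAt_norm hr (hdA s hs) (inv_ne_zero (hAd s hs)) (fun e t => evalP F (lower J (pt e t)))
      fun e he => analyticAt_evalP_lower F (hptA s hs e he) (hZA s hs.1.1) fun j => by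
        change (Z s j).det ≠ 0
        rw [hZd s hs.1.1 j]
        exact one_ne_zero
  have hrep : ∀ s ∈ W3, IsSLLift J (pt (d s ^ ((r : ℂ)⁻¹)) s) := by
    intro s hs
    have hU1 : (U s).det = 1 := by
      simp only [hUdef, Matrix.det_nonsing_inv, hRd s hs.1.1, Ring.inverse_one]
    obtain ⟨hdet, hcp⟩ := charpoly_of_system (o := o) hU1 (C := D s)
      (x := (L s)⁻¹ *ᵥ rhs o (U s) (D s))
      (by rw [Matrix.mulVec_mulVec, Matrix.mul_nonsing_inv _ (isUnit_iff_ne_zero.2 hs.1.2),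
        Matrix.one_mulVec])
    have hint : A s * C s = U s * C s * A s := intertwine hcp (left_ne_zero_of_mul hs.2)
    have hb : (d s ^ ((r : ℂ)⁻¹)) ^ r = d s := Complex.cpow_nat_inv_pow _ hr.ne'
    have hb0 : d s ^ ((r : ℂ)⁻¹) ≠ 0 := fun e => by
      rw [e, zero_pow hr.ne'] at hb
      exact inv_ne_zero (hAd s hs) hb.symm
    refine ⟨fun i => ?_, hZd s hs.1.1, ?_⟩
    · refine Fin.cases ?_ (fun j => ?_) i
      · simp only [hpt, Fin.cons_zero, Matrix.det_smul, Fintype.card_fin, hb]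
        exact ⟨inv_mul_cancel₀ (hAd s hs), hdet⟩
      · simp only [hpt, Fin.cons_succ]
        exact ⟨det_nrm (hXne s hs.1.1 j).1, det_nrm (hXne s hs.1.1 j).2⟩
    · have hC0 : (C s).det ≠ 0 := by rw [hCdef]; simp only; rw [hdet]; exact one_ne_zero
      have hI : InvP (A s, C s) := ⟨hAd s hs, hC0⟩
      have hcm : comm (A s, C s) = U s := by
        rw [Surf.comm, hint, Matrix.mul_nonsing_inv_cancel_right _ _ (isUnit_iff_ne_zero.2 hI.1),
          Matrix.mul_nonsing_inv_cancel_right _ _ (isUnit_iff_ne_zero.2 hI.2)]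
      have e : comm (d s ^ ((r : ℂ)⁻¹) • A s, C s) = U s := by
        rw [← hcm]
        simpa using comm_smul hb0 one_ne_zero hI
      rw [relProd_succ, Matrix.mul_assoc]
      simp only [hpt, Fin.cons_zero, Fin.cons_succ, e, hUdef]
      exact Matrix.nonsing_inv_mul _ (isUnit_iff_ne_zero.2
        (by rw [hRd s hs.1.1]; exact one_ne_zero))
  have h03 : (0 : ℂ) ∈ W3 := ⟨m0, hK0⟩
  have h13 : (1 : ℂ) ∈ W3 :=
    ⟨⟨⟨Set.mem_univ _, hδ 1 hX1 hX1'⟩, hL1⟩, hK1⟩
  have hb0 : AnalyticAt ℂ (fun s => d s ^ ((r : ℂ)⁻¹)) 0 :=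
    (hdA 0 h03).cpow analyticAt_const (by rw [ed0]; exact Complex.one_mem_slitPlane)
  have hcont : ContinuousAt (fun s => pt (d s ^ ((r : ℂ)⁻¹)) s) 0 :=
    (continuousAt_pi.2 fun i =>
      (hptA 0 h03 _ hb0 i).1.continuousAt.prodMk (hptA 0 h03 _ hb0 i).2.continuousAt).prodMk
      (continuousAt_pi.2 fun j => (hZA 0 h03.1.1 j).continuousAt)
  have e0 : pt (d 0 ^ ((r : ℂ)⁻¹)) 0 = z1 := by
    simp only [hpt, ed0, Complex.one_cpow, one_smul, eA0, eC0, eY0, eZ0]
    exact Prod.ext (Fin.cons_self_tail z1.1) rfl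
  have hzero : G =ᶠ[𝓝 0] 0 := by
    have hev := hcont.tendsto
    rw [e0] at hev
    filter_upwards [hev.eventually hnear, o3.mem_nhds h03] with s hs hs3
    refine Finset.prod_eq_zero (Polynomial.one_mem_nthRootsFinset hr) ?_
    rw [one_mul]
    exact hs (hrep s hs3)
  have hG1 := eqOn_zero c3' hGA h03 hzero h13
  obtain ⟨u, hu, hu0⟩ := Finset.prod_eq_zero_iff.1 hG1
  rw [Polynomial.mem_nthRootsFinset hr] at hu
  refine ⟨u, hu, ?_⟩
  rw [ed1, Complex.one_cpow, mul_one] at hu0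
  simp only [hpt, eA1, eC1, eY1, eZ1] at hu0
  have e : Function.update z.1 0 (u • (z.1 0).1, (z.1 0).2) =
      Fin.cons (u • (z.1 0).1, (z.1 0).2) fun i => z.1 i.succ := by
    funext i
    refine Fin.cases ?_ (fun j => ?_) i
    · simp
    · simp [Fin.succ_ne_zero]
  rwa [e]

/-- If the lifted representations near one good point are forced, all good ones are. -/
theorem good_spec : GoodSpec := by
  intro g b r hg hr O J hJ i0 hi0 z1 h1 hG1 hnear z hz hGz F hF
  obtain ⟨n, rfl⟩ : ∃ n, g = n + 1 := ⟨g - 1, by omega⟩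
  obtain rfl : i0 = 0 := Fin.ext (by simpa using hi0)
  obtain ⟨o, ho, hc1, -⟩ := hG1
  obtain ⟨o', ho', hc, -⟩ := hGz
  obtain rfl : o' = o := Fin.ext (ho'.trans ho.symm)
  obtain ⟨⟨hA, hC0⟩, hH, hK, hL⟩ := hc
  obtain ⟨v, w, hvw, hcw⟩ := exists_rankOne hH hK
  set P := Matrix.vecMulVec v w
  set T : ℂ → Mat r := loopMat r P
  set q : ℂ → PPt (n + 1) b r :=
    fun t => (Function.update z.1 0 ((z.1 0).1 * T t, (z.1 0).2), z.2) with hq
  have hTd : ∀ t, (T t).det = 1 := det_loopMat (by omega) hvw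
  have hTC : ∀ t, Commute (T t) (z.1 0).2 := fun t =>
    (((Commute.one_right _).add_right (hcw.smul_right _)).smul_right _).symm
  have hcomm : ∀ t, comm ((z.1 0).1 * T t, (z.1 0).2) = comm (z.1 0) := fun t => by
    have hu : IsUnit (T t).det := by rw [hTd]; exact isUnit_one
    simp only [Surf.comm]
    rw [Matrix.mul_inv_rev, ← Matrix.mul_assoc _ (T t)⁻¹, Matrix.mul_assoc ((z.1 0).1) (T t),
      (hTC t).eq, ← Matrix.mul_assoc ((z.1 0).1), Matrix.mul_nonsing_inv_cancel_right _ _ hu]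
  have hqs : ∀ t, IsSLLift J (q t) := by
    intro t
    refine ⟨fun i => ?_, hz.2.1, ?_⟩
    · refine Fin.cases ?_ (fun j => ?_) i
      · simp [hq, Matrix.det_mul, hTd, hz.1 0]
      · simp [hq, Fin.succ_ne_zero, hz.1 j.succ]
    · rw [relProd_succ]
      simp only [hq, Function.update_self, hcomm, Function.update_of_ne (Fin.succ_ne_zero _)]
      rw [← relProd_succ]
      exact hz.2.2
  have hqc : ∀ t, Chart o' ((q t).1 0) := fun t => by
    simp only [hq, Function.update_self, Chart, InvP, hcomm, Matrix.det_mul, hTd, mul_one]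
    exact ⟨⟨hA, hC0⟩, hH, hK, hL⟩
  set h : ℂ → ℂ := fun t => evalP F (lower J (q t)) with hh
  have hshift : ∀ t : ℂ, ∃ k : ℕ, h (t + k) = 0 := by
    intro t
    obtain ⟨u, hu, hu0⟩ := preach hJ h1 (hqs t) hc1 (hqc t) F
      (hnear.mono fun x hx hx' => hx hx' F hF)
    have : NeZero r := ⟨by omega⟩
    obtain ⟨k, -, rfl⟩ := (Complex.isPrimitiveRoot_exp r (by omega)).eq_pow_of_pow_eq_one hu
    refine ⟨k, ?_⟩
    simp only [hh, hq, T, loopMat_add, Matrix.mul_smul]
    simpa [hq, Function.update_self, Function.update_idem] using hu0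
  have h0 : h 0 = evalP F (lower J z) := by
    simp [hh, hq, T, loopMat_zero]
  rw [← h0]
  by_contra hne
  have han : AnalyticOnNhd ℂ h Set.univ := fun s _ => by
    refine analyticAt_evalP_lower F (fun i => ?_) (fun j => am_const _) fun j => ?_
    · refine Fin.cases ?_ (fun j => ?_) i
      · simp only [hq, Function.update_self]
        exact ⟨(am_const _).mul (am_loopMat P s), am_const _⟩
      · simp only [hq, Function.update_of_ne (Fin.succ_ne_zero _)]
        exact ⟨am_const _, am_const _⟩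
    · change (z.2 j).det ≠ 0
      rw [hz.2.1 j]
      exact one_ne_zero
  obtain ⟨-, hcount⟩ := layer isOpen_univ (by simp) han (Set.mem_univ 0) hne
  refine not_countable_complex ((Set.countable_iUnion fun k : ℕ =>
    hcount.image fun x => x - (k : ℂ)).mono fun t _ => ?_)
  obtain ⟨k, hk⟩ := hshift t
  exact Set.mem_iUnion.2 ⟨k, t + k, fun hmem => hmem.2 hk, by simp⟩

end Vale.Agent.P002.Punct
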