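import Vale.Agent.P002.Punct.Defs
import Vale.Agent.P002.Surf.Witness

/-!
P002, punctured surface groups: the left parts of the slid curves span all matrices at a suitable
point, and each slid curve has independent eigenvalues somewhere.
-/

namespace Vale.Agent.P002.Punct

open Matrix
open Vale.Agent.P002.Surf

variable {r : ℕ}

/-- Powers of a conjugate of a diagonal matrix. -/
theorem conj_diagonal_pow {P P' : Mat r} (h : P * P' = 1) (ν : Fin r → ℂ) :
    ∀ n : ℕ, (P * diagonal ν * P') ^ n = P * diagonal (fun i => ν i ^ n) * P'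
  | 0 => by simp [h]
  | n + 1 => by
    rw [pow_succ, conj_diagonal_pow h ν n,
      show (fun i => ν i ^ (n + 1)) = fun i => ν i ^ n * ν i from funext fun i => pow_succ _ _,
      ← diagonal_mul_diagonal]
    simp only [Matrix.mul_assoc]
    rw [← Matrix.mul_assoc P' P, mul_eq_one_comm.1 h, Matrix.one_mul]

/-- Values with a product equal to one and no other relation. -/
theorem exists_free_values (hr : 1 ≤ r) : ∃ μ : Fin r → ℂ, (∏ i, μ i = 1) ∧ (∀ i, μ i ≠ 0) ∧
    Indep (diagonal μ) ∧ ∀ a : Fin r → ℤ, ∏ i, μ i ^ a i = 1 → ∀ i j, a i = a j := by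
  classical
  obtain ⟨μ, hμ1, hμI⟩ := exists_indep_diagonal hr
  have hμ0 : ∀ i, μ i ≠ 0 := fun i hi =>
    absurd (Finset.prod_eq_zero (Finset.mem_univ i) hi) (by rw [hμ1]; exact one_ne_zero)
  have hroots : (diagonal μ).charpoly.roots = Finset.univ.val.map μ := by
    rw [charpoly_diagonal, Polynomial.roots_prod] <;>
      simp [Finset.prod_ne_zero_iff, Polynomial.X_sub_C_ne_zero]
  refine ⟨μ, hμ1, hμ0, hμI, fun a ha i j => ?_⟩
  by_contra hne
  have h1 := hμI.relPoly_ne_zero (by rw [det_diagonal, hμ1]) ⟨a, i, j, hne⟩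
  rw [relPoly_eq a hroots, Finset.prod_ne_zero_iff] at h1
  refine h1 1 (Finset.mem_univ _) (sub_eq_zero.2 ?_)
  simp only [Equiv.Perm.one_apply]
  have : ∀ i, μ i ^ a i = μ i ^ (a i).toNat / μ i ^ (-a i).toNat := fun i => by
    rw [← zpow_natCast, ← zpow_natCast, ← zpow_sub₀ (hμ0 i), Int.toNat_sub_toNat_neg]
  simp_rw [this, Finset.prod_div_distrib] at ha
  exact (div_eq_one_iff_eq (Finset.prod_ne_zero_iff.2 fun i _ => pow_ne_zero _ (hμ0 i))).1 ha

/-- Each slid curve has independent eigenvalues somewhere. -/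
theorem omega_indep_spec : OmegaIndepSpec := by
  intro r hr Q q
  classical
  let o : Fin r := ⟨0, by omega⟩
  obtain ⟨μ, hμ1, -, hμI, -⟩ := exists_free_values (r := r) (by omega)
  have hdμ : (diagonal μ).det = 1 := by rw [det_diagonal, hμ1]
  let Xm : (Fin r × Fin r → ℂ) → Mat r := fun x => Matrix.of fun i j => x (i, j)
  let E : (Fin r × Fin r → ℂ) → Mat r := fun x => slNorm o (Xm x)
  let D : Set (Fin r × Fin r → ℂ) := {x | (Xm x).det ≠ 0}
  have hDo : IsOpen D :=
    IsOpen.preimage (f := fun x => (Xm x).det)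
      (Continuous.matrix_det (continuous_pi fun i => continuous_pi fun j =>
        continuous_apply (i, j))) isOpen_ne
  have hE : RatMat (fun a : D => (a : Fin r × Fin r → ℂ)) fun a => E a :=
    ratMat_slNorm o (X := fun a : D => Xm a) (fun i j => (RatFn.coord (i, j)).congr fun a => by
      simp [Xm]) fun a => a.2
  let f : RelExp r ⊕ RelExp r → (Fin r × Fin r → ℂ) → ℂ := fun k x => match k with
    | .inl e => relPoly e.1 (E x)
    | .inr e => relPoly e.1 (E x * Q.1)
  have hrat : ∀ k, RatFn (fun a : D => (a : Fin r × Fin r → ℂ)) fun a => f k a := by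
    rintro (e | e)
    · exact ratFn_relPoly hE e.1
    · exact ratFn_relPoly (hE.mul (RatMat.const Q.1)) e.1
  have hQ : ((Q⁻¹).1 : Mat r) * Q.1 = 1 := congrArg Subtype.val (inv_mul_cancel Q)
  have hmem : ∀ M : Mat r, M.det = 1 → (fun p : Fin r × Fin r => M p.1 p.2) ∈ D := fun M hM => by
    simp only [D, Set.mem_ofPred_eq]
    exact fun h => one_ne_zero (hM ▸ h : (1 : ℂ) = 0)
  have hne : ∀ k, ∃ x ∈ D, f k x ≠ 0 := by
    rintro (e | e)
    · refine ⟨_, hmem _ hdμ, ?_⟩
      show relPoly e.1 (slNorm o (diagonal μ)) ≠ 0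
      rw [slNorm_of_det_one o hdμ]
      exact hμI.relPoly_ne_zero hdμ e
    · have hd : (diagonal μ * (Q⁻¹).1).det = 1 := by
        rw [Matrix.det_mul, hdμ, (Q⁻¹).2, one_mul]
      refine ⟨_, hmem _ hd, ?_⟩
      show relPoly e.1 (slNorm o (diagonal μ * (Q⁻¹).1) * Q.1) ≠ 0
      rw [slNorm_of_det_one o hd, Matrix.mul_assoc, hQ, Matrix.mul_one]
      exact hμI.relPoly_ne_zero hdμ e
  obtain ⟨x, hx, hfx⟩ := dense_ratFn_ne_zero hDo f hrat hne isOpen_univ
    ⟨_, Set.mem_univ _, hmem _ hdμ⟩
  have hdE : (E x).det = 1 := det_slNorm o hx.2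
  obtain ⟨P, l, hP, hEl, -⟩ := indep_of_relPoly hdE fun e => hfx (.inl e)
  have hl : ∏ i, l i = 1 := by
    rw [hEl, Matrix.det_conj ((Matrix.isUnit_iff_isUnit_det P).2 hP), det_diagonal] at hdE
    exact hdE
  have hn : 0 < 2 * q + 1 := by omega
  choose ν hν using fun i => IsAlgClosed.exists_pow_nat_eq (l i) hn
  let ρ : Fin r → ℂ := Function.update ν o (∏ i ∈ Finset.univ.erase o, ν i)⁻¹
  have hl0 : ∀ i, l i ≠ 0 := fun i hi =>
    absurd (Finset.prod_eq_zero (Finset.mem_univ i) hi) (by rw [hl]; exact one_ne_zero)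
  have hν0 : ∀ i, ν i ≠ 0 := fun i hi => hl0 i (by rw [← hν i, hi, zero_pow hn.ne'])
  have hρpow : ∀ i, ρ i ^ (2 * q + 1) = l i := by
    intro i
    by_cases hi : i = o
    · subst hi
      simp only [ρ, Function.update_self, _root_.inv_pow, ← Finset.prod_pow, hν]
      rw [← Finset.mul_prod_erase _ _ (Finset.mem_univ o)] at hl
      exact inv_eq_of_mul_eq_one_left hl
    · simp [ρ, Function.update_of_ne hi, hν]
  have hρ1 : ∏ i, ρ i = 1 := by
    rw [← Finset.mul_prod_erase _ _ (Finset.mem_univ o),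
      Finset.prod_congr rfl fun i hi => Function.update_of_ne (Finset.ne_of_mem_erase hi) _ ν]
    simp only [ρ, Function.update_self]
    exact inv_mul_cancel₀ (Finset.prod_ne_zero_iff.2 fun i _ => hν0 i)
  have hdA : (P * diagonal ρ * P⁻¹).det = 1 := by
    rw [Matrix.det_conj ((Matrix.isUnit_iff_isUnit_det P).2 hP), det_diagonal, hρ1]
  obtain ⟨A, hA⟩ : ∃ A : SLC r, A.1 = P * diagonal ρ * P⁻¹ := ⟨⟨_, hdA⟩, rfl⟩
  refine ⟨A, ?_⟩
  have h : (P * diagonal ρ * P⁻¹) ^ (2 * q + 1) = E x := by
    rw [conj_diagonal_pow (Matrix.mul_nonsing_inv P hP), hEl]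
    simp only [hρpow]
  have hEQ : Indep (E x * Q.1) :=
    indep_of_relPoly (by rw [Matrix.det_mul, det_slNorm o hx.2, Q.2, one_mul])
      fun e => hfx (.inr e)
  rw [Matrix.SpecialLinearGroup.coe_mul, Matrix.SpecialLinearGroup.coe_pow]
  rw [hA, h]
  exact hEQ

/-- The left parts span all matrices at some point. -/
theorem omega_span_spec : OmegaSpanSpec := by
  intro r hr
  classical
  obtain ⟨μ, hμ1, hμ0, -, hind⟩ := exists_free_values (r := r) (by omega)
  have hDP : DistinctProducts μ := distinctProducts_of_indep (by omega) hμ0 hind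
  let J : Mat r := Matrix.of fun _ _ => 1
  let a : ℂ := 1 / ((r : ℂ) + 1)
  have hr1 : (r : ℂ) + 1 ≠ 0 := by exact_mod_cast Nat.succ_ne_zero r
  let P : Mat r := 1 + J
  let P' : Mat r := 1 - a • J
  have hJJ : J * J = (r : ℂ) • J := by ext i k; simp [J, Matrix.mul_apply]
  have hPP : P * P' = 1 := by
    simp only [P, P', mul_sub, add_mul, Matrix.one_mul, Matrix.mul_one, Matrix.mul_smul, hJJ,
      smul_smul]
    ext i k
    simp [J, a]
    field_simp
    ring
  have hdA : (diagonal μ).det = 1 := by rw [det_diagonal, hμ1]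
  have hdC : (P * diagonal μ * P').det = 1 := by
    rw [Matrix.det_mul, Matrix.det_mul, hdA, mul_one, ← Matrix.det_mul, hPP, det_one]
  obtain ⟨A, hA⟩ : ∃ A : SLC r, A.1 = diagonal μ := ⟨⟨_, hdA⟩, rfl⟩
  obtain ⟨C, hC⟩ : ∃ C : SLC r, C.1 = P * diagonal μ * P' := ⟨⟨_, hdC⟩, rfl⟩
  refine ⟨A, C⁻¹, ?_⟩
  simp only [inv_inv]
  let F : ℕ → ℕ → Mat r := fun q l => (omegaW A C q l).1
  have hF : ∀ q l i j, F q l i j =
      μ i ^ (q + 1) * (∑ k, P i k * μ k ^ l * P' k j) * μ j ^ q := by
    intro q l i j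
    simp only [F, omegaW]
    rw [Matrix.SpecialLinearGroup.coe_mul, Matrix.SpecialLinearGroup.coe_mul,
      Matrix.SpecialLinearGroup.coe_pow, Matrix.SpecialLinearGroup.coe_pow,
      Matrix.SpecialLinearGroup.coe_pow]
    rw [hA, hC]
    rw [Matrix.diagonal_pow, Matrix.diagonal_pow, conj_diagonal_pow hPP, Matrix.mul_diagonal,
      Matrix.diagonal_mul, Pi.pow_apply, Pi.pow_apply, Matrix.mul_apply]
    congr 2
    exact Finset.sum_congr rfl fun k _ => by rw [Matrix.mul_diagonal]
  have key : Submodule.span ℂ (Set.range fun p : ℕ × ℕ => F p.1 p.2) = ⊤ := by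
    by_contra hne
    obtain ⟨X, -, hX⟩ := SetLike.exists_of_lt (lt_top_iff_ne_top.2 hne)
    obtain ⟨φ, hφX, hφ⟩ := Submodule.exists_dual_map_eq_bot_of_notMem hX inferInstance
    let R : Fin r → Fin r → ℂ := fun i j => φ (single i j 1)
    have hexp : ∀ M : Mat r, φ M = ∑ i, ∑ j, M i j * R i j := by
      intro M
      conv_lhs => rw [Matrix.matrix_eq_sum_single M]
      simp only [map_sum]
      refine Finset.sum_congr rfl fun i _ => Finset.sum_congr rfl fun j _ => ?_
      rw [show single i j (M i j) = M i j • single i j (1 : ℂ) by simp [Matrix.smul_single],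
        map_smul, smul_eq_mul]
    have h0 : ∀ q l, ∑ i, ∑ j, F q l i j * R i j = 0 := by
      intro q l
      rw [← hexp]
      have h : φ (F q l) ∈ (Submodule.span ℂ (Set.range fun p : ℕ × ℕ => F p.1 p.2)).map φ :=
        Submodule.mem_map_of_mem (Submodule.subset_span ⟨(q, l), rfl⟩)
      rw [hφ] at h
      simpa using h
    have hk : ∀ q k, ∑ i, ∑ j, μ i ^ (q + 1) * μ j ^ q * P i k * P' k j * R i j = 0 := by
      intro q k
      have h := expSum_eq_zero μ
        (fun k => ∑ i, ∑ j, μ i ^ (q + 1) * μ j ^ q * P i k * P' k j * R i j) (fun l => by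
          rw [← h0 q l]
          simp only [hF, Finset.sum_mul, Finset.mul_sum]
          rw [Finset.sum_comm]
          refine Finset.sum_congr rfl fun i _ => ?_
          rw [Finset.sum_comm]
          refine Finset.sum_congr rfl fun j _ => Finset.sum_congr rfl fun k _ => ?_
          ring) (μ k)
      rwa [Finset.sum_filter, Fintype.sum_eq_single k (fun c hc => if_neg fun e => hc (hDP.one e)),
        if_pos rfl] at h
    have hpair : ∀ k w, ∑ x : Fin r × Fin r with μ x.1 * μ x.2 = w,
        μ x.1 * P x.1 k * P' k x.2 * R x.1 x.2 = 0 := fun k w =>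
      expSum_eq_zero (fun x : Fin r × Fin r => μ x.1 * μ x.2)
        (fun x => μ x.1 * P x.1 k * P' k x.2 * R x.1 x.2) (fun q => by
          rw [← hk q k, Fintype.sum_prod_type]
          refine Finset.sum_congr rfl fun i _ => Finset.sum_congr rfl fun j _ => ?_
          rw [mul_pow, pow_succ]
          ring) w
    have ha1 : 1 - a ≠ 0 := by
      simp only [a]
      rw [one_sub_div hr1]
      simp [hr1]
      omega
    have hdiag : ∀ i, R i i = 0 := by
      intro i
      have h := hpair i (μ i * μ i)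
      rw [Finset.sum_filter, Fintype.sum_eq_single (i, i) (fun c hc => if_neg fun e => hc ?_),
        if_pos rfl] at h
      · simpa [P, P', J, hμ0, ha1] using h
      · rcases hDP.two c.1 c.2 i i e with h | h <;> exact h
    have hoff : ∀ i j, i ≠ j → R i j = 0 := by
      intro i j hij
      have h : ∀ k, μ i * P i k * P' k j * R i j + μ j * P j k * P' k i * R j i = 0 := by
        intro k
        have h := hpair k (μ i * μ j)
        rw [Finset.sum_filter, Finset.sum_eq_add (i, j) (j, i) (by simp [hij]) ?_ (by simp)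
          (by simp), if_pos rfl, if_pos (mul_comm _ _)] at h
        · exact h
        · rintro c - ⟨h1, h2⟩
          refine if_neg fun e => ?_
          rcases hDP.two c.1 c.2 i j e with h | h
          · exact h1 h
          · exact h2 h
      have e1 := h i
      have e2 := h j
      simp [P, P', J, hij, hij.symm] at e1 e2
      have hdet : (1 - a) * (1 - a) - 4 * a * a ≠ 0 := by
        have h4 : ((r : ℂ)) * r - 4 ≠ 0 := by
          rw [sub_ne_zero]
          exact_mod_cast (by nlinarith : r * r ≠ 4)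
        have : (1 - a) * (1 - a) - 4 * a * a = ((r : ℂ) * r - 4) / (((r : ℂ) + 1) ^ 2) := by
          simp only [a]
          field_simp
          ring
        rw [this]
        exact div_ne_zero h4 (pow_ne_zero _ hr1)
      have h2 : ((1 - a) * (1 - a) - 4 * a * a) * (μ i * R i j) = 0 := by
        linear_combination (2 * a) * e1 + (1 - a) * e2
      exact (mul_eq_zero.1 ((mul_eq_zero.1 h2).resolve_left hdet)).resolve_left (hμ0 i)
    apply hφX
    rw [hexp]
    refine Finset.sum_eq_zero fun i _ => Finset.sum_eq_zero fun j _ => ?_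
    by_cases hij : i = j
    · subst hij; rw [hdiag, mul_zero]
    · rw [hoff i j hij, mul_zero]
  let S : ℕ → Submodule ℂ (Mat r) := fun N =>
    Submodule.span ℂ (Set.range fun p : Fin N × Fin N => F p.1.val p.2.val)
  have hmono : Monotone S := fun M N h => Submodule.span_mono (by
    rintro _ ⟨p, rfl⟩
    exact ⟨(Fin.castLE h p.1, Fin.castLE h p.2), rfl⟩)
  have hsup : ⨆ N, S N = ⊤ := by
    refine top_le_iff.1 (key ▸ Submodule.span_le.2 ?_)
    rintro _ ⟨p, rfl⟩
    exact Submodule.mem_iSup_of_mem (p.1 + p.2 + 1)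
      (Submodule.subset_span ⟨(⟨p.1, by omega⟩, ⟨p.2, by omega⟩), rfl⟩)
  have hex : ∀ ij : Fin r × Fin r, ∃ N, single ij.1 ij.2 (1 : ℂ) ∈ S N := fun ij =>
    (Submodule.mem_iSup_of_directed S hmono.directed_le).1 (hsup ▸ Submodule.mem_top)
  choose N hN using hex
  refine ⟨Finset.univ.sup N, eq_top_iff.2 fun M _ => ?_⟩
  rw [Matrix.matrix_eq_sum_single M]
  refine Submodule.sum_mem _ fun i _ => Submodule.sum_mem _ fun j _ => ?_
  rw [show single i j (M i j) = M i j • single i j (1 : ℂ) by simp [Matrix.smul_single]]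
  exact Submodule.smul_mem _ _ (hmono (Finset.le_sup (Finset.mem_univ (i, j))) (hN (i, j)))

end Vale.Agent.P002.Punct
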