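import Vale.Agent.P002.Punct.Range
import Vale.Agent.P002.Punct.TailSpan

/-!
P002, punctured surface groups: all lifted representations near a generic seed are forced.
-/

namespace Vale.Agent.P002.Punct

open Matrix Module Topology Filter
open Vale.Agent.P002.Surf
open scoped Matrix.Norms.Operator

variable {g b r : ℕ}

/-- A linear map lands in a subspace if it does on the identity and on a spanning family up to
scalars. -/
theorem linearMap_mem {V : Type*} [AddCommGroup V] [Module ℂ V] [NeZero r] (S : Submodule ℂ V)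
    (Φ : Mat r →ₗ[ℂ] V) {ι : Type*} (Y : ι → Mat r) (hY : Submodule.span ℂ (Set.range Y) = ⊤)
    (h1 : Φ 1 ∈ S)
    (hΦ : ∀ i, Φ ((r : ℂ) • Y i + (-(Y i).trace) • (1 : Mat r)) ∈ S) (Z : Mat r) : Φ Z ∈ S := by
  suffices h : Submodule.span ℂ (Set.range Y) ≤ S.comap Φ from h (hY ▸ Submodule.mem_top)
  refine Submodule.span_le.2 (Set.range_subset_iff.2 fun i => ?_)
  have h2 := hΦ i
  rw [map_add, map_smul, map_smul] at h2
  have h3 := S.sub_mem h2 (S.smul_mem (-(Y i).trace) h1)
  rw [add_sub_cancel_right] at h3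
  have h4 := S.smul_mem ((r : ℂ)⁻¹) h3
  rw [smul_smul, inv_mul_cancel₀ (Nat.cast_ne_zero.2 (NeZero.ne r)), one_smul] at h4
  exact h4

/-- Translates of a spanning family by an invertible matrix span. -/
theorem span_mul_right {ι : Type*} (Y : ι → Mat r)
    (hY : Submodule.span ℂ (Set.range Y) = ⊤) (Q : SLC r) :
    Submodule.span ℂ (Set.range fun i => Y i * Q.1) = ⊤ := by
  rw [show (Set.range fun i => Y i * Q.1) = LinearMap.mulRight ℂ Q.1 '' Set.range Y from
    Set.range_comp (LinearMap.mulRight ℂ Q.1) Y, ← Submodule.map_span, hY, Submodule.map_top,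
    LinearMap.range_eq_top]
  refine fun Z => ⟨Z * Q.1⁻¹, ?_⟩
  rw [LinearMap.mulRight_apply, Matrix.mul_assoc,
    Matrix.nonsing_inv_mul _ (by rw [Q.2]; exact isUnit_one), Matrix.mul_one]

/-- The three families of slid moves give all variations of the special handle and the punctures. -/
theorem tail_eq_top (a c : SLC r) (S : Submodule ℂ (Pair r × (Fin b → Mat r)))
    (hP : ∀ j Y, pushTail a.1 c.1 j Y ∈ S) (h0 : ∀ Y, bridgeZeroTail a.1 Y ∈ S)
    (h1 : ∀ Y, bridgeOneTail a.1 c.1 Y ∈ S) : S = ⊤ := by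
  have hua : IsUnit a.1.det := by rw [a.2]; exact isUnit_one
  have huc : IsUnit c.1.det := by rw [c.2]; exact isUnit_one
  have hda : ∀ X : Mat r, (((X, 0), 0) : Pair r × (Fin b → Mat r)) ∈ S := fun X => by
    have h := h0 (-(X * a.1⁻¹))
    have he : bridgeZeroTail (b := b) a.1 (-(X * a.1⁻¹)) = ((X, 0), 0) := by
      simp [bridgeZeroTail, Matrix.mul_assoc, Matrix.nonsing_inv_mul _ hua]
    rwa [he] at h
  have hdc : ∀ X : Mat r, (((0, X), 0) : Pair r × (Fin b → Mat r)) ∈ S := fun X => by
    set Y := -(a.1 * c.1⁻¹ * X * a.1⁻¹) with hY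
    have he : bridgeOneTail (b := b) a.1 c.1 Y = ((-Y * a.1, 0), 0) + ((0, X), 0) := by
      have hX : c.1 * a.1⁻¹ * (-Y) * a.1 = X := by
        rw [hY, neg_neg]
        simp only [Matrix.mul_assoc, Matrix.nonsing_inv_mul _ hua, Matrix.mul_one]
        rw [← Matrix.mul_assoc a.1⁻¹ a.1, Matrix.nonsing_inv_mul _ hua, Matrix.one_mul,
          ← Matrix.mul_assoc c.1, Matrix.mul_nonsing_inv _ huc, Matrix.one_mul]
      simp only [bridgeOneTail, LinearMap.coe_mk, AddHom.coe_mk, hX]
      simp
    have h := S.sub_mem (h1 Y) (hda (-Y * a.1))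
    rw [he, add_sub_cancel_left] at h
    exact h
  have hpair : ∀ p : Pair r, ((p, 0) : Pair r × (Fin b → Mat r)) ∈ S := fun p => by
    have h := S.add_mem (hda p.1) (hdc p.2)
    simpa using h
  have hseg : ∀ (k : ℕ) (Y : Mat r),
      (((0, 0), fun i : Fin b => if i.val < k then Y else 0) : Pair r × (Fin b → Mat r)) ∈ S := by
    intro k Y
    rcases Nat.eq_zero_or_pos k with rfl | hk
    · convert S.zero_mem using 1
      refine Prod.ext (by simp) (funext fun i => by simp)
    rcases le_or_gt k b with hkb | hkb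
    · let j : Fin b := ⟨k - 1, by omega⟩
      have h := S.sub_mem (hP j (-Y)) (hpair (pushTail a.1 c.1 j (-Y)).1)
      convert h using 1
      refine Prod.ext (by simp) (funext fun i => ?_)
      by_cases hi : i.val < k
      · simp [pushTail, hi, Fin.le_def, j, show i.val ≤ k - 1 by omega]
      · simp [pushTail, hi, Fin.le_def, j, show ¬ i.val ≤ k - 1 by omega]
    · rcases Nat.eq_zero_or_pos b with rfl | hb
      · exact (show (((0, 0), fun i : Fin 0 => if i.val < k then Y else 0) :
          Pair r × (Fin 0 → Mat r)) = 0 from Prod.ext rfl (funext fun i => i.elim0)) ▸ S.zero_mem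
      let j : Fin b := ⟨b - 1, by omega⟩
      have h := S.sub_mem (hP j (-Y)) (hpair (pushTail a.1 c.1 j (-Y)).1)
      convert h using 1
      refine Prod.ext (by simp) (funext fun i => ?_)
      simp [pushTail, Fin.le_def, j, show i.val < k by omega, show i.val ≤ b - 1 by omega]
  have hone : ∀ (j : Fin b) (Y : Mat r),
      (((0, 0), Pi.single j Y) : Pair r × (Fin b → Mat r)) ∈ S := by
    intro j Y
    have h := S.sub_mem (hseg (j.val + 1) Y) (hseg j.val Y)
    convert h using 1
    refine Prod.ext (by simp) (funext fun i => ?_)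
    rcases lt_trichotomy i.val j.val with hi | hi | hi
    · simp [show i ≤ j from hi.le, show i < j from hi, Fin.ne_of_val_ne hi.ne]
    · obtain rfl : i = j := Fin.ext hi
      simp
    · simp [show ¬ i ≤ j from not_le.2 hi, show ¬ i < j from not_lt.2 hi.le,
        Fin.ne_of_val_ne hi.ne']
  rw [eq_top_iff]
  rintro ⟨p, X⟩ -
  have h := S.add_mem (hpair p) (sum_mem (t := Finset.univ) fun j _ => hone j (X j))
  convert h using 1
  refine Prod.ext ?_ (funext fun i => ?_)
  · simp [Prod.fst_sum, Prod.zero_eq_mk]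
  · simp [Prod.snd_sum, Finset.sum_pi_single]

variable {M : ℕ}

/-- The derivative of the composite map at a generic seed is onto. -/
theorem range_eq_top [NeZero r] (e : Fin r) (A0 : Fin g → SLC r) (a c : SLC r)
    (J : Fin b → SLC r) (L : Fin M → TMove (g + 1) b) (hr : 2 ≤ r)
    (hrel : gcomm (a, c) * tpre J b = 1) {o z z0 o0 : Fin g} {N M' : ℕ} (Lc : Fin M' → Curve g)
    (n : Fin M' → ℕ) (hW : (hbWord o z fun i => (A0 i).1).det ≠ 0)
    (hker : LinearMap.ker (delta fun i => (A0 i).1) ≤ Submodule.span ℂ (Set.range fun m =>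
      vel (Lc m) (fun i => (A0 i).1) (baseCurve (Lc m) (fun i => (A0 i).1) ^ n m)))
    (hspan : Submodule.span ℂ (Set.range fun p : Fin N × Fin N =>
      (omegaW (A0 z0) (A0 o0)⁻¹ p.1.val p.2.val).1) = ⊤)
    (hz0 : z0.val = 0) (ho0 : o0.val = 1) (hzo : z0.castSucc < o0.castSucc)
    (hclosed : ∀ m, ∃ k, L k = closedMove (Lc m))
    (hpush : ∀ (p : Fin N × Fin N) (j : Fin b), ∃ k, L k =
      (slideWord z0.castSucc o0.castSucc hzo p.1.val p.2.val, PMove.push z0.castSucc j))
    (hbridge : ∀ (p : Fin N × Fin N) (s : Fin 2), ∃ k, L k =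
      (slideWord z0.castSucc o0.castSucc hzo p.1.val p.2.val, PMove.closed (.bridge z0.castSucc
        (Fin.last g) (hzo.trans (Fin.castSucc_lt_last o0)) s.val)))
    {W : Submodule ℂ (PPt (g + 1) b r)} {D : PPt (g + 1) b r →L[ℂ] Mat r}
    (hD : HasStrictFDerivAt (relP fun j => (J j).1) D (basePt A0 a c J))
    (hWc : IsCompl (LinearMap.ker D.toLinearMap) W)
    {T : PPar g b r M W →L[ℂ] PPt (g + 1) b r}
    (hT : HasStrictFDerivAt (ptheta e A0 a c J L W) T 0) :
    LinearMap.range T.toLinearMap = ⊤ := by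
  set R := reachSub D T
  have hzc : (z0.castSucc : Fin (g + 1)).val = 0 := hz0
  have hoc : (o0.castSucc : Fin (g + 1)).val = 1 := ho0
  have ho1 : (o0.castSucc : Fin (g + 1)).val = (z0.castSucc : Fin (g + 1)).val + 1 := by omega
  have hol : o0.castSucc < Fin.last g := Fin.castSucc_lt_last o0
  have hY : ∀ Q : SLC r, Submodule.span ℂ (Set.range fun p : Fin N × Fin N =>
      (omegaW (A0 z0) (A0 o0)⁻¹ p.1.val p.2.val * Q).1) = ⊤ := fun Q => by
    simpa only [Matrix.SpecialLinearGroup.coe_mul] using span_mul_right _ hspan Q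
  -- the special handle and the punctures
  have hscal : ∀ (s1 s2 : ℂ) (s3 : Fin b → ℂ),
      (((s1 • a.1, s2 • c.1), fun j => s3 j • (1 : Mat r)) : Pair r × (Fin b → Mat r)) ∈
        R.map (tailL g b r) := fun s1 s2 s3 =>
    ⟨_, mem_reach_scal e A0 a c J L hrel hD hT (Fin.snoc 0 (s1, s2), s3),
      by simp [tailL_apply, basePt, toLift, toPt, seedPt]⟩
  have htail : R.map (tailL g b r) = ⊤ := by
    refine tail_eq_top a c _ (fun j => linearMap_mem _ _ _ (hY (gcomm (a, c) * tpre J (j.val + 1)))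
      ?_ fun p => ?_) (linearMap_mem _ _ _ (hY (a * c * (a ^ (1 + 0))⁻¹)) ?_ fun p => ?_)
      (linearMap_mem _ _ _ (hY (a * c * (a ^ (1 + 1))⁻¹)) ?_ fun p => ?_)
    · have h := hscal 0 0 fun k => if k ≤ j then -1 else 0
      convert h using 1
      refine Prod.ext (by simp [pushTail]) (funext fun k => ?_)
      by_cases hk : k ≤ j <;> simp [pushTail, hk]
    · obtain ⟨k, hk⟩ := hpush p j
      have h := mem_reach_tail e A0 a c J L hr hrel hD hT k (pushTail a.1 c.1 j)
        (fun h h0 Y hY => by rw [hk]; exact hasDerivAt_tail_push hzo _ _ A0 a c J ho1 hol j h0 hY)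
      rwa [hk, curve_push hzo _ _ A0 a c J hzc hoc z0 o0 rfl rfl j] at h
    · have h := hscal (-1) 0 0
      convert h using 1
      refine Prod.ext (by simp [bridgeZeroTail]) (funext fun k => ?_)
      simp [bridgeZeroTail]
    · obtain ⟨k, hk⟩ := hbridge p 0
      have h := mem_reach_tail e A0 a c J L hr hrel hD hT k (bridgeZeroTail a.1)
        (fun h h0 Y hY => by
          rw [hk]; exact hasDerivAt_tail_bridge_zero hzo _ _ A0 a c J ho1 hol h0 hY)
      rwa [hk, curve_bridge hzo _ _ A0 a c J hzc hoc z0 o0 rfl rfl hol (0 : Fin 2).val] at h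
    · have h := hscal (-1) (-1) 0
      convert h using 1
      refine Prod.ext ?_ (funext fun k => by simp [bridgeOneTail])
      simp [bridgeOneTail, Matrix.mul_assoc,
        Matrix.nonsing_inv_mul _ (show IsUnit a.1.det by rw [a.2]; exact isUnit_one)]
    · obtain ⟨k, hk⟩ := hbridge p 1
      have h := mem_reach_tail e A0 a c J L hr hrel hD hT k (bridgeOneTail a.1 c.1)
        (fun h h0 Y hY => by
          rw [hk]; exact hasDerivAt_tail_bridge_one hzo _ _ A0 a c J ho1 hol h0 hY)
      rwa [hk, curve_bridge hzo _ _ A0 a c J hzc hoc z0 o0 rfl rfl hol (1 : Fin 2).val] at h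
  -- tangent vectors
  rw [eq_top_iff, ← hWc.sup_eq_top]
  refine sup_le (fun v hv => ?_) fun w hw => ?_
  · obtain ⟨u, hu, hut⟩ := (htail ▸ Submodule.mem_top : tailL g b r v ∈ R.map (tailL g b r))
    let v' : Pt g r := fun i => (v - u).1 i.castSucc
    have he : v - u = handleEmb g b r v' := by
      simp only [tailL_apply, Prod.mk.injEq] at hut
      refine Prod.ext (funext fun i => ?_) ?_
      · refine Fin.lastCases ?_ (fun m => ?_) i
        · simp [handleEmb, hut.1]
        · simp [handleEmb, v']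
      · simp [handleEmb, hut.2]
    have hker' : dRel (toPt (handlePt A0)) v' = 0 := by
      rw [← deriv_handleEmb A0 a c J hrel hD v', ← he, map_sub,
        show D v = 0 from LinearMap.mem_ker.1 hv, show D u = 0 from LinearMap.mem_ker.1 hu.2,
        sub_zero]
    let B0 : (Fin g → Mat r) →ₗ[ℂ] Pt g r :=
      { toFun := fun w k => ((0 : Mat r), w k)
        map_add' := fun a b => by funext k; simp
        map_smul' := fun a b => by funext k; simp }
    have hle : Submodule.span ℂ (Set.range fun m =>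
        vel (Lc m) (fun i => (A0 i).1) (baseCurve (Lc m) (fun i => (A0 i).1) ^ n m)) ≤
        R.comap ((handleEmb g b r).comp B0) :=
      Submodule.span_le.2 (Set.range_subset_iff.2 fun m => by
        obtain ⟨k, hk⟩ := hclosed m
        exact mem_reach_vel e A0 a c J L hr hrel hW hD hT k (Lc m) hk (n m))
    have h2 := hle (hker (LinearMap.mem_ker.2 (delta_snd_of_dRel A0 hker')))
    have h3 := R.add_mem (mem_reach_fst e A0 a c J L hrel hW hD hT fun i => (v' i).1) h2
    rw [LinearMap.comp_apply, ← map_add,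
      show ((fun i => ((v' i).1, (0 : Mat r))) + B0 fun i => (v' i).2) = v' from
        funext fun i => by simp [B0], ← he] at h3
    have h4 := R.add_mem h3 hu
    rw [sub_add_cancel] at h4
    exact h4.1
  · refine ⟨(0, 0, ⟨w, hw⟩), ?_⟩
    let d : PPar g b r M W := (0, 0, ⟨w, hw⟩)
    have hl : HasDerivAt (fun t : ℂ => t • d) d 0 :=
      ((hasDerivAt_id (0 : ℂ)).smul_const d).congr_deriv (one_smul ℂ d)
    refine (hT.hasFDerivAt.comp_hasDerivAt_of_eq (0 : ℂ) hl (zero_smul ℂ _).symm).unique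
      ((hasDerivAt_line (basePt A0 a c J) w).congr_of_eventuallyEq
        (Eventually.of_forall fun t => ?_))
    simp [d, ptheta, scaleP_zero, pstage_zero_param, basePt]

theorem pIrred_base {A : Fin g → SLC r} (a c : SLC r) (J : Fin b → SLC r) {o z : Fin g}
    (hW : (hbWord o z fun i => (A i).1).det ≠ 0)
    (hrel : gcomm (a, c) * tpre J b = 1) :
    PIrred (lower (fun j => (J j).1) (basePt A a c J)) := by
  have hl : Linked J ((seedPt A a c J, 1) : LSt (g + 1) b r) :=
    ⟨sval_seed _ hrel, fun j => by simp [seedPt]⟩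
  rw [basePt, lower_toLift hl]
  exact pIrred_seed A a c J hW

theorem omegaW_one (A : SLC r) (q l : ℕ) : omegaW A (1 : SLC r)⁻¹ q l = A ^ (2 * q + 1) := by
  simp only [omegaW, inv_one, one_pow, mul_one, ← pow_add]
  congr 1
  omega

/-- All lifted representations near a generic seed are forced. -/
theorem open_spec : OpenSpec := by
  intro g b r hg hr O J a c ha hc hJ hrel
  obtain ⟨g, rfl⟩ : ∃ g', g = g' + 1 := ⟨g - 1, by omega⟩
  have : NeZero r := ⟨by omega⟩
  let z0 : Fin g := ⟨0, by omega⟩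
  let o0 : Fin g := ⟨1, by omega⟩
  have hne : z0 ≠ o0 := Fin.ne_of_val_ne (by simp [z0, o0])
  have hzo : z0.castSucc < o0.castSucc := by simp [z0, o0, Fin.lt_def]
  have hol : o0.castSucc < Fin.last g := Fin.castSucc_lt_last o0
  obtain ⟨o, z, A0, M', N, Lc, n, hW, hI, hker, hspan⟩ :=
    exists_seedSpan (by omega : 2 ≤ g) (by omega : 2 ≤ r) hne (omega_span_spec r hr)
  let move : Fin M' ⊕ ((Fin N × Fin N) × (Fin b ⊕ Fin 2)) → TMove (g + 1) b
    | .inl m => closedMove (Lc m)
    | .inr (p, .inl j) =>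
        (slideWord z0.castSucc o0.castSucc hzo p.1.val p.2.val, PMove.push z0.castSucc j)
    | .inr (p, .inr s) => (slideWord z0.castSucc o0.castSucc hzo p.1.val p.2.val,
        PMove.closed (.bridge z0.castSucc (Fin.last g) (hzo.trans hol) s.val))
  let eq := Fintype.equivFin (Fin M' ⊕ ((Fin N × Fin N) × (Fin b ⊕ Fin 2)))
  let L := fun m => move (eq.symm m)
  let e : Fin r := ⟨0, by omega⟩
  have hex : ∀ k, ∃ A : Fin g → SLC r, Indep (tcurve (move k) (seedPt A a c J)).1 := by
    have hslide : ∀ (Q : SLC r) (q l : ℕ), ∃ A : Fin g → SLC r,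
        Indep (omegaW (A z0) (A o0)⁻¹ q l * Q).1 := by
      intro Q q l
      obtain ⟨A, hA⟩ := omega_indep_spec r (by omega) Q q
      refine ⟨fun i => if i = z0 then A else 1, ?_⟩
      simp only [if_true, if_neg hne.symm, omegaW_one]
      exact hA
    rintro (m | ⟨p, j | s⟩)
    · obtain ⟨A, hA⟩ := hI m
      exact ⟨A, by rw [show move (.inl m) = closedMove (Lc m) from rfl, tcurve_closedMove,
        curveElt_handlePt]; exact hA⟩
    · obtain ⟨A, hA⟩ := hslide (gcomm (a, c) * tpre J (j.val + 1)) p.1.val p.2.val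
      exact ⟨A, by
        rw [show move (.inr (p, .inl j)) = (slideWord z0.castSucc o0.castSucc hzo p.1.val p.2.val,
          PMove.push z0.castSucc j) from rfl, curve_push hzo _ _ A a c J rfl rfl z0 o0 rfl rfl j]
        exact hA⟩
    · obtain ⟨A, hA⟩ := hslide (a * c * (a ^ (1 + s.val))⁻¹) p.1.val p.2.val
      exact ⟨A, by
        rw [show move (.inr (p, .inr s)) = (slideWord z0.castSucc o0.castSucc hzo p.1.val p.2.val,
          PMove.closed (.bridge z0.castSucc (Fin.last g) (hzo.trans hol) s.val)) from rfl,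
          curve_bridge hzo _ _ A a c J rfl rfl z0 o0 rfl rfl hol s.val]
        exact hA⟩
  have hok := pstageOK e A0 a c J L o z ha hc hJ hrel hW (fun m => hex (eq.symm m))
  have h0 := zero_mem_pdom e A0 a c J L o z hW (Fintype.card (Fin M' ⊕ ((Fin N × Fin N) × (Fin b ⊕ Fin 2))))
  refine ⟨basePt A0 a c J, isSLLift_base A0 a c J hrel, pIrred_base a c J hW hrel, ?_⟩
  have hb := isSLLift_base A0 a c J hrel
  have hD := (contDiffAt_relP (fun j => (J j).1) hb.1 hb.2.1).hasStrictFDerivAt one_ne_zero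
  obtain ⟨W, hWc⟩ := Submodule.exists_isCompl
    (LinearMap.ker (fderiv ℂ (relP fun j => (J j).1) (basePt A0 a c J)).toLinearMap)
  have hT := (contDiffAt_ptheta e A0 a c J L o z (hok (Fintype.card (Fin M' ⊕ ((Fin N × Fin N) × (Fin b ⊕ Fin 2))))) h0 W).hasStrictFDerivAt one_ne_zero
  refine pforced_nhds e A0 a c J L o z hrel (hok (Fintype.card (Fin M' ⊕ ((Fin N × Fin N) × (Fin b ⊕ Fin 2))))) h0 hD hWc hT ?_
  exact range_eq_top e A0 a c J L (by omega) hrel Lc n hW hker hspan rfl rfl hzo
    (fun m => ⟨eq (.inl m), by simp [L, move]⟩)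
    (fun p j => ⟨eq (.inr (p, .inl j)), by simp [L, move]⟩)
    (fun p s => ⟨eq (.inr (p, .inr s)), by simp [L, move]⟩) hD hWc hT

end Vale.Agent.P002.Punct
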