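import Vale.Agent.P002.Punct.Moves
import Vale.Agent.P002.Surf.Main

/-!
P002, punctured surface groups: every semisimple representation with the given classes is forced,
and the translation to representations of the presented group.
-/

namespace Vale.Agent.P002.Punct

open Matrix Topology Filter
open Vale.Agent.P002.Surf
open scoped commutatorElement

/-- The relator of a punctured surface: the commutators of the handles times the boundary loops. -/
def relator (g b : ℕ) : FreeGroup ((Fin g × Bool) ⊕ Fin b) :=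
  (List.ofFn fun i : Fin g =>
    ⁅FreeGroup.of (Sum.inl (i, true) : (Fin g × Bool) ⊕ Fin b),
      FreeGroup.of (Sum.inl (i, false) : (Fin g × Bool) ⊕ Fin b)⁆).prod *
    (List.ofFn fun j : Fin b => FreeGroup.of (Sum.inr j : (Fin g × Bool) ⊕ Fin b)).prod

/-- The fundamental group of the surface of genus `g` with `b` points removed. -/
abbrev PuncturedGroup (g b : ℕ) :=
  PresentedGroup ({relator g b} : Set (FreeGroup ((Fin g × Bool) ⊕ Fin b)))

/-- The loop around one removed point. -/
abbrev loopElt (g b : ℕ) (j : Fin b) : PuncturedGroup g b := PresentedGroup.of (Sum.inr j)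

variable {g b r : ℕ}

theorem psemisimple_of_irred {y : PPt g b r} (h : PIrred y) : PSemisimple y := by
  intro W hW
  rcases h W hW with rfl | rfl
  · exact ⟨⊤, ⟨fun i v _ => ⟨Submodule.mem_top, Submodule.mem_top⟩,
      fun _ v _ => Submodule.mem_top⟩, isCompl_bot_top⟩
  · refine ⟨⊥, ⟨fun i v hv => ?_, fun j v hv => ?_⟩, isCompl_top_bot⟩
    all_goals
      rw [Submodule.mem_bot] at hv
      simp [hv]

theorem continuousAt_lower (J : Fin b → Mat r) {z : PPt g b r} (hz : ∀ j, (z.2 j).det ≠ 0) :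
    ContinuousAt (lower J) z := by
  refine continuousAt_fst.prodMk (continuousAt_pi.2 fun j => ?_)
  have hX : ContinuousAt (fun w : PPt g b r => w.2 j) z := by fun_prop
  exact (hX.mul continuousAt_const).mul
    ((continuousAt_matrix_inv _ (by rw [Ring.inverse_eq_inv']; exact continuousAt_inv₀ (hz j))).comp
      (f := fun w : PPt g b r => w.2 j) hX)

/-- All semisimple lifted representations are forced. -/
theorem forced_semisimple_punct (hD : DensitySpec) (hG : GoodSpec) (hg : 2 ≤ g) (hr : 2 ≤ r)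
    {O : Subring ℂ} {J : Fin b → Mat r} (hJ : ∀ j, (J j).det = 1) {z0 : PPt g b r}
    (hz0 : IsSLLift J z0) (hi0 : PIrred (lower J z0))
    (hev : ∀ᶠ z in 𝓝 z0, IsSLLift J z → PForced O J (lower J z))
    (z : PPt g b r) (hz : IsSLLift J z) (hs : PSemisimple (lower J z)) :
    PForced O J (lower J z) := by
  set i0 : Fin g := ⟨0, by omega⟩
  have hcl : ∀ z : PPt g b r, IsSLLift J z → PSemisimple (lower J z) →
      z ∈ closure {w : PPt g b r | IsSLLift J w ∧ PIrred (lower J w) ∧
        w.1 i0 ∈ {p : Pair r | GoodPair p}} :=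
    hD g b r hg J hJ i0 _ goodPair_isOpen (goodPair_dense hr)
      fun s t hs ht p hp => goodPair_smul hs ht hp
  obtain ⟨z1, hz1, hz1', -, hg1⟩ :=
    mem_closure_iff_nhds.1 (hcl z0 hz0 (psemisimple_of_irred hi0)) _ hev.eventually_nhds
  have hgood := hG g b r hg hr O J hJ i0 rfl z1 hz1' hg1 hz1
  refine closure_minimal ?_ (isClosed_pforced O J) (mem_closure_image
    (continuousAt_lower J fun j => by rw [hz.2.1 j]; exact one_ne_zero) (hcl z hz hs))
  rintro _ ⟨w, ⟨hw, -, hwP⟩, rfl⟩
  exact hgood w hw hwP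

/-- The images of the generators. -/
noncomputable def genSt (ρ : PuncturedGroup g b →* SLC r) : St g b (SLC r) :=
  (fun i => (ρ (PresentedGroup.of (Sum.inl (i, true))), ρ (PresentedGroup.of (Sum.inl (i, false)))),
    fun j => ρ (loopElt g b j))

theorem sval_genSt (ρ : PuncturedGroup g b →* SLC r) : sval (genSt ρ) = 1 := by
  have h := congrArg ρ (PresentedGroup.one_of_mem
    (rels := ({relator g b} : Set (FreeGroup ((Fin g × Bool) ⊕ Fin b)))) (Set.mem_singleton _))
  change ρ (PresentedGroup.mk _ ((List.ofFn fun i : Fin g =>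
    ⁅FreeGroup.of (Sum.inl (i, true) : (Fin g × Bool) ⊕ Fin b),
      FreeGroup.of (Sum.inl (i, false) : (Fin g × Bool) ⊕ Fin b)⁆).prod *
    (List.ofFn fun j : Fin b => FreeGroup.of (Sum.inr j : (Fin g × Bool) ⊕ Fin b)).prod)) = ρ 1 at h
  rw [map_one, map_mul, map_mul, map_list_prod, map_list_prod, map_list_prod,
    map_list_prod, List.map_ofFn, List.map_ofFn, List.map_ofFn, List.map_ofFn] at h
  rw [← h, sval, gpre_eq_prod, tpre_eq_prod]
  refine congrArg₂ (· * ·) (congrArg List.prod (congrArg List.ofFn (funext fun i => ?_)))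
    (congrArg List.prod (congrArg List.ofFn (funext fun j => ?_)))
  · simp [gcomm, genSt, commutatorElement_def, PresentedGroup.of]
  · simp [genSt, PresentedGroup.of]

/-- A tuple satisfying the relation comes from a representation. -/
theorem exists_prep {x : St g b (SLC r)} (hx : sval x = 1) :
    ∃ σ : PuncturedGroup g b →* SLC r, genSt σ = x := by
  set f : (Fin g × Bool) ⊕ Fin b → SLC r :=
    Sum.elim (fun a => cond a.2 (x.1 a.1).1 (x.1 a.1).2) x.2 with hf
  have h : ∀ w ∈ ({relator g b} : Set (FreeGroup ((Fin g × Bool) ⊕ Fin b))),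
      FreeGroup.lift f w = 1 := by
    rintro w rfl
    rw [← hx, relator, sval, gpre_eq_prod, tpre_eq_prod, map_mul, map_list_prod, map_list_prod,
      List.map_ofFn, List.map_ofFn]
    refine congrArg₂ (· * ·) (congrArg List.prod (congrArg List.ofFn (funext fun i => ?_)))
      (congrArg List.prod (congrArg List.ofFn (funext fun j => ?_)))
    · simp [hf, gcomm, commutatorElement_def]
    · simp [hf]
  exact ⟨PresentedGroup.toGroup h, Prod.ext (funext fun i => Prod.ext
    (PresentedGroup.toGroup.of h) (PresentedGroup.toGroup.of h))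
    (funext fun j => PresentedGroup.toGroup.of h)⟩

/-- All values lie in a subgroup containing the images of the generators. -/
theorem rep_mem {ρ : PuncturedGroup g b →* SLC r} {S : Subgroup (SLC r)}
    (h : InSub S (genSt ρ)) (a : PuncturedGroup g b) : ρ a ∈ S := by
  have ha : a ∈ Subgroup.closure
      (Set.range (PresentedGroup.of (α := (Fin g × Bool) ⊕ Fin b))) := by
    rw [PresentedGroup.closure_range_of]
    trivial
  refine (Subgroup.closure_le (S.comap ρ)).2 ?_ ha
  rintro _ ⟨⟨i, t⟩ | j, rfl⟩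
  · cases t
    · exact (h.1 i).2
    · exact (h.1 i).1
  · exact h.2 j

theorem psemisimple_genSt {ρ : PuncturedGroup g b →* SLC r} (h : Semisimple ρ) :
    PSemisimple (toP (genSt ρ)) := by
  intro W hW
  obtain ⟨W', hW', hc⟩ := h W fun a v hv => (rep_mem (pStable_iff.1 hW) a).1 v hv
  exact ⟨W', pStable_iff.2 ⟨fun k => ⟨mem_stab (hW' _), mem_stab (hW' _)⟩,
    fun j => mem_stab (hW' _)⟩, hc⟩

theorem semisimple_of_pirred {σ : PuncturedGroup g b →* SLC r} (h : PIrred (toP (genSt σ))) :
    Semisimple σ := by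
  intro W hW
  rcases h W (pStable_iff.2 ⟨fun k => ⟨mem_stab (hW _), mem_stab (hW _)⟩,
    fun j => mem_stab (hW _)⟩) with rfl | rfl
  · exact ⟨⊤, fun _ v _ => Submodule.mem_top, isCompl_bot_top⟩
  · refine ⟨⊥, fun a v hv => ?_, isCompl_top_bot⟩
    rw [Submodule.mem_bot] at hv
    simp [hv]

/-- The entries of every group element are polynomials in the entries of the generators. -/
theorem exists_ppolyMat (a : PuncturedGroup g b) :
    ∃ M : Matrix (Fin r) (Fin r) (MvPolynomial (PVar g b r) ℂ),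
      ∀ ρ : PuncturedGroup g b →* SLC r,
        (ρ a).1 = (MvPolynomial.eval (pentry (toP (genSt ρ)))).mapMatrix M := by
  have ha : a ∈ Subgroup.closure
      (Set.range (PresentedGroup.of (α := (Fin g × Bool) ⊕ Fin b))) := by
    rw [PresentedGroup.closure_range_of]
    trivial
  induction ha using Subgroup.closure_induction with
  | mem x hx =>
    obtain ⟨⟨i, t⟩ | j, rfl⟩ := hx
    · refine ⟨Matrix.of fun k l => MvPolynomial.X (Sum.inl (i, t, k, l)), fun ρ => ?_⟩
      ext k l
      cases t <;> simp [pentry, entry, toP, toPt, genSt]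
    · refine ⟨Matrix.of fun k l => MvPolynomial.X (Sum.inr (j, k, l)), fun ρ => ?_⟩
      ext k l
      simp [pentry, toP, genSt]
  | one => exact ⟨1, fun ρ => by simp⟩
  | mul x y _ _ hx hy =>
    obtain ⟨M, hM⟩ := hx
    obtain ⟨N, hN⟩ := hy
    exact ⟨M * N, fun ρ => by
      rw [map_mul, Matrix.SpecialLinearGroup.coe_mul, hM, hN, map_mul]⟩
  | inv x _ hx =>
    obtain ⟨M, hM⟩ := hx
    exact ⟨M.adjugate, fun ρ => by
      rw [map_inv, Matrix.SpecialLinearGroup.coe_inv, hM, RingHom.map_adjugate]⟩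

/-- For genus and rank at least three and quasi-unipotent classes at all removed points, one
number field has dense integral points. -/
theorem dense_punct (hB : BaseSpec) (hO : OpenSpec) (hG : GoodSpec) (hD : DensitySpec)
    (hg : 3 ≤ g) (hr : 3 ≤ r) (C : Fin b → SLC r) (hC : ∀ j, QuasiUnipotent (C j)) :
    (∃ ρ : PuncturedGroup g b →* SLC r, InY (loopElt g b) C ρ) ∧
    ∃ L : IntermediateField ℚ ℂ, FiniteDimensional ℚ L ∧
      ∀ (n : ℕ) (s : Fin n → PuncturedGroup g b) (f : MvPolynomial (Fin n × Fin r × Fin r) ℂ),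
        (∀ ρ : PuncturedGroup g b →* SLC r, InY (loopElt g b) C ρ →
          (∀ a i j, (ρ a).1 i j ∈ L ∧ IsIntegral ℤ ((ρ a).1 i j)) → evalRep s f ρ = 0) →
        ∀ ρ : PuncturedGroup g b →* SLC r, InY (loopElt g b) C ρ → evalRep s f ρ = 0 := by
  obtain ⟨L, hL, J, a, c, hCJ, ha, hc, hJ, hrel⟩ := hB b r (by omega) C hC
  obtain ⟨z0, hz0, hi0, hev⟩ := hO g b r hg hr (intRing L) J a c ha hc hJ hrel
  let Jm : Fin b → Mat r := fun j => (J j).1
  have hclass : ∀ {σ : PuncturedGroup g b →* SLC r}, InClass Jm (toP (genSt σ)).2 →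
      ∀ j, IsConj (σ (loopElt g b j)) (C j) := fun {σ} h j => by
    obtain ⟨X, hX, he⟩ := h j
    obtain ⟨Y, hY⟩ : ∃ Y : SLC r, Y.1 = X := ⟨⟨X, hX⟩, rfl⟩
    refine (IsConj.symm ((hCJ j).trans (isConj_iff.2 ⟨Y, Subtype.ext ?_⟩)))
    rw [Matrix.SpecialLinearGroup.coe_mul, Matrix.SpecialLinearGroup.coe_mul, coe_inv_sl, hY]
    exact he.symm
  refine ⟨?_, L, hL, fun n s f hf ρ hρ => ?_⟩
  · have hw : IsPSLRep (lower Jm z0) := ⟨hz0.1, fun j => by
      show (z0.2 j * (J j).1 * (z0.2 j)⁻¹).det = 1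
      rw [Matrix.det_conj ((Matrix.isUnit_iff_isUnit_det _).2
        (by rw [hz0.2.1 j]; exact isUnit_one))]
      exact (J j).2, hz0.2.2⟩
    obtain ⟨x, hx⟩ := exists_stP hw
    obtain ⟨σ, rfl⟩ := exists_prep (isPSLRep_toP.1 (hx ▸ hw))
    refine ⟨σ, semisimple_of_pirred (hx ▸ hi0), hclass ?_⟩
    rw [hx]
    exact fun j => ⟨z0.2 j, hz0.2.1 j, rfl⟩
  choose M hM using fun k => exists_ppolyMat (r := r) (s k)
  let F : MvPolynomial (PVar g b r) ℂ :=
    MvPolynomial.aeval (fun x : Fin n × Fin r × Fin r => M x.1 x.2.1 x.2.2) f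
  have hev' : ∀ σ : PuncturedGroup g b →* SLC r, evalP F (toP (genSt σ)) = evalRep s f σ := by
    intro σ
    simp only [F, evalP, evalRep, eval_aeval]
    refine congrArg (MvPolynomial.eval · f) (funext fun x => ?_)
    rw [hM]
    rfl
  have hX : ∀ j, ∃ X : SLC r, X * J j * X⁻¹ = ρ (loopElt g b j) := fun j =>
    isConj_iff.1 ((hCJ j).symm.trans (hρ.2 j).symm)
  choose X hX using hX
  have hlow : lower Jm ((toP (genSt ρ)).1, fun j => (X j).1) = toP (genSt ρ) := by
    refine Prod.ext rfl (funext fun j => ?_)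
    show (X j).1 * (J j).1 * (X j).1⁻¹ = (ρ (loopElt g b j)).1
    rw [← hX j, Matrix.SpecialLinearGroup.coe_mul, Matrix.SpecialLinearGroup.coe_mul, coe_inv_sl]
  have hrep := isPSLRep_toP.2 (sval_genSt ρ)
  have hlift : IsSLLift Jm ((toP (genSt ρ)).1, fun j => (X j).1) :=
    ⟨hrep.1, fun j => (X j).2, by
      have h2 := congrArg Prod.snd hlow
      simp only [lower] at h2
      rw [h2]
      exact hrep.2.2⟩
  have hforced := forced_semisimple_punct hD hG (by omega) (by omega) (fun j => (J j).2) hz0 hi0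
    hev _ hlift (hlow.symm ▸ psemisimple_genSt hρ.1)
  rw [hlow] at hforced
  rw [← hev']
  refine hforced F fun w hw hcl hint hirr => ?_
  obtain ⟨x, rfl⟩ := exists_stP hw
  obtain ⟨σ, rfl⟩ := exists_prep (isPSLRep_toP.1 hw)
  rw [hev']
  refine hf σ ⟨semisimple_of_pirred hirr, hclass hcl⟩ fun a i j => ?_
  have h := rep_mem (isOPt_iff.1 hint) a i j
  exact ⟨h.1, h.2⟩

end Vale.Agent.P002.Punct
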