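import Vale.Agent.P002.Punct.Defs

/-!
P002, punctured surface groups: the moves keep the relation and the classes, are undone by inverse
elements, and keep the forced points forced; the curves of slid moves at handlebody points.
-/

namespace Vale.Agent.P002.Punct

open Matrix
open Vale.Agent.P002.Surf

variable {g b r : ℕ} {G : Type*} [Group G]

/-! ### Products of punctures -/

theorem tpre_succ (c : Fin b → G) (i : Fin b) :
    tpre c (i.val + 1) = tpre c i.val * c i := by simp [tpre]

theorem tpre_congr {c c' : Fin b → G} : ∀ k, (∀ i : Fin b, i.val < k → c' i = c i) →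
    tpre c' k = tpre c k
  | 0, _ => rfl
  | k + 1, h => by
    simp only [tpre]
    split
    · rename_i hk
      rw [tpre_congr k fun i hi => h i (Nat.lt_succ_of_lt hi), h ⟨k, hk⟩ (Nat.lt_succ_self k)]
    · exact tpre_congr k fun i hi => h i (Nat.lt_succ_of_lt hi)

theorem tpre_mem {S : Subgroup G} {c : Fin b → G} (hc : ∀ j, c j ∈ S) : ∀ k, tpre c k ∈ S
  | 0 => S.one_mem
  | k + 1 => by
    simp only [tpre]
    split
    · exact S.mul_mem (tpre_mem hc k) (hc _)
    · exact tpre_mem hc k

theorem tpre_eq_prod (c : Fin b → G) : tpre c b = (List.ofFn c).prod := by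
  have : ∀ k, k ≤ b → tpre c k = ((List.ofFn c).take k).prod := by
    intro k
    induction k with
    | zero => simp [tpre]
    | succ k ih =>
      intro hk
      have hkb : k < b := hk
      rw [tpre_succ c ⟨k, hkb⟩, ih hkb.le, List.prod_take_succ _ k (by simpa using hkb)]
      simp
  rw [this b le_rfl, List.take_of_length_le (by simp)]

theorem tProd_toP (x : St g b (SLC r)) : tProd (toP x).2 = (tpre x.2 b).1 := by
  rw [tpre_eq_prod]
  let ι : SLC r →* Mat r :=
    { toFun := fun A => A.1, map_one' := rfl, map_mul' := fun _ _ => rfl }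
  show _ = ι _
  rw [map_list_prod, List.map_ofFn]
  rfl

theorem isPSLRep_toP {x : St g b (SLC r)} : IsPSLRep (toP x) ↔ sval x = 1 := by
  have h : relProd (toP x).1 * tProd (toP x).2 = (sval x).1 := by
    rw [tProd_toP]
    show relProd (toPt x.1) * _ = _
    rw [relProd_toPt]
    rfl
  constructor
  · exact fun hx => Subtype.ext (h ▸ hx.2.2)
  · exact fun hx => ⟨isSL_toPt _, fun j => (x.2 j).2, by rw [h, hx]; rfl⟩

theorem exists_stP {y : PPt g b r} (hy : IsPSLRep y) : ∃ x : St g b (SLC r), toP x = y := by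
  obtain ⟨x1, hx1⟩ := exists_slPt hy.1
  exact ⟨(x1, fun j => ⟨y.2 j, hy.2.1 j⟩), Prod.ext hx1 rfl⟩

/-! ### One push -/

section Push

variable (i : Fin g) (j : Fin b) (x : St g b G) (h : G)

theorem gpre_push_le : ∀ k, k ≤ i.val → gpre (pflow (.push i j) x h).1 k = gpre x.1 k
  | 0, _ => rfl
  | k + 1, hk => by
    have hkg : k < g := lt_of_lt_of_le (Nat.lt_of_succ_le hk) i.isLt.le
    rw [gpre_succ _ ⟨k, hkg⟩, gpre_succ _ ⟨k, hkg⟩, gpre_push_le k (by omega)]
    have h1 : (⟨k, hkg⟩ : Fin g) ≠ i := Fin.ne_of_val_ne (by simp; omega)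
    have h2 : ¬ i < (⟨k, hkg⟩ : Fin g) := by simp [Fin.lt_def]; omega
    simp [pflow, h1, h2]

theorem gpre_push_gt : ∀ k, i.val < k → k ≤ g → gpre (pflow (.push i j) x h).1 k =
    gpre x.1 (i.val + 1) * (((x.1 i).2 * (x.1 i).1⁻¹) * h⁻¹ * ((x.1 i).2 * (x.1 i).1⁻¹)⁻¹) *
      ((gpre x.1 (i.val + 1))⁻¹ * gpre x.1 k) * h
  | 0, hk, _ => absurd hk (by omega)
  | k + 1, hk, hkg' => by
    have hkg : k < g := hkg'
    rcases eq_or_lt_of_le (Nat.lt_succ_iff.1 hk) with he | hlt
    · subst he
      rw [gpre_succ, gpre_push_le i j x h _ le_rfl, gpre_succ]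
      simp only [pflow, if_pos, gcomm_bridge_left]
      group
    · rw [gpre_succ _ ⟨k, hkg⟩, gpre_succ _ ⟨k, hkg⟩, gpre_push_gt k hlt hkg.le]
      have h1 : (⟨k, hkg⟩ : Fin g) ≠ i := Fin.ne_of_val_ne (by simp; omega)
      have h3 : i < (⟨k, hkg⟩ : Fin g) := hlt
      simp only [pflow, if_neg h1, if_pos h3, gcomm_conj]
      group

theorem tpre_push_le : ∀ k, k ≤ j.val + 1 →
    tpre (pflow (.push i j) x h).2 k = h⁻¹ * tpre x.2 k * h
  | 0, _ => by simp [tpre]
  | k + 1, hk => by
    have hkb : k < b := lt_of_le_of_lt (Nat.le_of_succ_le_succ hk) j.isLt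
    rw [tpre_succ _ ⟨k, hkb⟩, tpre_succ _ ⟨k, hkb⟩, tpre_push_le k (by omega)]
    have h1 : (⟨k, hkb⟩ : Fin b) ≤ j := Nat.le_of_succ_le_succ hk
    simp only [pflow, if_pos h1]
    group

theorem tpre_push_ge : ∀ k, j.val + 1 ≤ k → tpre (pflow (.push i j) x h).2 k =
    h⁻¹ * tpre x.2 (j.val + 1) * h * ((tpre x.2 (j.val + 1))⁻¹ * tpre x.2 k)
  | 0, hk => absurd hk (by omega)
  | k + 1, hk => by
    rcases eq_or_lt_of_le hk with he | hlt
    · rw [← he, tpre_push_le i j x h _ le_rfl, inv_mul_cancel, mul_one]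
    · by_cases hkb : k < b
      · rw [tpre_succ _ ⟨k, hkb⟩, tpre_succ _ ⟨k, hkb⟩, tpre_push_ge k (by omega)]
        have h1 : ¬ (⟨k, hkb⟩ : Fin b) ≤ j := by simp [Fin.le_def]; omega
        simp only [pflow, if_neg h1]
        group
      · have := tpre_push_ge k (by omega)
        simp only [tpre, dif_neg hkb] at this ⊢
        exact this

end Push

/-- Flows keep the relator. -/
theorem sval_pflow (m : PMove g b) (x : St g b G) (h : G) (hh : Commute h (pcurve m x)) :
    sval (pflow m x h) = sval x := by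
  cases m with
  | closed c => simp only [sval, pflow, gpre_flow c x.1 h hh]
  | push i j =>
    simp only [sval, pcurve] at hh ⊢
    rw [gpre_push_gt i j x h g i.isLt le_rfl, tpre_push_ge i j x h b j.isLt]
    set P := gpre x.1 (i.val + 1)
    set B := (x.1 i).2 * (x.1 i).1⁻¹
    set W := P⁻¹ * gpre x.1 g * tpre x.2 (j.val + 1) with hW
    have h2 : h⁻¹ * (B⁻¹ * W) * h = B⁻¹ * W := by
      rw [mul_assoc, ← hh.eq, inv_mul_cancel_left]
    calc _ = P * B * (h⁻¹ * (B⁻¹ * W) * h) * ((tpre x.2 (j.val + 1))⁻¹ * tpre x.2 b) := by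
          rw [hW]; group
      _ = _ := by rw [h2, hW]; group

/-- The curve is fixed by its flow. -/
theorem pcurve_pflow (m : PMove g b) (x : St g b G) (h : G) (hh : Commute h (pcurve m x)) :
    pcurve m (pflow m x h) = pcurve m x := by
  cases m with
  | closed c => exact curveElt_flow c x.1 h hh
  | push i j =>
    conv_lhs => simp only [pcurve]
    rw [gpre_push_gt i j x h g i.isLt le_rfl,
      gpre_push_gt i j x h (i.val + 1) (Nat.lt_succ_self _) i.isLt, tpre_push_le i j x h _ le_rfl]
    simp only [pflow, if_pos]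
    set c0 := pcurve (.push i j) x with hc0
    calc _ = h⁻¹ * c0 * h := by rw [hc0, pcurve]; group
      _ = c0 := by rw [mul_assoc, ← hh.eq, inv_mul_cancel_left]

/-- A flow is undone by the inverse element. -/
theorem pflow_inv (m : PMove g b) (x : St g b G) (h : G) :
    pflow m (pflow m x h) h⁻¹ = x := by
  cases m with
  | closed c => exact Prod.ext (flow_inv c x.1 h) rfl
  | push i j =>
    refine Prod.ext (funext fun k => ?_) (funext fun k => ?_)
    · by_cases h1 : k = i
      · simp only [pflow, h1, if_pos]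
        exact Prod.ext (by group) (by group)
      · by_cases h2 : i < k
        · simp only [pflow, if_neg h1, if_pos h2]
          exact Prod.ext (by group) (by group)
        · simp [pflow, h1, h2]
    · by_cases h1 : k ≤ j
      · simp only [pflow, if_pos h1]
        group
      · simp [pflow, h1]

theorem pflow_one (m : PMove g b) (x : St g b G) : pflow m x 1 = x := by
  cases m with
  | closed c =>
    refine Prod.ext (funext fun k => ?_) rfl
    have h1 := flow_inv c x.1 (1 : G)
    cases c with
    | twist j => by_cases hk : k = j <;> simp [pflow, flow, hk]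
    | bridge i j hij l =>
      simp only [pflow, flow, mul_one, inv_one, one_mul]
      split_ifs with h2 h3 h4
      · subst h2; simp
      · subst h3; simp only [right_basis_self]
      · rfl
      · rfl
  | push i j =>
    refine Prod.ext (funext fun k => ?_) (funext fun k => ?_)
    · simp only [pflow, mul_one, inv_one, one_mul]
      split_ifs with h1 h2
      · subst h1; simp
      · rfl
      · rfl
    · simp [pflow]

/-- A flow conjugates every puncture. -/
theorem pflow_tail (m : PMove g b) (x : St g b G) (h : G) (k : Fin b) :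
    (pflow m x h).2 k = pconj m h k * x.2 k * (pconj m h k)⁻¹ := by
  cases m with
  | closed c => simp [pflow, pconj]
  | push i j =>
    simp only [pflow, pconj]
    split_ifs <;> simp

theorem pcurve_mem {S : Subgroup G} (m : PMove g b) {x : St g b G} (hx : InSub S x) :
    pcurve m x ∈ S := by
  cases m with
  | closed c => exact curveElt_mem c hx.1
  | push i j =>
    exact S.mul_mem (S.inv_mem (S.mul_mem (hx.1 i).2 (S.inv_mem (hx.1 i).1)))
      (S.mul_mem (S.mul_mem (S.inv_mem (gpre_mem hx.1 _)) (gpre_mem hx.1 _))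
        (tpre_mem hx.2 _))

theorem pflow_mem {S : Subgroup G} (m : PMove g b) {x : St g b G} (hx : InSub S x) {h : G}
    (hh : h ∈ S) : InSub S (pflow m x h) := by
  have h' := S.inv_mem hh
  cases m with
  | closed c => exact ⟨flow_mem c hx.1 hh, hx.2⟩
  | push i j =>
    refine ⟨fun k => ?_, fun k => ?_⟩
    · have ha := (hx.1 k).1
      have hb := (hx.1 k).2
      simp only [pflow]
      split_ifs
      · exact ⟨S.mul_mem ha hh, S.mul_mem (S.mul_mem (S.mul_mem h' (S.mul_mem hb (S.inv_mem ha)))
          hh) (S.mul_mem ha hh)⟩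
      · exact ⟨S.mul_mem (S.mul_mem h' ha) hh, S.mul_mem (S.mul_mem h' hb) hh⟩
      · exact ⟨ha, hb⟩
    · simp only [pflow]
      split_ifs
      · exact S.mul_mem (S.mul_mem h' (hx.2 k)) hh
      · exact hx.2 k

/-! ### Slides -/

theorem slide_append (w w' : List (Curve g × ℤ)) (x : Fin g → G × G) :
    slide (w ++ w') x = slide w' (slide w x) := by
  induction w generalizing x with
  | nil => rfl
  | cons c cs ih => simp only [List.cons_append, slide, ih]

theorem gpre_slide (w : List (Curve g × ℤ)) (x : Fin g → G × G) :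
    gpre (slide w x) g = gpre x g := by
  induction w generalizing x with
  | nil => rfl
  | cons c cs ih =>
    simp only [slide, ih]
    exact gpre_flow c.1 x _ ((Commute.refl _).zpow_left c.2)

theorem slideInv_slide (w : List (Curve g × ℤ)) (x : Fin g → G × G) :
    slide (slideInv w) (slide w x) = x := by
  induction w generalizing x with
  | nil => rfl
  | cons c cs ih =>
    have h1 : slideInv (c :: cs) = slideInv cs ++ [(c.1, -c.2)] := by simp [slideInv]
    simp only [h1, slide_append, slide, ih]
    rw [curveElt_flow c.1 x _ ((Commute.refl _).zpow_left c.2), _root_.zpow_neg, flow_inv]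

theorem slideInv_slideInv (w : List (Curve g × ℤ)) : slideInv (slideInv w) = w := by
  simp [slideInv, List.map_reverse, Function.comp_def]

theorem slide_slideInv (w : List (Curve g × ℤ)) (x : Fin g → G × G) :
    slide w (slide (slideInv w) x) = x := by
  have := slideInv_slide (slideInv w) x
  rwa [slideInv_slideInv] at this

theorem slide_mem {S : Subgroup G} (w : List (Curve g × ℤ)) {x : Fin g → G × G}
    (hx : ∀ k, (x k).1 ∈ S ∧ (x k).2 ∈ S) : ∀ k, (slide w x k).1 ∈ S ∧ (slide w x k).2 ∈ S := by
  induction w generalizing x with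
  | nil => exact hx
  | cons c cs ih => exact ih fun k => flow_mem c.1 hx (S.zpow_mem (curveElt_mem c.1 hx) c.2) k

/-- Moved flows keep the relator. -/
theorem sval_tflow (t : TMove g b) (x : St g b G) (h : G) (hh : Commute h (tcurve t x)) :
    sval (tflow t x h) = sval x := by
  have h1 := sval_pflow t.2 _ h hh
  simp only [sval, gpre_slide] at h1
  simp only [sval, tflow, gpre_slide]
  exact h1

theorem tcurve_tflow (t : TMove g b) (x : St g b G) (h : G) (hh : Commute h (tcurve t x)) :
    tcurve t (tflow t x h) = tcurve t x := by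
  show pcurve t.2 (slide t.1 (slide (slideInv t.1) _), _) = _
  rw [slide_slideInv]
  exact pcurve_pflow t.2 _ h hh

theorem tflow_inv (t : TMove g b) (x : St g b G) (h : G) :
    tflow t (tflow t x h) h⁻¹ = x := by
  simp only [tflow, slide_slideInv]
  rw [show ((pflow t.2 (slide t.1 x.1, x.2) h).1, (pflow t.2 (slide t.1 x.1, x.2) h).2) =
    pflow t.2 (slide t.1 x.1, x.2) h from rfl, pflow_inv, slideInv_slide]

theorem tflow_one (t : TMove g b) (x : St g b G) : tflow t x 1 = x := by
  simp only [tflow, pflow_one, slideInv_slide]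

theorem tflow_tail (t : TMove g b) (x : St g b G) (h : G) (k : Fin b) :
    (tflow t x h).2 k = tpush t h k * x.2 k * (tpush t h k)⁻¹ :=
  pflow_tail t.2 _ h k

theorem tcurve_mem {S : Subgroup G} (t : TMove g b) {x : St g b G} (hx : InSub S x) :
    tcurve t x ∈ S :=
  pcurve_mem t.2 ⟨slide_mem t.1 hx.1, hx.2⟩

theorem tflow_mem {S : Subgroup G} (t : TMove g b) {x : St g b G} (hx : InSub S x) {h : G}
    (hh : h ∈ S) : InSub S (tflow t x h) :=
  have h1 := pflow_mem t.2 (x := (slide t.1 x.1, x.2)) ⟨slide_mem t.1 hx.1, hx.2⟩ hh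
  ⟨slide_mem _ h1.1, h1.2⟩

/-! ### Slid curves at handlebody points -/

section SlideWord

variable {z o : Fin g} (hzo : z < o) (q l : ℕ) (x : Fin g → G × G)

theorem slideWord_fix (ho1 : o.val = z.val + 1) {k : Fin g} (hkz : k ≠ z) (hko : k ≠ o) :
    slide (slideWord z o hzo q l) x k = x k ∧
      slide (slideInv (slideWord z o hzo q l)) x k = x k := by
  have hmid : ¬ (z < k ∧ k < o) := by
    intro h
    simp only [Fin.lt_def] at h
    omega
  simp [slideWord, slideInv, slide, flow, hkz, hko, hmid]

theorem slideWord_left (hz0 : z.val = 0) (ho1 : o.val = 1) (hxz : (x z).2 = 1)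
    (hxo : (x o).2 = 1) :
    ((slide (slideWord z o hzo q l) x z).2 * (slide (slideWord z o hzo q l) x z).1⁻¹)⁻¹ *
      (gpre (slide (slideWord z o hzo q l) x) (z.val + 1))⁻¹ =
        omegaW (x z).1 (x o).1⁻¹ q l := by
  have hoz : o ≠ z := ne_of_gt hzo
  rw [gpre_succ]
  simp only [hz0, gpre, one_mul]
  simp only [slideWord, slide, flow, curveElt, gcomm, if_true, if_neg hoz, hz0, ho1, gpre,
    hxz, hxo, omegaW, one_mul]
  simp only [inv_pow, _root_.zpow_one]
  have e1 : 1 + l = l + 1 := by omega
  rw [e1, pow_succ' (x o).1 l, ← zpow_natCast (x z).1 q, ← zpow_natCast (x z).1 (q + 1)]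
  push_cast
  group

theorem gpre_slideWord (hz0 : z.val = 0) (ho1 : o.val = 1) :
    ∀ k, 2 ≤ k → gpre (slide (slideWord z o hzo q l) x) k = gpre x k
  | 0, hk => absurd hk (by omega)
  | k + 1, hk => by
    rcases eq_or_lt_of_le hk with he | hlt
    · -- the moved handles keep their product
      obtain rfl : k = 1 := by omega
      clear hk he
      have key : ∀ (c : Curve g) (y : Fin g → G × G) (h : G), Commute h (curveElt c y) →
          (c = .twist z ∨ c = .bridge z o hzo l) → gpre (flow c y h) 2 = gpre y 2 := by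
        rintro c y h hh (rfl | rfl)
        · simp only [curveElt] at hh
          have h2 : ∀ n, gpre (flow (.twist z) y h) n = gpre y n := by
            intro n
            induction n with
            | zero => rfl
            | succ n ih =>
              simp only [gpre]
              split
              · rename_i hn
                rw [ih]
                by_cases he : (⟨n, hn⟩ : Fin g) = z
                · simp only [flow, he, if_true, gcomm_twist (y z).1 (y z).2 h hh]
                · simp [flow, he]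
              · exact ih
          exact h2 2
        · exact gpre_flow_ge z o hzo l y h hh 2 (by omega)
      simp only [slideWord, slide]
      rw [key _ _ _ ((Commute.refl _).zpow_left _) (Or.inl rfl),
        key _ _ _ ((Commute.refl _).zpow_left _) (Or.inr rfl),
        key _ _ _ ((Commute.refl _).zpow_left _) (Or.inl rfl)]
    · have ih := gpre_slideWord hz0 ho1 k (by omega)
      simp only [gpre]
      split
      · rename_i hkg
        rw [ih, (slideWord_fix hzo q l x (by omega) (k := ⟨k, hkg⟩)
          (Fin.ne_of_val_ne (by simp; omega)) (Fin.ne_of_val_ne (by simp; omega))).1]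
      · exact ih

/-- The curve of a slid push at a handlebody point. -/
theorem tcurve_push (hz0 : z.val = 0) (ho1 : o.val = 1) (hxz : (x z).2 = 1) (hxo : (x o).2 = 1)
    (c : Fin b → G) (j : Fin b) :
    tcurve (slideWord z o hzo q l, PMove.push z j) (x, c) =
      omegaW (x z).1 (x o).1⁻¹ q l * (gpre x g * tpre c (j.val + 1)) := by
  rw [← slideWord_left hzo q l x hz0 ho1 hxz hxo]
  simp only [tcurve, pcurve, gpre_slide, mul_assoc]

/-- The curve of a slid bridge to a later handle at a handlebody point. -/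
theorem tcurve_bridge (hz0 : z.val = 0) (ho1 : o.val = 1) (hxz : (x z).2 = 1)
    (hxo : (x o).2 = 1) (c : Fin b → G) (k : Fin g) (hok : o < k) (hzk : z < k) (n : ℕ) :
    tcurve (slideWord z o hzo q l, PMove.closed (.bridge z k hzk n)) (x, c) =
      omegaW (x z).1 (x o).1⁻¹ q l *
        (gpre x k.val * ((x k).1 * (x k).2 * ((x k).1 ^ (1 + n))⁻¹)) := by
  have hko : 2 ≤ k.val := by simp only [Fin.lt_def] at hok; omega
  rw [← slideWord_left hzo q l x hz0 ho1 hxz hxo]
  simp only [tcurve, pcurve, curveElt, gpre_slideWord hzo q l x hz0 ho1 k.val hko,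
    (slideWord_fix hzo q l x (by omega) (ne_of_gt hzk) (ne_of_gt hok)).1, mul_assoc]

end SlideWord

/-! ### Rationality and forced points -/

section Rat

variable {α ι : Type*} {ev : α → ι → ℂ}

/-- Rationality of a function with values in tuples. -/
def RatSt (ev : α → ι → ℂ) (x : α → St g b (SLC r)) : Prop :=
  (∀ k, RatSL ev (fun a => ((x a).1 k).1) ∧ RatSL ev fun a => ((x a).1 k).2) ∧
    ∀ j, RatSL ev fun a => (x a).2 j

theorem ratSL_zpow {f : α → SLC r} (hf : RatSL ev f) : ∀ n : ℤ, RatSL ev fun a => f a ^ n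
  | .ofNat n => by simpa using hf.pow n
  | .negSucc n => by simpa [zpow_negSucc] using (hf.pow (n + 1)).inv

theorem ratSL_tpre {c : α → Fin b → SLC r} (hc : ∀ j, RatSL ev fun a => c a j) :
    ∀ k, RatSL ev fun a => tpre (c a) k
  | 0 => RatSL.const 1
  | k + 1 => by
    simp only [tpre]
    split
    · exact (ratSL_tpre hc k).mul (hc _)
    · exact ratSL_tpre hc k

theorem ratSL_pcurve (m : PMove g b) {x : α → St g b (SLC r)} (hx : RatSt ev x) :
    RatSL ev fun a => pcurve m (x a) := by
  cases m with
  | closed c => exact ratSL_curveElt c hx.1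
  | push i j =>
    exact ((hx.1 i).2.mul (hx.1 i).1.inv).inv.mul
      (((ratSL_pre hx.1 _).inv.mul (ratSL_pre hx.1 _)).mul (ratSL_tpre hx.2 _))

theorem ratSt_pflow (m : PMove g b) {x : α → St g b (SLC r)} (hx : RatSt ev x)
    {f : α → SLC r} (hf : RatSL ev f) : RatSt ev fun a => pflow m (x a) (f a) := by
  cases m with
  | closed c => exact ⟨ratSL_flow c hx.1 hf, hx.2⟩
  | push i j =>
    refine ⟨fun k => ?_, fun k => ?_⟩
    · have ha := (hx.1 k).1
      have hb := (hx.1 k).2
      by_cases h1 : k = i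
      · simp only [pflow, if_pos h1]
        exact ⟨ha.mul hf, ((hf.inv.mul (hb.mul ha.inv)).mul hf).mul (ha.mul hf)⟩
      · by_cases h2 : i < k
        · simp only [pflow, if_neg h1, if_pos h2]
          exact ⟨(hf.inv.mul ha).mul hf, (hf.inv.mul hb).mul hf⟩
        · simp only [pflow, if_neg h1, if_neg h2]
          exact hx.1 k
    · by_cases h1 : k ≤ j
      · simp only [pflow, if_pos h1]
        exact (hf.inv.mul (hx.2 k)).mul hf
      · simp only [pflow, if_neg h1]
        exact hx.2 k

theorem ratSL_slide (w : List (Curve g × ℤ)) {x : α → Fin g → SLC r × SLC r}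
    (hx : ∀ i, RatSL ev (fun a => (x a i).1) ∧ RatSL ev fun a => (x a i).2) :
    ∀ i, RatSL ev (fun a => (slide w (x a) i).1) ∧ RatSL ev fun a => (slide w (x a) i).2 := by
  induction w generalizing x with
  | nil => exact hx
  | cons c cs ih =>
    exact ih fun i => ratSL_flow c.1 hx (ratSL_zpow (ratSL_curveElt c.1 hx) c.2) i

theorem ratSL_tcurve (t : TMove g b) {x : α → St g b (SLC r)} (hx : RatSt ev x) :
    RatSL ev fun a => tcurve t (x a) :=
  ratSL_pcurve t.2 (x := fun a => (slide t.1 (x a).1, (x a).2))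
    ⟨ratSL_slide t.1 hx.1, hx.2⟩

theorem ratSt_tflow (t : TMove g b) {x : α → St g b (SLC r)} (hx : RatSt ev x)
    {f : α → SLC r} (hf : RatSL ev f) : RatSt ev fun a => tflow t (x a) (f a) :=
  have h := ratSt_pflow t.2 (x := fun a => (slide t.1 (x a).1, (x a).2))
    ⟨ratSL_slide t.1 hx.1, hx.2⟩ hf
  ⟨ratSL_slide _ h.1, h.2⟩

theorem ratFn_evalP {x : α → St g b (SLC r)} (hx : RatSt ev x)
    (F : MvPolynomial (PVar g b r) ℂ) : RatFn ev fun a => evalP F (toP (x a)) := by
  refine RatFn.eval F fun v => ?_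
  rcases v with ⟨i, t, k, l⟩ | ⟨j, k, l⟩
  · cases t
    · exact ((hx.1 i).2 k l).congr fun a => by simp [pentry, toP, entry, toPt]
    · exact ((hx.1 i).1 k l).congr fun a => by simp [pentry, toP, entry, toPt]
  · exact (hx.2 j k l).congr fun a => by simp [pentry, toP]

end Rat

/-- The entries of a tuple, as coordinates. -/
def stEntry (x : St g b (SLC r)) : PVar g b r → ℂ := pentry (toP x)

theorem ratSt_coord : RatSt (stEntry (g := g) (b := b) (r := r)) fun y => y :=
  ⟨fun i => ⟨fun k l => (RatFn.coord (Sum.inl (i, true, k, l))).congr fun y => by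
      simp [stEntry, pentry, toP, entry, toPt],
    fun k l => (RatFn.coord (Sum.inl (i, false, k, l))).congr fun y => by
      simp [stEntry, pentry, toP, entry, toPt]⟩,
   fun j k l => (RatFn.coord (Sum.inr (j, k, l))).congr fun y => by
      simp [stEntry, pentry, toP]⟩

theorem pStable_iff {x : St g b (SLC r)} {W : Submodule ℂ (Fin r → ℂ)} :
    PStable (toP x) W ↔ InSub (stab W) x := by
  constructor
  · exact fun h => ⟨fun k => ⟨mem_stab fun v hv => (h.1 k v hv).1,
      mem_stab fun v hv => (h.1 k v hv).2⟩, fun j => mem_stab fun v hv => h.2 j v hv⟩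
  · exact fun h => ⟨fun k v hv => ⟨(h.1 k).1.1 v hv, (h.1 k).2.1 v hv⟩,
      fun j v hv => (h.2 j).1 v hv⟩

theorem isOPt_iff {O : Subring ℂ} {x : St g b (SLC r)} :
    IsOPt O (toP x) ↔ InSub (intSL O r) x := by
  constructor
  · exact fun h => ⟨fun k => ⟨fun p q => (h.1 k p q).1, fun p q => (h.1 k p q).2⟩,
      fun j p q => h.2 j p q⟩
  · exact fun h => ⟨fun k p q => ⟨(h.1 k).1 p q, (h.1 k).2 p q⟩, fun j p q => h.2 j p q⟩

theorem inClass_conj {J : Fin b → Mat r} {x x' : St g b (SLC r)} (h : InClass J (toP x).2)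
    (K : Fin b → SLC r) (hK : ∀ j, x'.2 j = K j * x.2 j * (K j)⁻¹) : InClass J (toP x').2 := by
  intro j
  obtain ⟨X, hX, he⟩ := h j
  refine ⟨(K j).1 * X, by rw [Matrix.det_mul, (K j).2, hX, mul_one], ?_⟩
  show (x'.2 j).1 = _
  rw [hK j]
  show (K j).1 * (x.2 j).1 * ((K j)⁻¹ : SLC r).1 = _
  rw [coe_inv_sl, show (x.2 j).1 = X * J j * X⁻¹ from he, Matrix.mul_inv_rev]
  simp only [Matrix.mul_assoc]

/-- A map given by words, invertible by words, keeping the relator and the classes. -/
structure IsWord (Φ : St g b (SLC r) → St g b (SLC r)) : Prop where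
  rat : RatSt (stEntry (g := g) (b := b) (r := r)) Φ
  rel : ∀ x, sval x = 1 → sval (Φ x) = 1
  conj : ∀ x, ∃ K : Fin b → SLC r, ∀ j, (Φ x).2 j = K j * x.2 j * (K j)⁻¹
  mem : ∀ (S : Subgroup (SLC r)) x, InSub S x → InSub S (Φ x)
  back : ∀ (S : Subgroup (SLC r)) x, InSub S (Φ x) → InSub S x

/-- Word maps keep forced points forced. -/
theorem pforced_word {O : Subring ℂ} {J : Fin b → Mat r} {Φ : St g b (SLC r) → St g b (SLC r)}
    (hΦ : IsWord Φ) {x : St g b (SLC r)} (hx : PForced O J (toP x)) :
    PForced O J (toP (Φ x)) := by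
  intro F hF
  obtain ⟨P, Q, hPQ⟩ := ratFn_evalP hΦ.rat F
  have hP : ∀ w : PPt g b r, IsPSLRep w → InClass J w.2 → IsOPt O w → PIrred w →
      evalP P w = 0 := by
    intro w hw hcl hO hirr
    obtain ⟨y, rfl⟩ := exists_stP hw
    obtain ⟨K, hK⟩ := hΦ.conj y
    have h0 : evalP F (toP (Φ y)) = 0 :=
      hF _ (isPSLRep_toP.2 (hΦ.rel y (isPSLRep_toP.1 hw))) (inClass_conj hcl K hK)
        (isOPt_iff.2 (hΦ.mem _ y (isOPt_iff.1 hO)))
        fun W hW => hirr W (pStable_iff.2 (hΦ.back _ y (pStable_iff.1 hW)))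
    have h1 := hPQ y
    beta_reduce at h1
    rw [h0] at h1
    exact (div_eq_zero_iff.1 h1.2.symm).resolve_right h1.1
  have h1 := hPQ x
  beta_reduce at h1
  rw [h1.2]
  have : MvPolynomial.eval (stEntry x) P = 0 := hx P hP
  rw [this, zero_div]

theorem isWord_tflow_pow (t : TMove g b) (n : ℕ) :
    IsWord fun x : St g b (SLC r) => tflow t x (tcurve t x ^ n) where
  rat := ratSt_tflow t ratSt_coord ((ratSL_tcurve t ratSt_coord).pow n)
  rel x hx := by rw [sval_tflow t x _ ((Commute.refl _).pow_left n), hx]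
  conj x := ⟨_, tflow_tail t x _⟩
  mem S x hx := tflow_mem t hx (S.pow_mem (tcurve_mem t hx) n)
  back S x hx := by
    have h1 := tcurve_mem t hx
    rw [tcurve_tflow t x _ ((Commute.refl _).pow_left n)] at h1
    have h2 := tflow_mem t hx (S.inv_mem (S.pow_mem h1 n))
    rwa [tflow_inv] at h2

/-- The forced set is stable under moved flows along curves with independent eigenvalues. -/
theorem pforced_tflow {O : Subring ℂ} {J : Fin b → Mat r} (t : TMove g b) {x : St g b (SLC r)}
    (hx : PForced O J (toP x)) (hc : Indep (tcurve t x).1) (h : SLC r)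
    (hh : Commute h (tcurve t x)) : PForced O J (toP (tflow t x h)) := by
  intro F hF
  obtain ⟨P, Q, hPQ⟩ := ratFn_evalP
    (ev := fun (A : SLC r) (v : Fin r × Fin r) => A.1 v.1 v.2)
    (ratSt_tflow t (x := fun _ => x)
      ⟨fun i => ⟨RatSL.const _, RatSL.const _⟩, fun j => RatSL.const _⟩
      (f := fun A => A) fun p q => RatFn.coord (p, q)) F
  have hv : ∀ n : ℕ, MvPolynomial.eval (fun v => ((tcurve t x).1 ^ n) v.1 v.2) P = 0 := by
    intro n
    have h0 : evalP F (toP (tflow t x (tcurve t x ^ n))) = 0 :=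
      pforced_word (isWord_tflow_pow t n) hx F hF
    have h1 := hPQ (tcurve t x ^ n)
    beta_reduce at h1
    rw [h0, Matrix.SpecialLinearGroup.coe_pow] at h1
    exact (div_eq_zero_iff.1 h1.2.symm).resolve_right h1.1
  have := hc.vanish (tcurve t x).2 P hv h.1 (congrArg Subtype.val hh.eq) h.2
  have h1 := (hPQ h).2
  beta_reduce at h1
  rw [h1, this, zero_div]

theorem isClosed_pforced (O : Subring ℂ) (J : Fin b → Mat r) :
    IsClosed {y : PPt g b r | PForced O J y} := by
  have hc : ∀ F : MvPolynomial (PVar g b r) ℂ, Continuous fun y : PPt g b r => evalP F y := by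
    intro F
    refine F.continuous_eval.comp (continuous_pi fun v => ?_)
    rcases v with ⟨i, t, k, l⟩ | ⟨j, k, l⟩
    · cases t <;> simp [pentry, entry] <;> fun_prop
    · simp only [pentry, Sum.elim_inr]; fun_prop
  have : {y : PPt g b r | PForced O J y} = ⋂ (F : MvPolynomial (PVar g b r) ℂ)
      (_ : ∀ w : PPt g b r, IsPSLRep w → InClass J w.2 → IsOPt O w → PIrred w →
        evalP F w = 0), {y | evalP F y = 0} := by
    ext y; simp [PForced]
  rw [this]
  exact isClosed_biInter fun F _ => isClosed_eq (hc F) continuous_const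

end Vale.Agent.P002.Punct
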