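import Vale.Agent.P002.Punct.Velocity

/-!
P002, punctured surface groups: the directions at the base point reached by the composite map.
-/

namespace Vale.Agent.P002.Punct

open Matrix Module Topology Filter
open Vale.Agent.P002.Surf
open scoped Matrix.Norms.Operator

variable {g b r M : ℕ} (e : Fin r) (A0 : Fin g → SLC r) (a c : SLC r) (J : Fin b → SLC r)
  (L : Fin M → TMove (g + 1) b)

theorem hasDerivAt_scaleP (s : Scal g b) (y : PPt g b r) :
    HasDerivAt (fun t : ℂ => scaleP (t • s) y)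
      ((fun i => ((s.1 i).1 • (y.1 i).1, (s.1 i).2 • (y.1 i).2), fun j => s.2 j • y.2 j) :
        PPt g b r) 0 := by
  refine HasDerivAt.prodMk (hasDerivAt_pi.2 fun i => HasDerivAt.prodMk ?_ ?_)
    (hasDerivAt_pi.2 fun j => ?_)
  · simpa using hasDerivAt_scaled_line (s.1 i).1 (y.1 i).1
  · simpa using hasDerivAt_scaled_line (s.1 i).2 (y.1 i).2
  · simpa using hasDerivAt_scaled_line (s.2 j) (y.2 j)

theorem eventually_scal_ne (s : Scal g b) : ∀ᶠ t in 𝓝 (0 : ℂ),
    (∀ i, 1 + ((t • s).1 i).1 ≠ 0 ∧ 1 + ((t • s).1 i).2 ≠ 0) ∧ ∀ j, 1 + (t • s).2 j ≠ 0 := by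
  have h : ∀ w : ℂ, ∀ᶠ t in 𝓝 (0 : ℂ), 1 + t * w ≠ 0 := fun w =>
    (Continuous.continuousAt (by fun_prop : Continuous fun t : ℂ => 1 + t * w)).eventually_ne
      (by simp)
  refine Filter.Eventually.and (eventually_all.2 fun i => ?_) (eventually_all.2 fun j => ?_)
  · filter_upwards [h (s.1 i).1, h (s.1 i).2] with t h1 h2 using ⟨h1, h2⟩
  · filter_upwards [h (s.2 j)] with t h1 using h1

/-- The special handle and the fixed matrices satisfy the relation. -/
theorem comm_mul_tProd_one (a c : SLC r) (J : Fin b → SLC r)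
    (hrel : gcomm (a, c) * tpre J b = 1) :
    Surf.comm (a.1, c.1) * tProd (tconj (fun j => (J j).1) fun _ : Fin b => (1 : Mat r)) = 1 := by
  have ht : tconj (fun j => (J j).1) (fun _ : Fin b => (1 : Mat r)) = fun j => (J j).1 :=
    funext fun j => by simp [tconj]
  let x : St 0 b (SLC r) := (fun _ => (1, 1), J)
  have h3 : tProd (fun j => (J j).1) = (tpre J b).1 := tProd_toP x
  have h5 : Surf.comm (a.1, c.1) = (gcomm (a, c)).1 := comm_toPt (fun _ : Fin 1 => (a, c)) 0
  rw [ht, h3, h5, ← Matrix.SpecialLinearGroup.coe_mul, hrel]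
  rfl

/-- The derivative of the relation at the base point on variations of the first handles. -/
theorem deriv_handleEmb (hrel : gcomm (a, c) * tpre J b = 1)
    {D : PPt (g + 1) b r →L[ℂ] Mat r}
    (hD : HasStrictFDerivAt (relP fun j => (J j).1) D (basePt A0 a c J)) (v : Pt g r) :
    D (handleEmb g b r v) = dRel (toPt (handlePt A0)) v := by
  set x0 := toPt (handlePt A0)
  have hx0 : IsRep x0 := ⟨fun i => ⟨by rw [(isSL_toPt (handlePt A0) i).1]; exact isUnit_one,
    by rw [(isSL_toPt (handlePt A0) i).2]; exact isUnit_one⟩,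
    by rw [relProd_toPt, gpre_handle]; rfl⟩
  have hbase : (Fin.snoc x0 (a.1, c.1), fun _ => (1 : Mat r)) = basePt A0 a c J := by
    refine Prod.ext (funext fun i => ?_) rfl
    refine Fin.lastCases ?_ (fun m => ?_) i <;> simp [basePt, toLift, toPt, seedPt, x0, handlePt]
  have hl := hasDerivAt_handleEmb (b := b) (hasDerivAt_line x0 v) (a.1, c.1) (fun _ => (1 : Mat r))
  have h1 := hD.hasFDerivAt.comp_hasDerivAt_of_eq (0 : ℂ) hl (by simp [hbase])
  have hone := comm_mul_tProd_one a c J hrel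
  have h2 : HasDerivAt (fun t : ℂ => relP (fun j => (J j).1)
      ((Fin.snoc (x0 + t • v) (a.1, c.1), fun _ => (1 : Mat r)) : PPt (g + 1) b r))
      (dRel x0 v) 0 := by
    refine (hasDerivAt_relProd_line hx0).congr_of_eventuallyEq
      (Eventually.of_forall fun t => ?_)
    simp only [relP, relProd_snoc, Matrix.mul_assoc, hone, Matrix.mul_one]
  exact h1.unique h2

variable {W : Submodule ℂ (PPt (g + 1) b r)} {D : PPt (g + 1) b r →L[ℂ] Mat r}
  {T : PPar g b r M W →L[ℂ] PPt (g + 1) b r}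

/-- The reached directions that are tangent to the relation. -/
def reachSub (D : PPt (g + 1) b r →L[ℂ] Mat r) (T : PPar g b r M W →L[ℂ] PPt (g + 1) b r) :
    Submodule ℂ (PPt (g + 1) b r) :=
  LinearMap.range T.toLinearMap ⊓ LinearMap.ker D.toLinearMap

/-- Velocities of curves of rescaled composite flows are reached and tangent. -/
theorem mem_reach_of_line (hrel : gcomm (a, c) * tpre J b = 1)
    (hD : HasStrictFDerivAt (relP fun j => (J j).1) D (basePt A0 a c J))
    (hT : HasStrictFDerivAt (ptheta e A0 a c J L W) T 0) {d : PPar g b r M W} (hd : d.2.2 = 0)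
    {v : PPt (g + 1) b r} (hv : HasDerivAt (fun t : ℂ => ptheta e A0 a c J L W (t • d)) v 0) :
    v ∈ reachSub D T := by
  have hl : HasDerivAt (fun t : ℂ => t • d) d 0 :=
    ((hasDerivAt_id (0 : ℂ)).smul_const d).congr_deriv (one_smul ℂ d)
  have h2 := hT.hasFDerivAt.comp_hasDerivAt_of_eq (0 : ℂ) hl (zero_smul ℂ d).symm
  refine ⟨⟨d, h2.unique hv⟩, ?_⟩
  have h3 := hD.hasFDerivAt.comp_hasDerivAt_of_eq (0 : ℂ) hv
    (by rw [zero_smul, ptheta_zero])
  have h4 : HasDerivAt (fun t : ℂ => relP (fun j => (J j).1) (ptheta e A0 a c J L W (t • d)))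
      (0 : Mat r) 0 := by
    refine (hasDerivAt_const (0 : ℂ) (1 : Mat r)).congr_of_eventuallyEq ?_
    filter_upwards [eventually_scal_ne d.2.1] with t ht
    have hs := isSLLift_toLift (linked_pstage e A0 a c J L hrel (t • d).1 M)
    rw [show ptheta e A0 a c J L W (t • d) =
      scaleP (t • d.2.1) (toLift (pstage e A0 a c J L (t • d).1 M)) by simp [ptheta, hd],
      relP_scaleP _ hs.1 hs.2.1 ht]
    exact hs.2.2
  exact LinearMap.mem_ker.2 (h3.unique h4)

theorem mem_reach_scal (hrel : gcomm (a, c) * tpre J b = 1)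
    (hD : HasStrictFDerivAt (relP fun j => (J j).1) D (basePt A0 a c J))
    (hT : HasStrictFDerivAt (ptheta e A0 a c J L W) T 0) (s : Scal (g + 1) b) :
    ((fun i => ((s.1 i).1 • ((basePt A0 a c J).1 i).1, (s.1 i).2 • ((basePt A0 a c J).1 i).2),
      fun j => s.2 j • (basePt A0 a c J).2 j) : PPt (g + 1) b r) ∈ reachSub D T := by
  refine mem_reach_of_line e A0 a c J L hrel hD hT (d := (0, s, 0)) rfl ?_
  refine (hasDerivAt_scaleP s (basePt A0 a c J)).congr_of_eventuallyEq
    (Eventually.of_forall fun t => ?_)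
  simp [ptheta, pstage_zero_param, basePt]

/-- The parameters without flows, seen among those with flows. -/
def extP (p : Pix g r 0 → ℂ) : Pix g r M → ℂ :=
  Sum.elim (fun v => p (Sum.inl v)) fun _ => 0

theorem mem_reach_fst [NeZero r] (hrel : gcomm (a, c) * tpre J b = 1) {o z : Fin g}
    (hW : (hbWord o z fun i => (A0 i).1).det ≠ 0)
    (hD : HasStrictFDerivAt (relP fun j => (J j).1) D (basePt A0 a c J))
    (hT : HasStrictFDerivAt (ptheta e A0 a c J L W) T 0) (da : Fin g → Mat r) :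
    handleEmb g b r (fun i => (da i, 0)) ∈ reachSub D T := by
  let L0 : Fin 0 → Curve g := Fin.elim0
  have hok := stageOK e A0 L0 o z hW (fun m => m.elim0) 0
  have hT0 := (contDiffAt_theta e A0 L0 hok (zero_mem_dom e A0 L0 o z hW 0)
    (⊥ : Submodule ℂ (Pt g r))).hasStrictFDerivAt one_ne_zero
  obtain ⟨d0, hd0⟩ := mem_range_fst e A0 L0 hT0 da
  have hl : HasDerivAt (fun t : ℂ => t • d0) d0 0 :=
    ((hasDerivAt_id (0 : ℂ)).smul_const d0).congr_deriv (one_smul ℂ d0)
  have h2 := hT0.hasFDerivAt.comp_hasDerivAt_of_eq (0 : ℂ) hl (zero_smul ℂ d0).symm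
  let sx : Scal (g + 1) b := (Fin.snoc d0.2.1 0, 0)
  refine mem_reach_of_line e A0 a c J L hrel hD hT (d := (extP d0.1, sx, 0)) rfl ?_
  refine ((hasDerivAt_handleEmb (b := b) h2 (a.1, c.1) fun _ => (1 : Mat r)).congr_of_eventuallyEq
    (Eventually.of_forall fun t => ?_)).congr_deriv (congrArg (handleEmb g b r) hd0)
  have hw : ∀ q : (⊥ : Submodule ℂ (Pt g r)), (q : Pt g r) = 0 := fun q =>
    (Submodule.mem_bot ℂ).1 q.2
  have hst : pstage e A0 a c J L (t • extP d0.1 : Pix g r M → ℂ) M =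
      seedL e A0 a c J (t • extP d0.1 : Pix g r M → ℂ) :=
    pstage_of_zero e A0 a c J L M fun k _ => funext fun q => by simp [qPart, extP]
  have hbase : ∀ i, baseA e A0 (t • extP d0.1 : Pix g r M → ℂ) i = baseA e A0 (t • d0.1) i := by
    intro i
    have hx : xMat (t • extP d0.1 : Pix g r M → ℂ) i = xMat (t • d0.1) i := by
      ext k l; simp [xMat, extP]
    simp only [baseA, hx]
  refine Prod.ext (funext fun i => ?_) (funext fun j => ?_)
  · refine Fin.lastCases ?_ (fun m => ?_) i
    · simp [ptheta, hst, seedL, toLift, toPt, seedPt, scaleP, sx]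
    · simp [ptheta, hst, seedL, toLift, toPt, seedPt, scaleP, sx, theta, hw, scaled, stage,
        hbase, handlePt]
  · simp [ptheta, hst, seedL, toLift, scaleP, sx]

/-- The parameters of one move. -/
theorem pstage_dirQ (m : Fin M) (v : Fin r → ℂ) (t : ℂ) :
    ptheta e A0 a c J L W (t • (dirQ m v, 0, 0)) =
      toLift (lflow (L m) ((seedPt A0 a c J, 1) : LSt (g + 1) b r)
        (hFn (tcurve (L m) (seedPt A0 a c J)) (t • v))) := by
  have hb : baseA e A0 (t • dirQ m v : Pix g r M → ℂ) = A0 :=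
    funext fun i => baseA_dirQ e A0 m v t i
  have hs : pstage e A0 a c J L (t • dirQ m v) M =
      lflow (L m) ((seedPt A0 a c J, 1) : LSt (g + 1) b r)
        (hFn (tcurve (L m) (seedPt A0 a c J)) (t • v)) := by
    rw [pstage_single e A0 a c J L m (fun k hk => by rw [qPart_dirQ, if_neg hk]) M m.2, qPart_dirQ,
      if_pos rfl]
    simp only [seedL, hb]
  simp [ptheta, hs, scaleP_zero]

/-- The velocities of the closed flows on the first handles are reached. -/
theorem mem_reach_vel [NeZero r] (hr : 2 ≤ r) (hrel : gcomm (a, c) * tpre J b = 1) {o z : Fin g}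
    (hW : (hbWord o z fun i => (A0 i).1).det ≠ 0)
    (hD : HasStrictFDerivAt (relP fun j => (J j).1) D (basePt A0 a c J))
    (hT : HasStrictFDerivAt (ptheta e A0 a c J L W) T 0) (m : Fin M) (cv : Curve g)
    (hm : L m = closedMove cv) (n : ℕ) :
    handleEmb g b r (fun k => ((0 : Mat r), vel cv (fun i => (A0 i).1)
      (baseCurve cv (fun i => (A0 i).1) ^ n) k)) ∈ reachSub D T := by
  set R := reachSub D T
  set An : Fin g → Mat r := fun i => (A0 i).1 with hAn
  have hu : ∀ i, IsUnit (An i).det := fun i => by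
    simp only [hAn]; rw [(A0 i).2]; exact isUnit_one
  obtain ⟨v, hd⟩ := exists_hFn_line hr (curveElt cv (handlePt A0)) n
  rw [curveElt_handlePt] at hd
  set Y := baseCurve cv An ^ n
  obtain ⟨da, hda⟩ := hasDerivAt_flow_handle cv A0
    (fun t => hFn (curveElt cv (handlePt A0)) (t • v)) (by simp [hFn_zero]) _ hd
  let B0 : (Fin g → Mat r) →ₗ[ℂ] Pt g r :=
    { toFun := fun w k => ((0 : Mat r), w k)
      map_add' := fun a b => by funext k; simp
      map_smul' := fun a b => by funext k; simp }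
  let B : (Fin g → Mat r) →ₗ[ℂ] PPt (g + 1) b r := (handleEmb g b r).comp B0
  have hmem : handleEmb g b r
      (fun k => (da k, vel cv An ((r : ℂ) • Y + (-Y.trace) • (1 : Mat r)) k)) ∈ R := by
    refine mem_reach_of_line e A0 a c J L hrel hD hT (d := (dirQ m v, 0, 0)) rfl ?_
    refine (hasDerivAt_handleEmb hda (a.1, c.1) fun _ => (1 : Mat r)).congr_of_eventuallyEq
      (Eventually.of_forall fun t => ?_)
    show ptheta e A0 a c J L W (t • (dirQ m v, 0, 0)) = _
    rw [pstage_dirQ, hm, tcurve_closedMove, toLift_closedMove]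
  have hB : B (vel cv An ((r : ℂ) • Y + (-Y.trace) • (1 : Mat r))) ∈ R := by
    have h := R.sub_mem hmem (mem_reach_fst e A0 a c J L hrel hW hD hT da)
    rw [← map_sub] at h
    convert h using 1
    refine congrArg (handleEmb g b r) (funext fun k => ?_)
    simp [B0]
  obtain ⟨s, hs⟩ := vel_one cv hu
  have h1 : B (vel cv An 1) ∈ R := by
    have h := mem_reach_scal e A0 a c J L hrel hD hT (Fin.snoc (fun k => (0, s k)) 0, 0)
    convert h using 1
    refine Prod.ext (funext fun i => ?_) (by funext j; simp [B, B0, handleEmb])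
    refine Fin.lastCases ?_ (fun k => ?_) i
    · simp [B, B0, handleEmb, Prod.zero_eq_mk]
    · simp [B, B0, handleEmb, hs, basePt, toLift, toPt, seedPt]
  rw [vel_comb, map_add, map_smul, map_smul] at hB
  have h2 := R.sub_mem hB (R.smul_mem (-Y.trace) h1)
  rw [add_sub_cancel_right] at h2
  have h3 := R.smul_mem ((r : ℂ)⁻¹) h2
  rw [smul_smul, inv_mul_cancel₀ (Nat.cast_ne_zero.2 (NeZero.ne r)), one_smul] at h3
  exact h3

/-- The tail of the velocity of a move is reached. -/
theorem mem_reach_tail (hr : 2 ≤ r) (hrel : gcomm (a, c) * tpre J b = 1)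
    (hD : HasStrictFDerivAt (relP fun j => (J j).1) D (basePt A0 a c J))
    (hT : HasStrictFDerivAt (ptheta e A0 a c J L W) T 0) (m : Fin M)
    (Φ : Mat r →ₗ[ℂ] Pair r × (Fin b → Mat r))
    (hΦ : ∀ (h : ℂ → SLC r), h 0 = 1 → ∀ Y : Mat r, HasDerivAt (fun t => (h t).1) Y 0 →
      HasDerivAt (fun t => tailL g b r (toLift (lflow (L m)
        ((seedPt A0 a c J, 1) : LSt (g + 1) b r) (h t)))) (Φ Y) 0) :
    Φ ((r : ℂ) • (tcurve (L m) (seedPt A0 a c J)).1 +
      (-(tcurve (L m) (seedPt A0 a c J)).1.trace) • (1 : Mat r)) ∈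
        (reachSub D T).map (tailL g b r) := by
  obtain ⟨v, hd⟩ := exists_hFn_line hr (tcurve (L m) (seedPt A0 a c J)) 1
  rw [pow_one] at hd
  let d : PPar g b r M W := (dirQ m v, 0, 0)
  have hl : HasDerivAt (fun t : ℂ => t • d) d 0 :=
    ((hasDerivAt_id (0 : ℂ)).smul_const d).congr_deriv (one_smul ℂ d)
  have h2 := hT.hasFDerivAt.comp_hasDerivAt_of_eq (0 : ℂ) hl (zero_smul ℂ d).symm
  refine ⟨T d, mem_reach_of_line e A0 a c J L hrel hD hT (d := d) rfl h2, ?_⟩
  have h3 := (tailL g b r).toContinuousLinearMap.hasFDerivAt.comp_hasDerivAt (0 : ℂ) h2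
  refine h3.unique ((hΦ _ (by simp [hFn_zero]) _ hd).congr_of_eventuallyEq
    (Eventually.of_forall fun t => ?_))
  simp only [Function.comp_apply, d, pstage_dirQ]
  rfl

end Vale.Agent.P002.Punct
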