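import Vale.Agent.P002.Punct.Moves
import Vale.Agent.P002.Surf.Interior

/-!
P002, punctured surface groups: the seeds (handlebody handles, one special handle, integral
punctures) are forced, and at some seed the velocities of the used flows span.
-/

namespace Vale.Agent.P002.Punct

open Matrix Module Filter Topology
open Vale.Agent.P002.Surf
open scoped Matrix.Norms.Operator

variable {g b r : ℕ} {G : Type*} [Group G]

/-- A curve on the first handles, seen with one more handle. -/
def castCurve : Curve g → Curve (g + 1)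
  | .twist j => .twist j.castSucc
  | .bridge i j hij l => .bridge i.castSucc j.castSucc (Fin.castSucc_lt_castSucc_iff.2 hij) l

theorem gpre_snoc (x : Fin g → G × G) (p : G × G) :
    ∀ k, k ≤ g → gpre (Fin.snoc x p) k = gpre x k
  | 0, _ => rfl
  | k + 1, hk => by
    have hkg : k < g := hk
    have h := gpre_succ (Fin.snoc x p) (Fin.castSucc (⟨k, hkg⟩ : Fin g))
    rw [Fin.val_castSucc, Fin.snoc_castSucc] at h
    rw [h, gpre_snoc x p k hkg.le, gpre_succ x ⟨k, hkg⟩]

theorem gpre_snoc_last (x : Fin g → G × G) (p : G × G) :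
    gpre (Fin.snoc x p) (g + 1) = gpre x g * gcomm p := by
  have h := gpre_succ (Fin.snoc x p) (Fin.last g)
  rw [Fin.val_last, Fin.snoc_last, gpre_snoc x p g le_rfl] at h
  exact h

theorem curveElt_castCurve (c : Curve g) (x : Fin g → G × G) (p : G × G) :
    curveElt (castCurve c) (Fin.snoc x p) = curveElt c x := by
  cases c with
  | twist j => simp [castCurve, curveElt]
  | bridge i j hij l =>
    simp only [castCurve, curveElt, Fin.snoc_castSucc, Fin.val_castSucc,
      gpre_snoc x p (i.val + 1) i.isLt, gpre_snoc x p j.val j.isLt.le]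

theorem flow_castCurve (c : Curve g) (x : Fin g → G × G) (p : G × G) (h : G) :
    flow (castCurve c) (Fin.snoc x p) h = Fin.snoc (flow c x h) p := by
  funext k
  refine Fin.lastCases ?_ (fun m => ?_) k
  · cases c with
    | twist j => simp [castCurve, flow, (Fin.castSucc_lt_last j).ne']
    | bridge i j hij l =>
      have h1 : ¬ (i.castSucc < Fin.last g ∧ Fin.last g < j.castSucc) :=
        fun h => absurd h.2 (not_lt.2 (Fin.le_last _))
      simp only [castCurve, flow, Fin.snoc_last, (Fin.castSucc_lt_last i).ne',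
        (Fin.castSucc_lt_last j).ne', if_false, if_neg h1]
  · cases c with
    | twist j => simp [castCurve, flow]
    | bridge i j hij l =>
      simp only [castCurve, flow, Fin.snoc_castSucc, Fin.castSucc_inj,
        Fin.castSucc_lt_castSucc_iff]

theorem sval_seed (A : Fin g → G) {a c : G} {J : Fin b → G}
    (h : gcomm (a, c) * tpre J b = 1) : sval (seedPt A a c J) = 1 := by
  rw [sval, seedPt]
  simp only [gpre_snoc_last, gpre_handlePt, one_mul]
  exact h

/-! ### The seeds are forced -/

theorem ratFn_hbWord {α ι : Type*} {ev : α → ι → ℂ} {A : α → Fin g → Mat r}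
    (hA : ∀ i, RatMat ev fun x => A x i) (o z : Fin g) :
    RatFn ev fun x => (hbWord o z (A x)).det :=
  RatMat.det fun ab pq =>
    ((((RatMat.pow (hA o) ab.1.val).mul (hA z)).mul (RatMat.pow (hA o) ab.2.val))
      pq.1 pq.2).congr fun _ => by simp [hbWord]

theorem pIrred_seed {o z : Fin g} (A : Fin g → SLC r) (a c : SLC r) (J : Fin b → SLC r)
    (hW : (hbWord o z fun i => (A i).1).det ≠ 0) : PIrred (toP (seedPt A a c J)) := by
  intro W hWs
  refine irred_of_hbWord hW W fun i v hv => ?_
  have h := (hWs.1 i.castSucc v hv).1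
  simpa [toP, toPt, seedPt] using h

theorem inClass_seed (A : Fin g → SLC r) (a c : SLC r) (J : Fin b → SLC r) :
    InClass (fun j => (J j).1) (toP (seedPt A a c J)).2 :=
  fun j => ⟨1, det_one, by simp [toP, seedPt]⟩

theorem intHom_mem (O : Subring ℂ) (B : Matrix.SpecialLinearGroup (Fin r) ℤ) :
    intHom r B ∈ intSL O r := fun k l => by
  show ((B.1 k l : ℤ) : ℂ) ∈ O
  exact intCast_mem O _

/-- The seeds with invertible word matrix are forced. -/
theorem pforced_seed {O : Subring ℂ} {o z : Fin g} {a c : SLC r} {J : Fin b → SLC r}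
    (ha : a ∈ intSL O r) (hc : c ∈ intSL O r) (hJ : ∀ j, J j ∈ intSL O r)
    (hrel : gcomm (a, c) * tpre J b = 1) (A : Fin g → SLC r)
    (hW : (hbWord o z fun i => (A i).1).det ≠ 0) :
    PForced O (fun j => (J j).1) (toP (seedPt A a c J)) := by
  intro F hF
  let ev : (Fin g → SLC r) → Fin g × Fin r × Fin r → ℂ := fun A x => (A x.1).1 x.2.1 x.2.2
  have hcoord : ∀ i, RatSL ev fun A => A i := fun i k l => RatFn.coord (i, k, l)
  have hseed : RatSt ev fun A : Fin g → SLC r => seedPt A a c J := by
    refine ⟨fun k => ?_, fun j => RatSL.const _⟩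
    refine Fin.lastCases ?_ (fun i => ?_) k
    · exact ⟨fun p q => (RatFn.const (a.1 p q)).congr fun _ => by simp [seedPt],
        fun p q => (RatFn.const (c.1 p q)).congr fun _ => by simp [seedPt]⟩
    · exact ⟨fun p q => (hcoord i p q).congr fun _ => by simp [seedPt],
        fun p q => (RatFn.const ((1 : SLC r).1 p q)).congr fun _ => by simp [seedPt]⟩
  obtain ⟨P, Q, hPQ⟩ := (ratFn_evalP hseed F).mul
    (ratFn_hbWord (A := fun (x : Fin g → SLC r) i => (x i).1) hcoord o z)
  have hP : MvPolynomial.eval (ev A) P = 0 := by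
    refine sl_int_dense_pi A P fun B => ?_
    have h0 : evalP F (toP (seedPt (fun i => intHom r (B i)) a c J)) *
        (hbWord o z fun i => (intHom r (B i)).1).det = 0 := by
      by_cases hd : (hbWord o z fun i => (intHom r (B i)).1).det = 0
      · rw [hd, mul_zero]
      · rw [hF _ (isPSLRep_toP.2 (sval_seed _ hrel)) (inClass_seed _ a c J) ?_
          (pIrred_seed _ a c J hd), zero_mul]
        refine isOPt_iff.2 ⟨fun k => ?_, hJ⟩
        refine Fin.lastCases ?_ (fun i => ?_) k
        · simpa [seedPt] using And.intro ha hc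
        · simpa [seedPt] using And.intro (intHom_mem O (B i)) (one_mem (intSL O r))
    have h1 := hPQ fun i => intHom r (B i)
    beta_reduce at h1
    rw [h0] at h1
    exact (div_eq_zero_iff.1 h1.2.symm).resolve_right h1.1
  have h1 := (hPQ A).2
  beta_reduce at h1
  rw [hP, zero_div] at h1
  exact (mul_eq_zero.1 h1).resolve_right hW

/-! ### A seed at which the velocities span -/

/-- The selected left parts as the rows of a square matrix. -/
noncomputable def omMat {N : ℕ} (σ : Fin r × Fin r → Fin N × Fin N) (A C : Mat r) :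
    Matrix (Fin r × Fin r) (Fin r × Fin r) ℂ :=
  Matrix.of fun s pq => omegaW A C⁻¹ (σ s).1.val (σ s).2.val pq.1 pq.2

theorem coe_omegaW (A C : SLC r) (q l : ℕ) :
    (omegaW A C⁻¹ q l).1 = omegaW A.1 C.1⁻¹ q l := by
  simp only [omegaW, Matrix.SpecialLinearGroup.coe_mul, Matrix.SpecialLinearGroup.coe_pow,
    coe_inv_sl]

theorem linearIndependent_iff_omMat {N : ℕ} (σ : Fin r × Fin r → Fin N × Fin N) (A C : Mat r) :
    LinearIndependent ℂ (fun s => omegaW A C⁻¹ (σ s).1.val (σ s).2.val) ↔
      (omMat σ A C).det ≠ 0 := by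
  let f : Mat r →ₗ[ℂ] (Fin r × Fin r → ℂ) :=
    { toFun := fun M pq => M pq.1 pq.2
      map_add' := fun _ _ => rfl
      map_smul' := fun _ _ => rfl }
  have hf : LinearMap.ker f = ⊥ := LinearMap.ker_eq_bot.2 fun M M' h =>
    Matrix.ext fun p q => congrFun h (p, q)
  rw [← f.linearIndependent_iff hf, ← isUnit_iff_ne_zero, ← Matrix.isUnit_iff_isUnit_det,
    ← Matrix.linearIndependent_rows_iff_isUnit]
  rfl

/-- Velocities along powers of the curves and the linearised relation depend continuously on the
first entries. -/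
theorem continuousAt_vel_delta {M : ℕ} (A1 : Fin g → Mat r) (hu : ∀ i, IsUnit (A1 i).det)
    (L : Fin M → Curve g) (n : Fin M → ℕ) :
    (∀ m, ContinuousAt (fun A => vel (L m) A (baseCurve (L m) A ^ n m)) A1) ∧
      ∀ Z : Fin g → Mat r, ContinuousAt (fun A => delta A Z) A1 := by
  have hinv : ∀ (f : (Fin g → Mat r) → Mat r), ContinuousAt f A1 → IsUnit (f A1).det →
      ContinuousAt (fun A => (f A)⁻¹) A1 := fun f hf hd =>
    ContinuousAt.comp (g := fun X : Mat r => X⁻¹) (continuousAt_matrix_inv _ (by
      rw [Ring.inverse_eq_inv']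
      exact continuousAt_inv₀ hd.ne_zero)) hf
  have hpw : ∀ (j : Fin g) (l : ℕ), IsUnit (A1 j ^ l).det := fun j l => by
    rw [Matrix.det_pow]; exact (hu j).pow l
  have hap : ∀ i : Fin g, ContinuousAt (fun A : Fin g → Mat r => A i) A1 := fun i =>
    (continuous_apply i).continuousAt
  have hcV : ∀ m, ContinuousAt (fun A => vel (L m) A (baseCurve (L m) A ^ n m)) A1 := by
    intro m
    generalize L m = c
    generalize n m = p
    cases c with
    | twist j =>
      simp only [vel, baseCurve]
      exact ((continuous_single j).continuousAt).comp ((hap j).pow p)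
    | bridge i j hij l =>
      have hY : ContinuousAt (fun A : Fin g → Mat r => (A i * (A j ^ l)⁻¹) ^ p) A1 :=
        ((hap i).mul (hinv _ ((hap j).pow l) (hpw j l))).pow p
      simp only [vel, baseCurve]
      refine ContinuousAt.add ((continuous_single i).continuousAt.comp
        (((hinv _ (hap i) (hu i)).mul hY).mul (hap i)))
        ((continuous_single j).continuousAt.comp (ContinuousAt.neg ?_))
      exact tendsto_finsetSum _ fun u _ =>
        ((hinv _ ((hap j).pow (u + 1)) (hpw j _)).mul hY).mul ((hap j).pow (u + 1))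
  have hcd : ∀ Z : Fin g → Mat r, ContinuousAt (fun A => delta A Z) A1 := by
    intro Z
    simp only [delta, LinearMap.coe_mk, AddHom.coe_mk]
    exact tendsto_finsetSum _ fun q _ =>
      (((hap q).mul continuousAt_const).mul (hinv _ (hap q) (hu q))).sub continuousAt_const
  exact ⟨hcV, hcd⟩

/-- A seed with invertible word matrix at which the flows of the first handles span the kernel
of the linearised relation and the left parts span all matrices. -/
theorem exists_seedSpan (hg : 2 ≤ g) (hr : 2 ≤ r) {z0 o0 : Fin g} (hzo : z0 ≠ o0)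
    (hsp : ∃ (A C : SLC r) (N : ℕ), Submodule.span ℂ (Set.range fun p : Fin N × Fin N =>
      (omegaW A C⁻¹ p.1.val p.2.val).1) = ⊤) :
    ∃ (o z : Fin g) (A : Fin g → SLC r) (M N : ℕ) (L : Fin M → Curve g) (n : Fin M → ℕ),
      (hbWord o z fun i => (A i).1).det ≠ 0 ∧
      (∀ m, ∃ A' : Fin g → SLC r, Indep (baseCurve (L m) fun i => (A' i).1)) ∧
      LinearMap.ker (delta fun i => (A i).1) ≤ Submodule.span ℂ (Set.range fun m =>
        vel (L m) (fun i => (A i).1) (baseCurve (L m) (fun i => (A i).1) ^ n m)) ∧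
      Submodule.span ℂ (Set.range fun p : Fin N × Fin N =>
        (omegaW (A z0) (A o0)⁻¹ p.1.val p.2.val).1) = ⊤ := by
  classical
  obtain ⟨o, z, A0, M, L, n, hW0, hI, hker⟩ := exists_spanning hg hr
  obtain ⟨A2, C2, N, hspan2⟩ := hsp
  let A1 : Fin g → Mat r := fun i => (A0 i).1
  let V : (Fin g → Mat r) → Fin M → Fin g → Mat r := fun A m =>
    vel (L m) A (baseCurve (L m) A ^ n m)
  have hu : ∀ i, IsUnit (A1 i).det := fun i => by
    simp only [A1]; rw [(A0 i).2]; exact isUnit_one
  have hVker : ∀ A : Fin g → Mat r, (∀ i, IsUnit (A i).det) →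
      Submodule.span ℂ (Set.range (V A)) ≤ LinearMap.ker (delta A) := fun A hA => by
    rw [Submodule.span_le, Set.range_subset_iff]
    exact fun m => LinearMap.mem_ker.2 (delta_vel hA _ _ ((Commute.refl _).pow_left _))
  obtain ⟨B, hBsub, hBspan, hBli⟩ := exists_linearIndependent ℂ (Set.range (V A1))
  have hBfin : Finite B := hBli.finite
  obtain ⟨d, ⟨eB⟩⟩ : ∃ d, Nonempty (Fin d ≃ B) := ⟨_, ⟨(Finite.equivFin B).symm⟩⟩
  choose sel hsel using fun i => hBsub (eB i).2
  have hVli : LinearIndependent ℂ (fun i => V A1 (sel i)) := by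
    rw [show (fun i => V A1 (sel i)) = fun i => ((eB i : B) : Fin g → Mat r) from funext hsel]
    exact hBli.comp eB eB.injective
  have hdim : finrank ℂ (LinearMap.ker (delta A1)) = d := by
    rw [le_antisymm hker (hVker A1 hu), ← hBspan,
      show B = Set.range (fun i => V A1 (sel i)) from Set.Subset.antisymm
        (fun y hy => ⟨eB.symm ⟨y, hy⟩, by beta_reduce; rw [show V A1 _ = _ from hsel _]; simp⟩)
        (Set.range_subset_iff.2 fun i => by rw [show V A1 (sel i) = _ from hsel i]; exact (eB i).2),
      finrank_span_eq_card hVli, Fintype.card_fin]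
  let k := finrank ℂ (LinearMap.range (delta A1))
  let Bk := Module.finBasis ℂ (LinearMap.range (delta A1))
  choose w hw using fun i => LinearMap.mem_range.1 (Bk i).2
  have hwli : LinearIndependent ℂ fun i => delta A1 (w i) := by
    rw [show (fun i => delta A1 (w i)) = (LinearMap.range (delta A1)).subtype ∘ Bk from
      funext fun i => hw i]
    exact Bk.linearIndependent.map' (LinearMap.range (delta A1)).subtype (Submodule.ker_subtype _)
  obtain ⟨hcV, hcd⟩ := continuousAt_vel_delta A1 hu L n
  have hev : ∀ᶠ A in 𝓝 A1, LinearIndependent ℂ (fun i => V A (sel i)) ∧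
      LinearIndependent ℂ (fun i => delta A (w i)) ∧ (hbWord o z A).det ≠ 0 := by
    refine ((continuousAt_pi.2 fun i => hcV (sel i)).eventually
      (isOpen_setOfPred_linearIndependent.eventually_mem hVli)).and
      (((continuousAt_pi.2 fun i => hcd (w i)).eventually
        (isOpen_setOfPred_linearIndependent.eventually_mem hwli)).and ?_)
    exact (Continuous.matrix_det (by unfold hbWord; fun_prop)).continuousAt.eventually_ne hW0
  let e : Fin r := ⟨0, by omega⟩
  let Ap : (Fin g × Fin r × Fin r → ℂ) → Fin g → Mat r := fun x i =>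
    slNorm e (Matrix.of fun p q => x (i, p, q))
  let D : Set (Fin g × Fin r × Fin r → ℂ) :=
    {x | ∀ i, (Matrix.of fun p q => x (i, p, q)).det ≠ 0}
  have hDo : IsOpen D := by
    have : D = ⋂ i, {x | (Matrix.of fun p q => x (i, p, q)).det ≠ 0} := by ext; simp [D]
    rw [this]
    exact isOpen_iInter_of_finite fun i => IsOpen.preimage
      (f := fun x : Fin g × Fin r × Fin r → ℂ => (Matrix.of fun p q => x (i, p, q)).det)
      (by fun_prop) isOpen_ne
  have hdet : ∀ x ∈ D, ∀ i, (Ap x i).det = 1 := fun x hx i => det_slNorm _ (hx i)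
  have hA : ∀ i, RatMat (fun a : D => (a : Fin g × Fin r × Fin r → ℂ)) fun a => Ap a.1 i := fun i =>
    ratMat_slNorm _ (X := fun a : D => Matrix.of fun p q => a.1 (i, p, q))
      (fun p q => (RatFn.coord (i, p, q)).congr fun a => by simp) fun a => a.2 i
  have put : ∀ Bs : Fin g → SLC r, ∃ x ∈ D, Ap x = fun i => (Bs i).1 := by
    intro Bs
    refine ⟨fun v => (Bs v.1).1 v.2.1 v.2.2, fun i => ?_,
      funext fun i => slNorm_of_det_one _ (Bs i).2⟩
    show (Bs i).1.det ≠ 0
    rw [(Bs i).2]
    exact one_ne_zero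
  obtain ⟨x1, hx1, hx1A⟩ := put A0
  have hcAp : ContinuousOn Ap D := continuousOn_pi.2 fun i =>
    continuousOn_pi.2 fun p => continuousOn_pi.2 fun q =>
      RatFn.continuousOn (f := fun x => Ap x i p q) (hA i p q)
  have hev' := ((hcAp x1 hx1).continuousAt (hDo.mem_nhds hx1)).eventually
    (show ∀ᶠ A in 𝓝 (Ap x1), _ by rw [hx1A]; exact hev)
  obtain ⟨U, hU, hUo, hxU⟩ := mem_nhds_iff.1 hev'
  obtain ⟨σ, hσ⟩ : ∃ σ : Fin r × Fin r → Fin N × Fin N,
      LinearIndependent ℂ (fun s => (omegaW A2 C2⁻¹ (σ s).1.val (σ s).2.val).1) := by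
    obtain ⟨S, hSsub, hSspan, hSli⟩ := exists_linearIndependent ℂ
      (Set.range fun p : Fin N × Fin N => (omegaW A2 C2⁻¹ p.1.val p.2.val).1)
    have hSfin : Finite S := hSli.finite
    have : Fintype S := Fintype.ofFinite S
    choose f hf using fun s : S => hSsub s.2
    have hcard : Fintype.card (Fin r × Fin r) = Fintype.card S := by
      have h := finrank_span_eq_card hSli
      rw [Subtype.range_coe_subtype, Set.setOf_mem_eq, hSspan, hspan2, finrank_top] at h
      simpa [Module.finrank_matrix] using h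
    refine ⟨f ∘ Fintype.equivOfCardEq hcard, ?_⟩
    have h2 := hSli.comp _ (Fintype.equivOfCardEq hcard).injective
    rw [show (fun s => (omegaW A2 C2⁻¹ ((f ∘ Fintype.equivOfCardEq hcard) s).1.val
        ((f ∘ Fintype.equivOfCardEq hcard) s).2.val).1) =
        Subtype.val ∘ Fintype.equivOfCardEq hcard from funext fun s => hf _]
    exact h2
  obtain ⟨x, ⟨hxU', hxD⟩, hx⟩ := dense_ratFn_ne_zero hDo
    (fun (_ : Unit) x => (omMat σ (Ap x z0) (Ap x o0)).det)
    (fun _ => RatMat.det fun s pq => ((((hA z0).pow ((σ s).1.val + 1)).mul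
      ((ratMat_inv_of_det_one (hA o0) fun a => hdet a.1 a.2 o0).pow (σ s).2.val)).mul
        ((hA z0).pow (σ s).1.val) pq.1 pq.2).congr fun _ => by simp [omMat, omegaW])
    (fun _ => by
      obtain ⟨x, hx, hxA⟩ := put fun i => if i = z0 then A2 else C2
      refine ⟨x, hx, ?_⟩
      rw [hxA]
      simp only [if_true, if_neg hzo.symm]
      refine (linearIndependent_iff_omMat σ _ _).1 ?_
      simpa only [coe_omegaW] using hσ) hUo ⟨x1, hxU, hx1⟩
  obtain ⟨hVx, hwx, hWx⟩ := hU hxU'
  let A : Fin g → SLC r := fun i => ⟨Ap x i, hdet x hxD i⟩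
  refine ⟨o, z, A, M, N, L, n, hWx, fun m => ⟨A0, hI m⟩, ?_, ?_⟩
  · refine le_of_eq (Submodule.eq_of_le_of_finrank_le
      (hVker (Ap x) fun i => by rw [hdet x hxD i]; exact isUnit_one) ?_).symm
    have h1 : d ≤ finrank ℂ (Submodule.span ℂ (Set.range (V (Ap x)))) := by
      have h2 := finrank_span_eq_card hVx
      rw [Fintype.card_fin] at h2
      exact h2.symm.le.trans (Submodule.finrank_mono (Submodule.span_mono
        (Set.range_subset_iff.2 fun i => ⟨sel i, rfl⟩)))
    have h2 : k ≤ finrank ℂ (LinearMap.range (delta (Ap x))) := by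
      have h3 := finrank_span_eq_card hwx
      rw [Fintype.card_fin] at h3
      exact h3.symm.le.trans (Submodule.finrank_mono (Submodule.span_le.2
        (Set.range_subset_iff.2 fun i => LinearMap.mem_range_self _ _)))
    have h4 := LinearMap.finrank_range_add_finrank_ker (delta (Ap x))
    have h5 := LinearMap.finrank_range_add_finrank_ker (delta A1)
    show finrank ℂ (LinearMap.ker (delta (Ap x))) ≤
      finrank ℂ (Submodule.span ℂ (Set.range (V (Ap x))))
    omega
  · have hli := (linearIndependent_iff_omMat σ (Ap x z0) (Ap x o0)).2 (hx ())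
    rw [eq_top_iff, ← hli.span_eq_top_of_card_eq_finrank' (by simp [Module.finrank_matrix])]
    refine Submodule.span_le.2 (Set.range_subset_iff.2 fun s => ?_)
    refine Submodule.subset_span ⟨σ s, ?_⟩
    simp only [coe_omegaW]
    rfl

end Vale.Agent.P002.Punct
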