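import Vale.Agent.P002.Punct.Bricks
import Vale.Agent.P002.Surf.Density

/-!
P002, punctured surface groups: semisimple points split into blocks, and block sums of irreducible
handle tuples are limits of bricks with the same punctures.
-/

namespace Vale.Agent.P002.Punct.Dens

open Matrix Module Filter
open Vale.Agent.P002.Surf
open scoped Matrix.Norms.Operator Topology

variable {g b r m n : ℕ}

theorem pairInv_enl {y : PPt g b r} {W : Submodule ℂ (Fin r → ℂ)} :
    (∀ k, PairInv (enl y k) W) ↔ PStable y W := by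
  have h : (∀ k, PairInv (enl y k) W) ↔ ∀ k, ∀ v ∈ W, (enl y k).1 *ᵥ v ∈ W :=
    ⟨fun h k v hv => (h k v hv).1, fun h k v hv => ⟨h k v hv, h k v hv⟩⟩
  rw [h, forall_enl (Q := fun M => ∀ v ∈ W, M *ᵥ v ∈ W) y]
  exact and_congr_left' (forall_congr' fun i =>
    ⟨fun h v hv => ⟨h.1 v hv, h.2 v hv⟩, fun h => ⟨fun v hv => (h v hv).1, fun v hv => (h v hv).2⟩⟩)

theorem irred_enl {y : PPt g b r} : Irred (enl y) ↔ PIrred y :=
  forall_congr' fun _ => by rw [pairInv_enl]

theorem semisimple_enl {y : PPt g b r} : SemisimplePt (enl y) ↔ PSemisimple y := by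
  refine forall_congr' fun W => ?_
  rw [pairInv_enl]
  refine imp_congr_right fun _ => exists_congr fun W' => ?_
  rw [pairInv_enl]

theorem pbrick_of_pirred (hr : 0 < r) {y : PPt g b r} (h : PIrred y) : PBrick y :=
  brick_enl.1 fun _ hZ => scalar_of_irred hr (irred_enl.2 h) hZ

theorem pbrick_of_brick {y : PPt g b r} (h : Brick y.1) : PBrick y := fun Z h1 _ => h Z h1

theorem pirred_of_irred {y : PPt g b r} (h : Irred y.1) : PIrred y := fun W hW => h W hW.1

theorem isRep_enl {y : PPt g b r} (hg : IsGL y.1) (hc : ∀ j, IsUnit (y.2 j).det) :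
    IsRep (enl y) := by
  have hd : ∀ k, IsUnit (enl y k).1.det :=
    (forall_enl (Q := fun M => IsUnit M.det) y).2 ⟨hg, hc⟩
  refine ⟨fun k => ⟨hd k, hd k⟩, ?_⟩
  have : ∀ k, comm (enl y k) = 1 := fun k => by
    simp only [Surf.comm, enl_snd, mul_assoc, mul_inv_self' (hd k), mul_one]
  simp [relProd, this]

/-- The tuple read off an enlarged one. -/
def unenl (x : Pt (g + g + b) r) : PPt g b r :=
  (fun i => ((x (Fin.castAdd b (Fin.castAdd g i))).1, (x (Fin.castAdd b (Fin.natAdd g i))).1),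
    fun j => (x (Fin.natAdd (g + g) j)).1)

theorem unenl_enl (y : PPt g b r) : unenl (enl y) = y := by
  obtain ⟨x, c⟩ := y
  simp only [unenl, enl, Fin.append_left, Fin.append_right]

theorem enl_unenl {x : Pt (g + g + b) r} (h : ∀ k, (x k).2 = (x k).1) : enl (unenl x) = x := by
  have h1 : ∀ k, (enl (unenl x) k).1 = (x k).1 := by
    intro k
    induction k using Fin.addCases with
    | left k =>
      induction k using Fin.addCases with
      | left i => simp only [enl, unenl, Fin.append_left, Fin.append_right]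
      | right i => simp only [enl, unenl, Fin.append_left, Fin.append_right]
    | right j => simp only [enl, unenl, Fin.append_left, Fin.append_right]
  exact funext fun k => Prod.ext (h1 k) ((h1 k).trans (h k).symm)

theorem blk_inj {e : Fin m ⊕ Fin n ≃ Fin r} {A A' : Mat m} {B B' : Mat n}
    (h : blk e A 0 B = blk e A' 0 B') : A = A' ∧ B = B' := by
  rw [blk, blk, EmbeddingLike.apply_eq_iff_eq, fromBlocks_inj] at h
  exact ⟨h.1, h.2.2.2⟩

/-- The tail of a block sum. -/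
noncomputable def cjTail (S : Mat r) (e : Fin m ⊕ Fin n ≃ Fin r) (c₁ : Fin b → Mat m)
    (c₂ : Fin b → Mat n) : Fin b → Mat r :=
  fun j => S * blk e (c₁ j) 0 (c₂ j) * S⁻¹

/-- A block sum, conjugated. -/
noncomputable def psum (S : Mat r) (e : Fin m ⊕ Fin n ≃ Fin r) (y₁ : PPt g b m)
    (y₂ : PPt g b n) : PPt g b r :=
  (cj S (tri e y₁.1 y₂.1 0), cjTail S e y₁.2 y₂.2)

theorem unenl_cj_tri (S : Mat r) (e : Fin m ⊕ Fin n ≃ Fin r) (x₁ : Pt (g + g + b) m)
    (x₂ : Pt (g + g + b) n) :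
    unenl (cj S (tri e x₁ x₂ 0)) = psum S e (unenl x₁) (unenl x₂) := by
  refine Prod.ext ?_ ?_ <;> funext i <;> simp [unenl, psum, cjTail, cj, tri]

theorem cancel_conj {S : Mat r} (hS : IsUnit S.det) {A B : Mat r}
    (h : S * A * S⁻¹ = S * B * S⁻¹) : A = B := by
  have := congrArg (fun M => S⁻¹ * M * S) h
  simpa [mul_assoc, inv_mul_self' hS, ← mul_assoc S⁻¹ S] using this

theorem relProd_cj_tri {S : Mat r} (hS : IsUnit S.det) (e : Fin m ⊕ Fin n ≃ Fin r)
    {x₁ : Pt g m} {x₂ : Pt g n} (h₁ : IsGL x₁) (h₂ : IsGL x₂) :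
    relProd (cj S (tri e x₁ x₂ 0)) = S * blk e (relProd x₁) 0 (relProd x₂) * S⁻¹ := by
  rw [relProd_cj hS (isGL_tri h₁ h₂ 0), relProd_eq_pre (tri e x₁ x₂ 0), pre_tri_zero h₁ h₂,
    ← relProd_eq_pre, ← relProd_eq_pre]

theorem tProd_cjTail {S : Mat r} (hS : IsUnit S.det) (e : Fin m ⊕ Fin n ≃ Fin r)
    (c₁ : Fin b → Mat m) (c₂ : Fin b → Mat n) :
    tProd (cjTail S e c₁ c₂) = S * blk e (tProd c₁) 0 (tProd c₂) * S⁻¹ := by
  simp only [tProd_eq_cpre]
  have : ∀ k, cpre (cjTail S e c₁ c₂) k = S * blk e (cpre c₁ k) 0 (cpre c₂ k) * S⁻¹ := by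
    intro k
    induction k with
    | zero => simp [cpre, blk_one, mul_inv_self' hS]
    | succ k ih =>
      have hc : cx (cjTail S e c₁ c₂) k = S * blk e (cx c₁ k) 0 (cx c₂ k) * S⁻¹ := by
        unfold cx
        split
        · rfl
        · simp [blk_one, mul_inv_self' hS]
      rw [cpre, cpre, cpre, ih, hc, conj_mul hS, blk_mul]
  exact this b

/-- A reducible semisimple point is conjugate to a block sum. -/
theorem exists_psplit {y : PPt g b r} (hy : IsPRep y) (hs : PSemisimple y) (hi : ¬ PIrred y) :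
    ∃ (m n : ℕ) (e : Fin m ⊕ Fin n ≃ Fin r) (S : Mat r) (y₁ : PPt g b m) (y₂ : PPt g b n),
      0 < m ∧ 0 < n ∧ IsUnit S.det ∧ IsPRep y₁ ∧ IsPRep y₂ ∧ PSemisimple y₁ ∧ PSemisimple y₂ ∧
        y = psum S e y₁ y₂ := by
  obtain ⟨m, n, e, S, x₁, x₂, hm, hn, hS, hx₁, hx₂, hs₁, hs₂, hx⟩ :=
    exists_split (isRep_enl hy.1 hy.2.1) (semisimple_enl.2 hs) (mt irred_enl.1 hi)
  have heq : ∀ k, (x₁ k).2 = (x₁ k).1 ∧ (x₂ k).2 = (x₂ k).1 := fun k => by
    have h := congrFun hx k
    have h1 := congrArg Prod.fst h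
    have h2 := congrArg Prod.snd h
    simp only [cj, tri, Pi.zero_apply, Prod.fst_zero, Prod.snd_zero, enl_snd] at h1 h2
    exact blk_inj (cancel_conj hS (h2.symm.trans h1))
  have hy' : y = psum S e (unenl x₁) (unenl x₂) := by
    rw [← unenl_cj_tri, ← hx, unenl_enl]
  have hg₁ : IsGL (unenl x₁).1 := fun i => ⟨(hx₁.1 _).1, (hx₁.1 _).1⟩
  have hg₂ : IsGL (unenl x₂).1 := fun i => ⟨(hx₂.1 _).1, (hx₂.1 _).1⟩
  have hrel := hy.2.2
  rw [hy', psum, relProd_cj_tri hS e hg₁ hg₂, tProd_cjTail hS, conj_mul hS, blk_mul] at hrel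
  have hb : blk e (relProd (unenl x₁).1 * tProd (unenl x₁).2) 0
      (relProd (unenl x₂).1 * tProd (unenl x₂).2) = blk e 1 0 1 := by
    rw [blk_one]
    exact cancel_conj hS (hrel.trans (by rw [mul_one, mul_inv_self' hS]))
  obtain ⟨r1, r2⟩ := blk_inj hb
  refine ⟨m, n, e, S, unenl x₁, unenl x₂, hm, hn, hS, ⟨hg₁, fun j => (hx₁.1 _).1, r1⟩,
    ⟨hg₂, fun j => (hx₂.1 _).1, r2⟩, semisimple_enl.1 ?_, semisimple_enl.1 ?_, hy'⟩
  · rwa [enl_unenl fun k => (heq k).1]
  · rwa [enl_unenl fun k => (heq k).2]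

theorem relProd_scalePt {x : Pt g r} (hx : IsGL x) {s t : Fin g → ℂ} (hs : ∀ i, s i ≠ 0)
    (ht : ∀ i, t i ≠ 0) : relProd (scalePt s t x) = relProd x :=
  congrArg List.prod (congrArg List.ofFn
    (funext fun i => dens_comm_smul (hs i) (ht i) (hx i).1 (hx i).2))

theorem isGL_scalePt {x : Pt g r} (hx : IsGL x) {s t : Fin g → ℂ} (hs : ∀ i, s i ≠ 0)
    (ht : ∀ i, t i ≠ 0) : IsGL (scalePt s t x) := fun i => by
  simp only [scalePt, det_smul]
  exact ⟨(IsUnit.pow _ (isUnit_iff_ne_zero.2 (hs i))).mul (hx i).1,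
    (IsUnit.pow _ (isUnit_iff_ne_zero.2 (ht i))).mul (hx i).2⟩

/-- An unobstructed extension keeps the product of commutators. -/
theorem relProd_tri_of_obst {e : Fin m ⊕ Fin n ≃ Fin r} {x₁ : Pt g m} {x₂ : Pt g n}
    (h₁ : IsGL x₁) (h₂ : IsGL x₂)
    {E : Fin g → Matrix (Fin m) (Fin n) ℂ × Matrix (Fin m) (Fin n) ℂ}
    (hE : obst e x₁ x₂ E = 0) : relProd (tri e x₁ x₂ E) = relProd (tri e x₁ x₂ 0) := by
  set u := tri e x₁ x₂ 0 with hu
  set M := relProd (tri e x₁ x₂ E) with hM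
  have hu0 : relProd u = blk e (relProd x₁) 0 (relProd x₂) := by
    rw [hu, relProd_eq_pre, pre_tri_zero h₁ h₂, ← relProd_eq_pre, ← relProd_eq_pre]
  have key : ∀ t : ℂ, t ≠ 0 → ∀ k l,
      relProd (u + t • offLin e E) k l = sclVec e t k * M k l * (sclVec e t l)⁻¹ := by
    intro t ht k l
    rw [← tri_smul, ← cj_scl_tri e ht, relProd_cj (isUnit_det_scl e ht) (isGL_tri h₁ h₂ E),
      scl_conj_apply e ht]
  have hd : ∀ k l, HasDerivAt (fun t : ℂ => relProd (u + t • offLin e E) k l)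
      ((dRel u (offLin e E) * relProd u) k l) 0 := fun k l => by
    have h := hasDerivAt_pre_line (v := offLin e E) (isGL_tri (e := e) h₁ h₂ 0) g
    rw [← Fin.sum_univ_eq_sum_range (fun j => if hj : j < g then
      relTerm u ⟨j, hj⟩ (offLin e E ⟨j, hj⟩) else 0)] at h
    simp only [Fin.is_lt, dif_pos, Fin.eta, ← dRel_apply, ← relProd_eq_pre] at h
    exact hasDerivAt_pi.1 (hasDerivAt_pi.1 h k) l
  have h0 : ∀ k l, relProd (u + (0 : ℂ) • offLin e E) k l = relProd u k l := by simp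
  -- the limit of the diagonal blocks
  have hconst : ∀ k l, sclVec e 2 k = sclVec e 2 l → M k l = relProd u k l := by
    intro k l hkl
    have hlim := ((hd k l).continuousAt.continuousWithinAt (s := {0}ᶜ)).tendsto
    rw [h0] at hlim
    refine tendsto_nhds_unique (tendsto_const_nhds.congr' ?_) hlim
    filter_upwards [self_mem_nhdsWithin] with t (ht : t ≠ 0)
    rw [key t ht]
    rcases hk : e.symm k with k' | k' <;> rcases hl : e.symm l with l' | l' <;>
      simp [sclVec, hk, hl] at hkl ⊢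
    all_goals field_simp
  have hlow : ∀ i j, M (e (.inr i)) (e (.inl j)) = 0 := by
    intro i j
    have hlim : Tendsto (fun t : ℂ => t * relProd (u + t • offLin e E) (e (.inr i)) (e (.inl j)))
        (𝓝[{0}ᶜ] 0) (𝓝 0) := by
      have := ((continuousAt_id.mul (hd (e (.inr i)) (e (.inl j))).continuousAt).continuousWithinAt
        (s := ({0}ᶜ : Set ℂ))).tendsto
      simpa [Pi.mul_def] using this
    refine tendsto_nhds_unique (tendsto_const_nhds.congr' ?_) hlim
    filter_upwards [self_mem_nhdsWithin] with t (ht : t ≠ 0)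
    rw [key t ht]
    simp [sclVec]
    field_simp
  have hup : ∀ i j, M (e (.inl i)) (e (.inr j)) = 0 := by
    intro i j
    have h : (dRel u (offLin e E) * relProd u) (e (.inl i)) (e (.inr j)) = 0 := by
      rw [mul_apply, ← e.sum_comp, Fintype.sum_sum_type]
      have hz : ∀ k, dRel u (offLin e E) (e (.inl i)) (e (.inr k)) = 0 := fun k =>
        congrFun (congrFun hE i) k
      simp [hu0, blk, hz]
    have hlin : HasDerivAt (fun t : ℂ => t * M (e (.inl i)) (e (.inr j)))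
        (M (e (.inl i)) (e (.inr j))) 0 := by
      simpa using (hasDerivAt_id (0 : ℂ)).mul_const (M (e (.inl i)) (e (.inr j)))
    have heq : (fun t : ℂ => relProd (u + t • offLin e E) (e (.inl i)) (e (.inr j)))
        = fun t : ℂ => t * M (e (.inl i)) (e (.inr j)) := by
      funext t
      rcases eq_or_ne t 0 with rfl | ht
      · rw [h0, zero_mul, hu0]
        simp [blk]
      · rw [key t ht]
        simp [sclVec]
    have := hd (e (.inl i)) (e (.inr j))
    rw [heq, h] at this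
    exact hlin.unique this
  ext k l
  obtain ⟨k', rfl⟩ := e.surjective k
  obtain ⟨l', rfl⟩ := e.surjective l
  rcases k' with k' | k' <;> rcases l' with l' | l'
  · exact hconst _ _ (by simp [sclVec])
  · rw [hup, hu0]; simp [blk]
  · rw [hlow, hu0]; simp [blk]
  · exact hconst _ _ (by simp [sclVec])

/-- A block sum with irreducible handle tuples of different determinants is a limit of bricks with
the same punctures. -/
theorem mem_closure_pbrick_split (hg : 2 ≤ g) {e : Fin m ⊕ Fin n ≃ Fin r} (hm : 0 < m)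
    (hn : 0 < n) {x₁ : Pt g m} {x₂ : Pt g n} (h₁ : IsGL x₁) (h₂ : IsGL x₂) (hi₁ : Irred x₁)
    (hi₂ : Irred x₂) (i0 : Fin g) (hdet : (x₁ i0).1.det ≠ (x₂ i0).1.det) {S : Mat r}
    (hS : IsUnit S.det) {J X : Fin b → Mat r} (hz : IsLift J (cj S (tri e x₁ x₂ 0), X)) :
    ((cj S (tri e x₁ x₂ 0), X) : PPt g b r) ∈
      closure {w | IsLift J w ∧ PBrick (lower J w)} := by
  obtain ⟨E, hE, hE'⟩ := exists_extension hg hm hn e x₁ x₂
  have hc : Continuous fun t : ℂ => ((cj S (tri e x₁ x₂ (t • E)), X) : PPt g b r) := by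
    simp only [tri_smul]
    unfold cj
    fun_prop
  have hlim : Tendsto (fun t : ℂ => ((cj S (tri e x₁ x₂ (t • E)), X) : PPt g b r)) (𝓝[{0}ᶜ] 0)
      (𝓝 (cj S (tri e x₁ x₂ 0), X)) := by
    have := (hc.continuousWithinAt (s := ({0}ᶜ : Set ℂ)) (x := 0)).tendsto
    simpa using this
  refine mem_closure_of_tendsto hlim ?_
  filter_upwards [self_mem_nhdsWithin] with t (ht : t ≠ 0)
  refine ⟨⟨isGL_cj hS (isGL_tri h₁ h₂ _), hz.2.1, ?_⟩, pbrick_of_brick (brick_cj hS
    (brick_tri hm hn hi₁ hi₂ i0 hdet fun hmem => hE' ?_))⟩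
  · show relProd (cj S (tri e x₁ x₂ (t • E))) * tProd (tconj J X) = 1
    rw [relProd_cj hS (isGL_tri h₁ h₂ _),
      relProd_tri_of_obst h₁ h₂ (by rw [map_smul, hE, smul_zero]),
      ← relProd_cj hS (isGL_tri h₁ h₂ _)]
    exact hz.2.2
  have := Submodule.smul_mem _ t⁻¹ hmem
  rwa [smul_smul, inv_mul_cancel₀ ht, one_smul] at this

end Vale.Agent.P002.Punct.Dens
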