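import Vale.Agent.P002.Punct.Seed

/-!
P002, punctured surface groups: the composite of finitely many moved flows starting from the
seeds, with the conjugating matrices of the punctures, as a rational map with forced values.
-/

namespace Vale.Agent.P002.Punct

open Matrix Topology Filter
open Vale.Agent.P002.Surf

variable {g b r M : ℕ}

/-- A tuple together with matrices conjugating the fixed matrices into its punctures. -/
abbrev LSt (g b r : ℕ) := St g b (SLC r) × (Fin b → SLC r)

/-- The lifted tuple of matrices. -/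
def toLift (s : LSt g b r) : PPt g b r := (toPt s.1.1, fun j => (s.2 j).1)

/-- One moved flow on lifted tuples. -/
def lflow (t : TMove g b) (s : LSt g b r) (h : SLC r) : LSt g b r :=
  (tflow t s.1 h, fun j => tpush t h j * s.2 j)

/-- The punctures are conjugates of the fixed ones by the given matrices. -/
def Linked (J : Fin b → SLC r) (s : LSt g b r) : Prop :=
  sval s.1 = 1 ∧ ∀ j, s.1.2 j = s.2 j * J j * (s.2 j)⁻¹

theorem linked_lflow {J : Fin b → SLC r} (t : TMove g b) {s : LSt g b r} (hs : Linked J s)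
    {h : SLC r} (hh : Commute h (tcurve t s.1)) : Linked J (lflow t s h) := by
  refine ⟨(sval_tflow t s.1 h hh).trans hs.1, fun j => ?_⟩
  simp only [lflow, tflow_tail, hs.2 j, _root_.mul_inv_rev, mul_assoc]

theorem lower_toLift {J : Fin b → SLC r} {s : LSt g b r} (hs : Linked J s) :
    lower (fun j => (J j).1) (toLift s) = toP s.1 := by
  refine Prod.ext rfl (funext fun j => ?_)
  show (s.2 j).1 * (J j).1 * (s.2 j).1⁻¹ = (s.1.2 j).1
  rw [hs.2 j, Matrix.SpecialLinearGroup.coe_mul, Matrix.SpecialLinearGroup.coe_mul, coe_inv_sl]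

theorem isSLLift_toLift {J : Fin b → SLC r} {s : LSt g b r} (hs : Linked J s) :
    IsSLLift (fun j => (J j).1) (toLift s) := by
  refine ⟨isSL_toPt _, fun j => (s.2 j).2, ?_⟩
  have h := isPSLRep_toP.2 hs.1
  rw [← lower_toLift hs] at h
  exact h.2.2

section Stage

variable (e : Fin r) (A0 : Fin g → SLC r) (a c : SLC r) (J : Fin b → SLC r)
  (L : Fin M → TMove (g + 1) b) (o z : Fin g)

/-- The perturbed seed. -/
noncomputable def seedL (p : Pix g r M → ℂ) : LSt (g + 1) b r :=
  (seedPt (baseA e A0 p) a c J, 1)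

/-- The composite of the first `m` moved flows. -/
noncomputable def pstage (p : Pix g r M → ℂ) : ℕ → LSt (g + 1) b r
  | 0 => seedL e A0 a c J p
  | m + 1 => if h : m < M then
      lflow (L ⟨m, h⟩) (pstage p m) (hFn (tcurve (L ⟨m, h⟩) (pstage p m).1) (qPart p ⟨m, h⟩))
    else pstage p m

/-- The domain of the first `m` moved flows. -/
def PDom : ℕ → Set (Pix g r M → ℂ)
  | 0 => {p | (∀ i, (xMat p i).det ≠ 0) ∧ (hbWord o z fun i => (baseA e A0 p i).1).det ≠ 0}
  | m + 1 => {p | p ∈ PDom m ∧ ∀ h : m < M,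
      (qMat (tcurve (L ⟨m, h⟩) (pstage e A0 a c J L p m).1).1 (qPart p ⟨m, h⟩)).det ≠ 0}

theorem tflow_tail_one {G : Type*} [Group G] (t : TMove (g + 1) b) (k : Fin b) :
    tpush t (1 : G) k = 1 := by
  obtain ⟨w, m⟩ := t
  cases m with
  | closed _ => rfl
  | push i j => simp [tpush, pconj]

theorem lflow_one (t : TMove (g + 1) b) (s : LSt (g + 1) b r) : lflow t s 1 = s :=
  Prod.ext (tflow_one t s.1) (funext fun j => by simp [lflow, tflow_tail_one])

theorem pstage_of_zero {p : Pix g r M → ℂ} : ∀ m,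
    (∀ k : Fin M, k.val < m → qPart p k = 0) → pstage e A0 a c J L p m = seedL e A0 a c J p
  | 0, _ => rfl
  | m + 1, h => by
    have ih := pstage_of_zero m fun k hk => h k (Nat.lt_succ_of_lt hk)
    simp only [pstage]
    split
    · rename_i hm
      rw [h ⟨m, hm⟩ (Nat.lt_succ_self m), hFn_zero, lflow_one, ih]
    · exact ih

theorem pstage_single {p : Pix g r M → ℂ} (m : Fin M)
    (h : ∀ k, k ≠ m → qPart p k = 0) : ∀ j, m.val < j → pstage e A0 a c J L p j =
      lflow (L m) (seedL e A0 a c J p)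
        (hFn (tcurve (L m) (seedL e A0 a c J p).1) (qPart p m))
  | 0, hj => absurd hj (Nat.not_lt_zero _)
  | j + 1, hj => by
    rcases eq_or_lt_of_le (Nat.lt_succ_iff.1 hj) with he | hlt
    · simp only [pstage]
      rw [dif_pos (he ▸ m.2)]
      have hmj : (⟨j, he ▸ m.2⟩ : Fin M) = m := Fin.ext he.symm
      rw [hmj, pstage_of_zero e A0 a c J L j fun k hk => h k (by
        intro hkm; rw [hkm, he] at hk; exact lt_irrefl _ hk)]
    · simp only [pstage]
      split
      · rename_i hjM
        rw [pstage_single m h j hlt, h ⟨j, hjM⟩ (by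
          intro hjm; rw [← hjm] at hlt; exact lt_irrefl _ hlt), hFn_zero, lflow_one]
      · exact pstage_single m h j hlt

theorem linked_pstage (hrel : gcomm (a, c) * tpre J b = 1) (p : Pix g r M → ℂ) :
    ∀ m, Linked J (pstage e A0 a c J L p m)
  | 0 => ⟨sval_seed _ hrel, fun j => by simp [pstage, seedL, seedPt]⟩
  | m + 1 => by
    simp only [pstage]
    split
    · exact linked_lflow _ (linked_pstage hrel p m) (commute_hFn _ _)
    · exact linked_pstage hrel p m

theorem zero_mem_pdom (hW : (hbWord o z fun i => (A0 i).1).det ≠ 0) :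
    ∀ m, (0 : Pix g r M → ℂ) ∈ PDom e A0 a c J L o z m
  | 0 => by
    refine ⟨fun i => ?_, ?_⟩
    · rw [show xMat (0 : Pix g r M → ℂ) i = 1 by simp [xMat, ← Matrix.ext_iff], det_one]
      exact one_ne_zero
    · simpa [baseA_zero] using hW
  | m + 1 => ⟨zero_mem_pdom hW m, fun h => by
      rw [show qPart (0 : Pix g r M → ℂ) ⟨m, h⟩ = 0 from rfl,
        show qMat (tcurve (L ⟨m, h⟩) (pstage e A0 a c J L 0 m).1).1 (0 : Fin r → ℂ) = 1 by
          simp [qMat], det_one]
      exact one_ne_zero⟩

/-- Parameters moving only the seed and lying in the first domain lie in all domains. -/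
theorem mem_pdom_of_zero {p : Pix g r M → ℂ} (hp : p ∈ PDom e A0 a c J L o z 0)
    (hq : ∀ k, qPart p k = 0) : ∀ m, p ∈ PDom e A0 a c J L o z m
  | 0 => hp
  | m + 1 => ⟨mem_pdom_of_zero hp hq m, fun h => by
      rw [hq, show qMat (tcurve (L ⟨m, h⟩) (pstage e A0 a c J L p m).1).1 (0 : Fin r → ℂ) = 1 by
          simp [qMat], det_one]
      exact one_ne_zero⟩

/-- Rationality of lifted tuples. -/
def RatL {α ι : Type*} (ev : α → ι → ℂ) (s : α → LSt g b r) : Prop :=
  RatSt ev (fun x => (s x).1) ∧ ∀ j, RatSL ev fun x => (s x).2 j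

theorem ratL_lflow {α ι : Type*} {ev : α → ι → ℂ} (t : TMove g b) {s : α → LSt g b r}
    (hs : RatL ev s) {f : α → SLC r} (hf : RatSL ev f) :
    RatL ev fun x => lflow t (s x) (f x) := by
  refine ⟨ratSt_tflow t hs.1 hf, fun j => ?_⟩
  obtain ⟨w, m⟩ := t
  cases m with
  | closed _ => exact (RatSL.const 1).mul (hs.2 j)
  | push i k =>
    by_cases h : j ≤ k
    · simp only [lflow, tpush, pconj, if_pos h]
      exact hf.inv.mul (hs.2 j)
    · simp only [lflow, tpush, pconj, if_neg h]
      exact (RatSL.const 1).mul (hs.2 j)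

theorem ratL_restrict {ι : Type*} {D D' : Set (ι → ℂ)} (hs : D' ⊆ D)
    {s : (ι → ℂ) → LSt g b r} (h : RatL (fun x : D => (x : ι → ℂ)) fun x => s x) :
    RatL (fun x : D' => (x : ι → ℂ)) fun x => s x :=
  ⟨⟨fun k => ⟨fun p q => RatFn.restrict hs (f := fun x => ((s x).1.1 k).1.1 p q)
        ((h.1.1 k).1 p q),
      fun p q => RatFn.restrict hs (f := fun x => ((s x).1.1 k).2.1 p q) ((h.1.1 k).2 p q)⟩,
    fun j p q => RatFn.restrict hs (f := fun x => ((s x).1.2 j).1 p q) (h.1.2 j p q)⟩,
    fun j p q => RatFn.restrict hs (f := fun x => ((s x).2 j).1 p q) (h.2 j p q)⟩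

theorem continuousOn_toP {ι : Type*} {D : Set (ι → ℂ)} {s : (ι → ℂ) → LSt g b r}
    (h : RatL (fun x : D => (x : ι → ℂ)) fun x => s x) :
    ContinuousOn (fun x => toP (s x).1) D := by
  refine ContinuousOn.prodMk (continuousOn_pi.2 fun i => ContinuousOn.prodMk ?_ ?_)
    (continuousOn_pi.2 fun j => ?_)
  · exact continuousOn_pi.2 fun p => continuousOn_pi.2 fun q =>
      RatFn.continuousOn (f := fun x => ((s x).1.1 i).1.1 p q) ((h.1.1 i).1 p q)
  · exact continuousOn_pi.2 fun p => continuousOn_pi.2 fun q =>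
      RatFn.continuousOn (f := fun x => ((s x).1.1 i).2.1 p q) ((h.1.1 i).2 p q)
  · exact continuousOn_pi.2 fun p => continuousOn_pi.2 fun q =>
      RatFn.continuousOn (f := fun x => ((s x).1.2 j).1 p q) (h.1.2 j p q)

/-- What holds on the domain of the first `m` moved flows. -/
structure PStageOK (O : Subring ℂ) (m : ℕ) : Prop where
  isOpen : IsOpen (PDom e A0 a c J L o z m)
  rat : RatL (fun x : PDom e A0 a c J L o z m => (x : Pix g r M → ℂ))
    fun x => pstage e A0 a c J L x.1 m
  forced : ∀ p ∈ PDom e A0 a c J L o z m,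
    PForced O (fun j => (J j).1) (toP (pstage e A0 a c J L p m).1)

variable {O : Subring ℂ}

theorem pstageOK_zero (ha : a ∈ intSL O r) (hc : c ∈ intSL O r) (hJ : ∀ j, J j ∈ intSL O r)
    (hrel : gcomm (a, c) * tpre J b = 1) : PStageOK e A0 a c J L o z O 0 := by
  have hopen1 : IsOpen {p : Pix g r M → ℂ | ∀ i, (xMat p i).det ≠ 0} := by
    have : {p : Pix g r M → ℂ | ∀ i, (xMat p i).det ≠ 0} = ⋂ i, {p | (xMat p i).det ≠ 0} := by
      ext; simp
    rw [this]
    exact isOpen_iInter_of_finite fun i => IsOpen.preimage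
      (f := fun p : Pix g r M → ℂ => (xMat p i).det) (by unfold xMat; fun_prop) isOpen_ne
  have hA1 : ∀ i, RatSL (fun x : {p : Pix g r M → ℂ | ∀ i, (xMat p i).det ≠ 0} =>
      (x : Pix g r M → ℂ)) fun x => baseA e A0 x.1 i := by
    intro i
    have hx : RatMat (fun x : {p : Pix g r M → ℂ | ∀ i, (xMat p i).det ≠ 0} =>
        (x : Pix g r M → ℂ)) fun x => slNorm e (xMat x.1 i) :=
      ratMat_slNorm e (fun k l => ((RatFn.const ((1 : Mat r) k l)).add
        (RatFn.coord (Sum.inl (i, k, l)))).congr fun x => by simp [xMat]) fun x => x.2 i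
    refine (RatMat.mul (RatMat.const (A0 i).1) hx).congr fun x => ?_
    show _ = (baseA e A0 x.1 i).1
    rw [baseA, dif_pos (x.2 i)]
    rfl
  have hsub : PDom e A0 a c J L o z 0 ⊆ {p : Pix g r M → ℂ | ∀ i, (xMat p i).det ≠ 0} :=
    fun p hp => hp.1
  refine ⟨(RatFn.continuousOn (f := fun p : Pix g r M → ℂ =>
      (hbWord o z fun i => (baseA e A0 p i).1).det)
        (ratFn_hbWord hA1 o z)).isOpen_inter_preimage hopen1 isOpen_ne,
    ⟨⟨fun k => ?_, fun j => RatSL.const _⟩, fun j => RatSL.const _⟩, fun p hp => ?_⟩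
  · refine Fin.lastCases ?_ (fun i => ?_) k
    · exact ⟨fun p q => (RatFn.const (a.1 p q)).congr fun _ => by simp [pstage, seedL, seedPt],
        fun p q => (RatFn.const (c.1 p q)).congr fun _ => by simp [pstage, seedL, seedPt]⟩
    · exact ⟨fun p q => (RatFn.restrict hsub (f := fun x => (baseA e A0 x i).1 p q)
          (hA1 i p q)).congr fun _ => by simp [pstage, seedL, seedPt],
        fun p q => (RatFn.const ((1 : SLC r).1 p q)).congr fun _ => by
          simp [pstage, seedL, seedPt]⟩
  · exact pforced_seed ha hc hJ hrel _ hp.2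

theorem pstageOK (ha : a ∈ intSL O r) (hc : c ∈ intSL O r) (hJ : ∀ j, J j ∈ intSL O r)
    (hrel : gcomm (a, c) * tpre J b = 1) (hW : (hbWord o z fun i => (A0 i).1).det ≠ 0)
    (hL : ∀ m, ∃ A : Fin g → SLC r, Indep (tcurve (L m) (seedPt A a c J)).1) :
    ∀ m, PStageOK e A0 a c J L o z O m
  | 0 => pstageOK_zero e A0 a c J L o z ha hc hJ hrel
  | m + 1 => by
    have ih := pstageOK ha hc hJ hrel hW hL m
    by_cases hm : m < M
    swap
    · have h1 : PDom e A0 a c J L o z (m + 1) = PDom e A0 a c J L o z m :=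
        Set.ext fun p => ⟨fun hp => hp.1, fun hp => ⟨hp, fun h => absurd h hm⟩⟩
      have h2 : ∀ p, pstage e A0 a c J L p (m + 1) = pstage e A0 a c J L p m := fun p => by
        simp [pstage, hm]
      refine ⟨by rw [h1]; exact ih.isOpen, ?_, fun p hp => ?_⟩
      · simp only [h2]
        exact ratL_restrict (s := fun x => pstage e A0 a c J L x m) (fun p hp => hp.1) ih.rat
      · rw [h2]; exact ih.forced p hp.1
    set t := L ⟨m, hm⟩ with ht
    let crv : (Pix g r M → ℂ) → SLC r := fun p => tcurve t (pstage e A0 a c J L p m).1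
    have hcurve : RatSL (fun x : PDom e A0 a c J L o z m => (x : Pix g r M → ℂ))
        fun x => crv x.1 := ratSL_tcurve t ih.rat.1
    have hq : RatMat (fun x : PDom e A0 a c J L o z m => (x : Pix g r M → ℂ))
        fun x => qMat (crv x.1).1 (qPart x.1 ⟨m, hm⟩) :=
      (RatMat.const 1).add (RatMat.sum _ fun k _ =>
        RatMat.smul (RatFn.coord (Sum.inr ((⟨m, hm⟩ : Fin M), k))) (RatMat.pow hcurve k.val))
    have hdom : PDom e A0 a c J L o z (m + 1) = PDom e A0 a c J L o z m ∩
        (fun p => (qMat (crv p).1 (qPart p ⟨m, hm⟩)).det) ⁻¹' {w : ℂ | w ≠ 0} :=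
      Set.ext fun p => ⟨fun hp => ⟨hp.1, hp.2 hm⟩, fun hp => ⟨hp.1, fun _ => hp.2⟩⟩
    have hopen : IsOpen (PDom e A0 a c J L o z (m + 1)) := by
      rw [hdom]
      exact (RatFn.continuousOn (f := fun p => (qMat (crv p).1 (qPart p ⟨m, hm⟩)).det)
        (RatMat.det hq)).isOpen_inter_preimage ih.isOpen isOpen_ne
    have hst : ∀ p, pstage e A0 a c J L p (m + 1) =
        lflow t (pstage e A0 a c J L p m) (hFn (crv p) (qPart p ⟨m, hm⟩)) := fun p => by
      simp [pstage, hm, ht, crv]
    have hsub : PDom e A0 a c J L o z (m + 1) ⊆ PDom e A0 a c J L o z m := fun p hp => hp.1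
    have hrat : RatL (fun x : PDom e A0 a c J L o z (m + 1) => (x : Pix g r M → ℂ))
        fun x => pstage e A0 a c J L x.1 (m + 1) := by
      simp only [hst]
      refine ratL_lflow t (ratL_restrict (s := fun x => pstage e A0 a c J L x m) hsub ih.rat) ?_
      have hq' : RatMat (fun x : PDom e A0 a c J L o z (m + 1) => (x : Pix g r M → ℂ))
          fun x => qMat (crv x.1).1 (qPart x.1 ⟨m, hm⟩) := fun k l =>
        RatFn.restrict hsub (f := fun p => qMat (crv p).1 (qPart p ⟨m, hm⟩) k l) (hq k l)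
      refine (RatMat.smul ((RatMat.det hq').inv fun x => x.2.2 hm)
        (RatMat.pow hq' r)).congr fun x => ?_
      exact (hFn_coe (x.2.2 hm)).symm
    refine ⟨hopen, hrat, fun p hp => ?_⟩
    by_contra hF
    have hbad : IsOpen (PDom e A0 a c J L o z (m + 1) ∩
        (fun p => toP (pstage e A0 a c J L p (m + 1)).1) ⁻¹'
          {x | ¬ PForced O (fun j => (J j).1) x}) :=
      (continuousOn_toP hrat).isOpen_inter_preimage hopen (isClosed_pforced O _).isOpen_compl
    -- the relation polynomials are nonzero somewhere in the domain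
    have hne : ∀ q : RelExp r, ∃ p ∈ PDom e A0 a c J L o z m, relPoly q.1 (crv p).1 ≠ 0 := by
      intro q
      obtain ⟨A, hA⟩ := hL ⟨m, hm⟩
      -- parameters moving only the seed
      let ext : (Fin g × Fin r × Fin r → ℂ) → Pix g r M → ℂ := fun x =>
        Sum.elim x fun _ => 0
      have hqz : ∀ x k, qPart (ext x) k = 0 := fun x k => funext fun _ => rfl
      let D1 : Set (Fin g × Fin r × Fin r → ℂ) := {x | ∀ i, (xMat (ext x) i).det ≠ 0}
      have hcx : ∀ i, Continuous fun x => xMat (ext x) i := fun i => by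
        simp only [xMat, ext, Sum.elim_inl]; fun_prop
      have hD1 : IsOpen D1 := by
        have : D1 = ⋂ i, {x | (xMat (ext x) i).det ≠ 0} := by ext; simp [D1]
        rw [this]
        exact isOpen_iInter_of_finite fun i => IsOpen.preimage
          (f := fun x => (xMat (ext x) i).det) (Continuous.matrix_det (hcx i)) isOpen_ne
      have hA1 : ∀ i, RatSL (fun x : D1 => (x : Fin g × Fin r × Fin r → ℂ))
          fun x => baseA e A0 (ext x.1) i := by
        intro i
        refine (RatMat.mul (RatMat.const (A0 i).1) (ratMat_slNorm e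
          (X := fun x : D1 => xMat (ext x.1) i) (fun k l => ((RatFn.const ((1 : Mat r) k l)).add
            (RatFn.coord (i, k, l))).congr fun x => by simp [xMat, ext]) fun x => x.2 i)
          ).congr fun x => ?_
        show _ = (baseA e A0 (ext x.1) i).1
        rw [baseA, dif_pos (x.2 i)]
        rfl
      have hseed : RatSt (fun x : D1 => (x : Fin g × Fin r × Fin r → ℂ))
          fun x => (seedL e A0 a c J (ext x.1)).1 := by
        refine ⟨fun k => ?_, fun j => RatSL.const _⟩
        refine Fin.lastCases ?_ (fun i => ?_) k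
        · exact ⟨fun p q => (RatFn.const (a.1 p q)).congr fun _ => by simp [seedL, seedPt],
            fun p q => (RatFn.const (c.1 p q)).congr fun _ => by simp [seedL, seedPt]⟩
        · exact ⟨fun p q => (hA1 i p q).congr fun _ => by simp [seedL, seedPt],
            fun p q => (RatFn.const ((1 : SLC r).1 p q)).congr fun _ => by simp [seedL, seedPt]⟩
      -- the parameter carrying the seed to the given one
      let x1 : Fin g × Fin r × Fin r → ℂ := fun v =>
        (((A0 v.1)⁻¹ * A v.1).1 - 1) v.2.1 v.2.2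
      have hx1 : ∀ i, xMat (ext x1) i = ((A0 i)⁻¹ * A i).1 := fun i => by
        ext k l; simp [xMat, ext, x1]
      have hbase : baseA e A0 (ext x1) = A := by
        funext i
        rw [baseA, dif_pos (by rw [hx1, ((A0 i)⁻¹ * A i).2]; exact one_ne_zero)]
        have h : (⟨slNorm e (xMat (ext x1) i), det_slNorm e (by
            rw [hx1, ((A0 i)⁻¹ * A i).2]; exact one_ne_zero)⟩ : SLC r) = (A0 i)⁻¹ * A i :=
          Subtype.ext ((congrArg (slNorm e) (hx1 i)).trans
            (slNorm_of_det_one e ((A0 i)⁻¹ * A i).2))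
        rw [h, mul_inv_cancel_left]
      have hU : IsOpen (D1 ∩ (fun x => (hbWord o z fun i => (baseA e A0 (ext x) i).1).det) ⁻¹'
          {w : ℂ | w ≠ 0}) :=
        (RatFn.continuousOn (f := fun x => (hbWord o z fun i => (baseA e A0 (ext x) i).1).det)
          (ratFn_hbWord hA1 o z)).isOpen_inter_preimage hD1 isOpen_ne
      have h0 : ext 0 = 0 := funext fun v => by rcases v with v | v <;> rfl
      have hxd : (0 : Fin g × Fin r × Fin r → ℂ) ∈ D1 := fun i => by
        rw [show xMat (ext 0) i = 1 by simp [h0, xMat, ← Matrix.ext_iff], det_one]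
        exact one_ne_zero
      obtain ⟨x, ⟨⟨-, hxW⟩, hxD⟩, hx⟩ := dense_ratFn_ne_zero hD1
        (fun (_ : Unit) x => relPoly q.1 (tcurve t (seedL e A0 a c J (ext x)).1).1)
        (fun _ => ratFn_relPoly (ratSL_tcurve t hseed) q.1)
        (fun _ => ⟨x1, fun i => by rw [hx1, ((A0 i)⁻¹ * A i).2]; exact one_ne_zero, by
          show relPoly q.1 (tcurve t (seedPt (baseA e A0 (ext x1)) a c J)).1 ≠ 0
          rw [hbase]
          exact hA.relPoly_ne_zero (tcurve t (seedPt A a c J)).2 q⟩) hU
        ⟨0, ⟨hxd, by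
          show (hbWord o z fun i => (baseA e A0 (ext 0) i).1).det ≠ 0
          simpa [h0, baseA_zero] using hW⟩, hxd⟩
      refine ⟨ext x, mem_pdom_of_zero e A0 a c J L o z ⟨hxD, hxW⟩ (hqz x) m, ?_⟩
      simp only [crv]
      rw [pstage_of_zero e A0 a c J L m fun k _ => hqz x k]
      exact hx ()
    obtain ⟨p', ⟨hp'U, hp'D⟩, hne'⟩ := dense_ratFn_ne_zero ih.isOpen
      (fun (q : RelExp r) p => relPoly q.1 (crv p).1)
      (fun q => ratFn_relPoly hcurve q.1) hne hbad ⟨p, ⟨hp, hF⟩, hp.1⟩
    refine hp'U.2 ?_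
    show PForced O _ (toP (pstage e A0 a c J L p' (m + 1)).1)
    rw [hst]
    exact pforced_tflow t (ih.forced p' hp'D) (indep_of_relPoly (crv p').2 hne') _
      (commute_hFn _ _)

end Stage

end Vale.Agent.P002.Punct
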