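import Vale.Agent.P002.Punct.Stage

/-!
P002, punctured surface groups: the composite flows, rescaled and translated, as a differentiable
map; if its derivative is onto, all nearby lifted representations are forced.
-/

namespace Vale.Agent.P002.Punct

open Matrix Module Topology Filter
open Vale.Agent.P002.Surf
open scoped Matrix.Norms.Operator

variable {g b r M : ℕ}

/-- The relation on lifted tuples. -/
noncomputable def relP (J : Fin b → Mat r) (z : PPt g b r) : Mat r :=
  relProd z.1 * tProd (tconj J z.2)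

/-- The scalings of the entries of a lifted tuple. -/
abbrev Scal (g b : ℕ) := (Fin g → ℂ × ℂ) × (Fin b → ℂ)

/-- The scalings act on lifted tuples. -/
noncomputable def scaleP (s : Scal g b) (z : PPt g b r) : PPt g b r :=
  (fun i => ((1 + (s.1 i).1) • (z.1 i).1, (1 + (s.1 i).2) • (z.1 i).2),
    fun j => (1 + s.2 j) • z.2 j)

theorem inv_smul_of_det_one {w : ℂ} {X : Mat r} (hw : w ≠ 0) (hX : X.det = 1) :
    (w • X)⁻¹ = w⁻¹ • X⁻¹ := by
  refine Matrix.inv_eq_right_inv ?_
  rw [Matrix.smul_mul, Matrix.mul_smul, smul_smul, mul_inv_cancel₀ hw, one_smul,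
    Matrix.mul_nonsing_inv X (by rw [hX]; exact isUnit_one)]

theorem relP_scaleP (J : Fin b → Mat r) {z : PPt g b r} (hz : IsSL z.1)
    (hz2 : ∀ j, (z.2 j).det = 1) {s : Scal g b}
    (hs : (∀ i, 1 + (s.1 i).1 ≠ 0 ∧ 1 + (s.1 i).2 ≠ 0) ∧ ∀ j, 1 + s.2 j ≠ 0) :
    relP J (scaleP s z) = relP J z := by
  have h1 : ∀ i, Surf.comm ((scaleP s z).1 i) = Surf.comm (z.1 i) := fun i => by
    simp only [scaleP, Surf.comm]
    rw [inv_smul_of_det_one (hs.1 i).1 (hz i).1, inv_smul_of_det_one (hs.1 i).2 (hz i).2]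
    simp only [Matrix.smul_mul, Matrix.mul_smul, smul_smul]
    rw [show (1 + (s.1 i).2)⁻¹ * ((1 + (s.1 i).1)⁻¹ * ((1 + (s.1 i).2) * (1 + (s.1 i).1))) = 1 by
      field_simp [(hs.1 i).1, (hs.1 i).2], one_smul]
  have h2 : tconj J (scaleP s z).2 = tconj J z.2 := funext fun j => by
    simp only [scaleP, tconj]
    rw [inv_smul_of_det_one (hs.2 j) (hz2 j)]
    simp only [Matrix.smul_mul, Matrix.mul_smul, smul_smul]
    rw [inv_mul_cancel₀ (hs.2 j), one_smul]
  simp only [relP, relProd, h1, h2]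

theorem contDiffAt_prod {E : Type*} [NormedAddCommGroup E] [NormedSpace ℂ E] {x : E} :
    ∀ {n : ℕ} (f : Fin n → E → Mat r), (∀ i, ContDiffAt ℂ 1 (f i) x) →
      ContDiffAt ℂ 1 (fun y => (List.ofFn fun i => f i y).prod) x
  | 0, _, _ => by simpa using contDiffAt_const
  | n + 1, f, hf => by
    simp only [List.ofFn_succ, List.prod_cons]
    exact (hf 0).mul (contDiffAt_prod (fun i => f i.succ) fun i => hf i.succ)

theorem contDiffAt_relP (J : Fin b → Mat r) {z : PPt g b r} (hz : IsSL z.1)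
    (hz2 : ∀ j, (z.2 j).det = 1) : ContDiffAt ℂ 1 (relP J) z := by
  have hinv : ∀ A : Mat r, A.det = 1 → ContDiffAt ℂ 1 (fun M : Mat r => M⁻¹) A := by
    intro A hA
    have hu : IsUnit A := (Matrix.isUnit_iff_isUnit_det A).2 (by rw [hA]; exact isUnit_one)
    simp only [Matrix.nonsing_inv_eq_ringInverse]
    exact hu.unit_spec ▸ contDiffAt_ringInverse ℂ hu.unit
  refine ContDiffAt.mul ?_ ?_
  · exact (contDiffAt_relProd (x := z.1) fun i =>
      ⟨by rw [(hz i).1]; exact isUnit_one, by rw [(hz i).2]; exact isUnit_one⟩).comp z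
        contDiffAt_fst
  · refine contDiffAt_prod (fun j (y : PPt g b r) => y.2 j * J j * (y.2 j)⁻¹) fun j => ?_
    have h : ContDiffAt ℂ 1 (fun y : PPt g b r => y.2 j) z := by fun_prop
    exact (h.mul contDiffAt_const).mul ((hinv _ (hz2 j)).comp z h)

theorem hasDerivAt_scaled_line {V : Type*} [NormedAddCommGroup V] [NormedSpace ℂ V] (s : ℂ)
    (v : V) : HasDerivAt (fun t : ℂ => (1 + t * s) • v) (s • v) 0 := by
  have h : HasDerivAt (fun t : ℂ => 1 + t * s) s 0 :=
    (((hasDerivAt_id (0 : ℂ)).mul_const s).const_add 1).congr_deriv (one_mul s)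
  exact h.smul_const v

/-- Every power of a matrix of determinant one is, up to scalars, a velocity of its centraliser. -/
theorem exists_hFn_line (hr : 2 ≤ r) (C : SLC r) (n : ℕ) : ∃ v : Fin r → ℂ,
    HasDerivAt (fun t : ℂ => (hFn C (t • v)).1)
      ((r : ℂ) • C.1 ^ n + (-(C.1 ^ n).trace) • (1 : Mat r)) 0 := by
  obtain ⟨v, hv⟩ : ∃ v : Fin r → ℂ, C.1 ^ n = ∑ k, v k • C.1 ^ k.val := by
    have hd : (Polynomial.X ^ n %ₘ C.1.charpoly).natDegree < r := by
      have h1 := Polynomial.natDegree_modByMonic_lt (Polynomial.X ^ n)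
        (Matrix.charpoly_monic C.1) (fun h => by
          have h2 := congrArg Polynomial.natDegree h
          rw [Matrix.charpoly_natDegree_eq_dim, Fintype.card_fin,
            Polynomial.natDegree_one] at h2
          omega)
      rwa [Matrix.charpoly_natDegree_eq_dim, Fintype.card_fin] at h1
    refine ⟨fun k => (Polynomial.X ^ n %ₘ C.1.charpoly).coeff k.val, ?_⟩
    rw [Matrix.pow_eq_aeval_mod_charpoly, Polynomial.aeval_eq_sum_range' hd]
    exact (Fin.sum_univ_eq_sum_range
      (fun k => (Polynomial.X ^ n %ₘ C.1.charpoly).coeff k • C.1 ^ k) r).symm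
  refine ⟨v, ?_⟩
  set Y := C.1 ^ n
  have hq : ∀ t : ℂ, qMat C.1 (t • v) = 1 + t • Y := fun t => by
    rw [qMat, hv, Finset.smul_sum]
    simp [smul_smul]
  have hne : ∀ᶠ t in 𝓝 (0 : ℂ), (1 + t • Y).det ≠ 0 :=
    (Continuous.matrix_det (by fun_prop :
      Continuous fun t : ℂ => 1 + t • Y)).continuousAt.eventually_ne (by simp)
  refine ((((det_qMat_deriv Y).inv (by simp)).smul (pow_one_add_deriv Y r)
    ).congr_of_eventuallyEq ?_).congr_deriv (by simp)
  filter_upwards [hne] with t ht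
  refine (hFn_coe (c := C) (v := t • v) ?_).trans ?_
  · rw [hq]; exact ht
  · rw [hq]; rfl

section Theta

variable (e : Fin r) (A0 : Fin g → SLC r) (a c : SLC r) (J : Fin b → SLC r)
  (L : Fin M → TMove (g + 1) b) (o z : Fin g)

/-- The parameters: seed and flow parameters, scalings and a complementary translation. -/
abbrev PPar (g b r M : ℕ) (W : Submodule ℂ (PPt (g + 1) b r)) :=
  (Pix g r M → ℂ) × Scal (g + 1) b × W

/-- The base point. -/
noncomputable def basePt : PPt (g + 1) b r := toLift ((seedPt A0 a c J, 1) : LSt (g + 1) b r)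

/-- The map whose image is a neighbourhood. -/
noncomputable def ptheta (W : Submodule ℂ (PPt (g + 1) b r)) (u : PPar g b r M W) :
    PPt (g + 1) b r :=
  scaleP u.2.1 (toLift (pstage e A0 a c J L u.1 M)) + u.2.2.1

theorem pstage_zero_param :
    pstage e A0 a c J L (0 : Pix g r M → ℂ) M = (seedPt A0 a c J, 1) := by
  rw [pstage_of_zero e A0 a c J L M fun k _ => (rfl : qPart (0 : Pix g r M → ℂ) k = 0)]
  simp only [seedL]
  rw [show baseA e A0 (0 : Pix g r M → ℂ) = A0 from funext fun i => baseA_zero e A0 i]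

theorem scaleP_zero (y : PPt g b r) : scaleP 0 y = y := by
  simp [scaleP]

theorem ptheta_zero (W : Submodule ℂ (PPt (g + 1) b r)) :
    ptheta e A0 a c J L W 0 = basePt A0 a c J := by
  simp [ptheta, scaleP_zero, pstage_zero_param, basePt]

theorem contDiffAt_ptheta {O : Subring ℂ} (hok : PStageOK e A0 a c J L o z O M)
    (h0 : (0 : Pix g r M → ℂ) ∈ PDom e A0 a c J L o z M)
    (W : Submodule ℂ (PPt (g + 1) b r)) : ContDiffAt ℂ 1 (ptheta e A0 a c J L W) 0 := by
  have hp : ContDiffAt ℂ 1 (fun u : PPar g b r M W => u.1) 0 := contDiffAt_fst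
  refine ContDiffAt.add ?_ ?_
  · refine ContDiffAt.prodMk (contDiffAt_pi.2 fun i => ?_) (contDiffAt_pi.2 fun j => ?_)
    · have hc1 : ContDiffAt ℂ 1 (fun p => ((pstage e A0 a c J L p M).1.1 i).1.1)
          (0 : Pix g r M → ℂ) := contDiffAt_mat fun k l => RatFn.contDiffAt hok.isOpen
        (f := fun p => ((pstage e A0 a c J L p M).1.1 i).1.1 k l) ((hok.rat.1.1 i).1 k l) h0
      have hc2 : ContDiffAt ℂ 1 (fun p => ((pstage e A0 a c J L p M).1.1 i).2.1)
          (0 : Pix g r M → ℂ) := contDiffAt_mat fun k l => RatFn.contDiffAt hok.isOpen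
        (f := fun p => ((pstage e A0 a c J L p M).1.1 i).2.1 k l) ((hok.rat.1.1 i).2 k l) h0
      have h1 := ContDiffAt.comp (f := fun u : PPar g b r M W => u.1) 0 hc1 hp
      have h2 := ContDiffAt.comp (f := fun u : PPar g b r M W => u.1) 0 hc2 hp
      have hs1 : ContDiffAt ℂ 1 (fun u : PPar g b r M W => 1 + (u.2.1.1 i).1) 0 := by fun_prop
      have hs2 : ContDiffAt ℂ 1 (fun u : PPar g b r M W => 1 + (u.2.1.1 i).2) 0 := by fun_prop
      exact (hs1.smul h1).prodMk (hs2.smul h2)
    · have hc1 : ContDiffAt ℂ 1 (fun p => ((pstage e A0 a c J L p M).2 j).1)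
          (0 : Pix g r M → ℂ) := contDiffAt_mat fun k l => RatFn.contDiffAt hok.isOpen
        (f := fun p => ((pstage e A0 a c J L p M).2 j).1 k l) (hok.rat.2 j k l) h0
      have h1 := ContDiffAt.comp (f := fun u : PPar g b r M W => u.1) 0 hc1 hp
      have hs1 : ContDiffAt ℂ 1 (fun u : PPar g b r M W => 1 + u.2.1.2 j) 0 := by fun_prop
      exact hs1.smul h1
  · exact W.subtypeL.contDiff.contDiffAt.comp 0 (contDiffAt_snd.comp 0 contDiffAt_snd)

theorem relP_stage (hrel : gcomm (a, c) * tpre J b = 1) (p : Pix g r M → ℂ) :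
    relP (fun j => (J j).1) (toLift (pstage e A0 a c J L p M)) = 1 :=
  (isSLLift_toLift (linked_pstage e A0 a c J L hrel p M)).2.2

theorem isSLLift_base (hrel : gcomm (a, c) * tpre J b = 1) :
    IsSLLift (fun j => (J j).1) (basePt A0 a c J) :=
  isSLLift_toLift ⟨sval_seed _ hrel, fun j => by simp [seedPt]⟩

/-- If the derivative is onto, all lifted representations near the base point are forced. -/
theorem pforced_nhds [NeZero r] {O : Subring ℂ} (hrel : gcomm (a, c) * tpre J b = 1)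
    (hok : PStageOK e A0 a c J L o z O M)
    (h0 : (0 : Pix g r M → ℂ) ∈ PDom e A0 a c J L o z M)
    {W : Submodule ℂ (PPt (g + 1) b r)}
    {D : PPt (g + 1) b r →L[ℂ] Mat r}
    (hD : HasStrictFDerivAt (relP fun j => (J j).1) D (basePt A0 a c J))
    (hW : IsCompl (LinearMap.ker D.toLinearMap) W)
    {T : PPar g b r M W →L[ℂ] PPt (g + 1) b r}
    (hT : HasStrictFDerivAt (ptheta e A0 a c J L W) T 0)
    (hsurj : LinearMap.range T.toLinearMap = ⊤) :
    ∀ᶠ y in 𝓝 (basePt A0 a c J), IsSLLift (fun j => (J j).1) y →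
      PForced O (fun j => (J j).1) (lower (fun j => (J j).1) y) := by
  set Jm : Fin b → Mat r := fun j => (J j).1
  have : @CompleteSpace (PPar g b r M W) PseudoMetricSpace.toUniformSpace :=
    FiniteDimensional.complete ℂ _
  have : @CompleteSpace (PPt (g + 1) b r) PseudoMetricSpace.toUniformSpace :=
    FiniteDimensional.complete ℂ _
  have hmap : Filter.map (ptheta e A0 a c J L W) (𝓝 0) = 𝓝 (ptheta e A0 a c J L W 0) :=
    hT.map_nhds_eq_of_surj hsurj
  obtain ⟨C, hC, hbound⟩ : ∃ C : ℝ, 0 < C ∧ ∀ w ∈ W, ‖w‖ ≤ C * ‖D w‖ := by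
    have hinj : LinearMap.ker (D.toLinearMap.comp W.subtype) = ⊥ := by
      rw [LinearMap.ker_eq_bot']
      intro w hw
      have h : (w : PPt (g + 1) b r) ∈ LinearMap.ker D.toLinearMap ⊓ W := ⟨hw, w.2⟩
      rw [hW.inf_eq_bot] at h
      exact Subtype.ext ((Submodule.mem_bot ℂ).1 h)
    obtain ⟨K, hK, hant⟩ := LinearMap.exists_antilipschitzWith (D.toLinearMap.comp W.subtype) hinj
    exact ⟨K, hK, fun w hw => ZeroHomClass.bound_of_antilipschitz _ hant ⟨w, hw⟩⟩
  have hlo := hD.isLittleO.def (show (0 : ℝ) < 1 / (2 * C) by positivity)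
  let sc : PPar g b r M W → PPt (g + 1) b r :=
    fun u => scaleP u.2.1 (toLift (pstage e A0 a c J L u.1 M))
  have hu0 : ContinuousAt sc 0 := by
    have h : sc = fun u => ptheta e A0 a c J L W (u.1, u.2.1, 0) := by
      funext u; simp [sc, ptheta]
    rw [h]
    exact ContinuousAt.comp (g := ptheta e A0 a c J L W)
      (f := fun u : PPar g b r M W => (u.1, u.2.1, (0 : W)))
      (by exact (contDiffAt_ptheta e A0 a c J L o z hok h0 W).continuousAt) (by fun_prop)
  have hpair : Tendsto (fun u => (ptheta e A0 a c J L W u, sc u)) (𝓝 0)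
      (𝓝 (basePt A0 a c J, basePt A0 a c J)) := by
    have h := ((contDiffAt_ptheta e A0 a c J L o z hok h0 W).continuousAt.prodMk hu0).tendsto
    rwa [ptheta_zero, show sc 0 = basePt A0 a c J by
      simp [sc, scaleP_zero, pstage_zero_param, basePt]] at h
  rw [← ptheta_zero e A0 a c J L W, ← hmap, Filter.eventually_map]
  have hev1 : ∀ᶠ u in 𝓝 (0 : PPar g b r M W), u.1 ∈ PDom e A0 a c J L o z M :=
    continuous_fst.continuousAt.eventually_mem (hok.isOpen.mem_nhds h0)
  have hroot : ∀ f : PPar g b r M W → ℂ, Continuous f → f 0 = 0 →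
      ∀ᶠ u in 𝓝 0, ((1 + f u) ^ r = 1 → f u = 0) ∧ 1 + f u ≠ 0 := by
    intro f hf hf0
    have h1 : Tendsto f (𝓝 0) (𝓝 0) := hf.tendsto' 0 0 hf0
    have h3 : ∀ᶠ s in 𝓝 (0 : ℂ), 1 + s ≠ 0 :=
      (continuous_const.add continuous_id).continuousAt.eventually_ne (by simp)
    filter_upwards [h1.eventually (eventually_root (r := r)), h1.eventually h3]
      with u h4 h5 using ⟨h4, h5⟩
  have hev2 := (eventually_all.2 fun i => (hroot (fun u => (u.2.1.1 i).1) (by fun_prop) rfl).and
    (hroot (fun u => (u.2.1.1 i).2) (by fun_prop) rfl)).and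
    (eventually_all.2 fun j => hroot (fun u => u.2.1.2 j) (by fun_prop) rfl)
  filter_upwards [hev1, hev2, hpair.eventually hlo] with u hdom hs hlo' hrep
  have hsl := isSLLift_toLift (linked_pstage e A0 a c J L hrel u.1 M)
  have hrel0 : relP Jm (sc u) = 1 := by
    show relP Jm (scaleP _ _) = 1
    rw [relP_scaleP Jm hsl.1 hsl.2.1
      ⟨fun i => ⟨(hs.1 i).1.2, (hs.1 i).2.2⟩, fun j => (hs.2 j).2⟩]
    exact hsl.2.2
  have hdiff : ptheta e A0 a c J L W u - sc u = (u.2.2 : PPt (g + 1) b r) := by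
    simp [ptheta, sc]
  have hw0 : (u.2.2 : PPt (g + 1) b r) = 0 := by
    have h1 : relP Jm (ptheta e A0 a c J L W u) = 1 := hrep.2.2
    simp only [h1, hrel0, sub_self, zero_sub, norm_neg, hdiff] at hlo'
    have h2 : ‖(u.2.2 : PPt (g + 1) b r)‖ ≤ C * (1 / (2 * C) * ‖(u.2.2 : PPt (g + 1) b r)‖) :=
      (hbound _ u.2.2.2).trans (mul_le_mul_of_nonneg_left hlo' hC.le)
    rw [show C * (1 / (2 * C) * ‖(u.2.2 : PPt (g + 1) b r)‖) =
      ‖(u.2.2 : PPt (g + 1) b r)‖ / 2 by field_simp] at h2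
    exact norm_le_zero_iff.1 (by linarith [norm_nonneg (u.2.2 : PPt (g + 1) b r)])
  have hΦ : ptheta e A0 a c J L W u = toLift (pstage e A0 a c J L u.1 M) := by
    have he : ptheta e A0 a c J L W u = sc u := by simp [ptheta, sc, hw0]
    rw [he] at hrep ⊢
    have hz : u.2.1 = 0 := by
      refine Prod.ext (funext fun i => ?_) (funext fun j => ?_)
      · have hi := hrep.1 i
        simp only [sc, scaleP, Matrix.det_smul, Fintype.card_fin, (hsl.1 i).1, (hsl.1 i).2,
          mul_one] at hi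
        exact Prod.ext ((hs.1 i).1.1 hi.1) ((hs.1 i).2.1 hi.2)
      · have hj := hrep.2.1 j
        simp only [sc, scaleP, Matrix.det_smul, Fintype.card_fin, hsl.2.1 j, mul_one] at hj
        exact (hs.2 j).1 hj
    simp only [sc, hz, scaleP_zero]
  rw [hΦ, lower_toLift (linked_pstage e A0 a c J L hrel u.1 M)]
  exact hok.forced u.1 hdom

end Theta

end Vale.Agent.P002.Punct
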