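import Vale.Agent.P002.Punct.Theta

/-!
P002, punctured surface groups: the velocities through a seed of the closed flows on the first
handles, and the parts on the special handle and the punctures of those of the slid flows.
-/

namespace Vale.Agent.P002.Punct

open Matrix Module Topology Filter
open Vale.Agent.P002.Surf
open scoped Matrix.Norms.Operator

variable {g b r M : ℕ}

/-- A variation of the first handles. -/
noncomputable def handleEmb (g b r : ℕ) : Pt g r →ₗ[ℂ] PPt (g + 1) b r where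
  toFun v := (Fin.snoc v 0, 0)
  map_add' v w := by
    refine Prod.ext (funext fun i => ?_) (by simp)
    refine Fin.lastCases ?_ (fun m => ?_) i <;> simp
  map_smul' k v := by
    refine Prod.ext (funext fun i => ?_) (by simp)
    refine Fin.lastCases ?_ (fun m => ?_) i <;> simp

/-- The special handle and the punctures. -/
noncomputable def tailL (g b r : ℕ) : PPt (g + 1) b r →ₗ[ℂ] Pair r × (Fin b → Mat r) :=
  ((LinearMap.proj (Fin.last g)).comp (LinearMap.fst ℂ _ _)).prod (LinearMap.snd ℂ _ _)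

theorem tailL_apply (v : PPt (g + 1) b r) : tailL g b r v = (v.1 (Fin.last g), v.2) := rfl

theorem relProd_snoc (y : Pt g r) (p : Pair r) :
    relProd (Fin.snoc y p : Pt (g + 1) r) = relProd y * Surf.comm p := by
  rw [relProd, List.ofFn_succ', List.concat_eq_append, List.prod_append]
  simp [relProd]

theorem hasDerivAt_handleEmb {y : ℂ → Pt g r} {v : Pt g r} (h : HasDerivAt y v 0) (p : Pair r)
    (X : Fin b → Mat r) :
    HasDerivAt (fun t => ((Fin.snoc (y t) p, X) : PPt (g + 1) b r)) (handleEmb g b r v) 0 := by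
  refine HasDerivAt.prodMk (hasDerivAt_pi.2 fun i => ?_) (hasDerivAt_const (0 : ℂ) X)
  refine Fin.lastCases ?_ (fun m => ?_) i
  · simpa using hasDerivAt_const (0 : ℂ) p
  · simpa using hasDerivAt_pi.1 h m

/-- Moves of the closed surfaces on the first handles. -/
def closedMove (c : Curve g) : TMove (g + 1) b := ([], .closed (castCurve c))

theorem tcurve_closedMove (cv : Curve g) (A : Fin g → SLC r) (a c : SLC r) (J : Fin b → SLC r) :
    tcurve (closedMove cv) (seedPt A a c J) = curveElt cv (handlePt A) := by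
  show curveElt (castCurve cv) (Fin.snoc (fun i => (A i, 1)) (a, c)) = _
  rw [curveElt_castCurve]
  rfl

theorem toLift_closedMove (cv : Curve g) (A : Fin g → SLC r) (a c : SLC r) (J : Fin b → SLC r)
    (h : SLC r) : toLift (lflow (closedMove cv) ((seedPt A a c J, 1) : LSt (g + 1) b r) h) =
      (Fin.snoc (toPt (flow cv (handlePt A) h)) (a.1, c.1), fun _ => 1) := by
  refine Prod.ext (funext fun i => ?_) (funext fun j => ?_)
  · show ((flow (castCurve cv) (Fin.snoc (fun i => (A i, 1)) (a, c)) h i).1.1,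
      (flow (castCurve cv) (Fin.snoc (fun i => (A i, 1)) (a, c)) h i).2.1) = _
    rw [flow_castCurve]
    refine Fin.lastCases ?_ (fun m => ?_) i
    · simp
    · simp only [Fin.snoc_castSucc]
      rfl
  · simp [toLift, lflow, closedMove, tpush, pconj]

/-! ### The slid moves -/

section Slid

variable {z o : Fin (g + 1)} (hzo : z < o) (q l : ℕ)

/-- The linearised effect of a slid push on the tail. -/
noncomputable def pushTail (a c : Mat r) (j : Fin b) : Mat r →ₗ[ℂ] Pair r × (Fin b → Mat r) where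
  toFun Y := ((-Y * a + a * Y, -Y * c + c * Y), fun k => if k ≤ j then -Y else 0)
  map_add' Y Z := by
    refine Prod.ext (Prod.ext ?_ ?_) (funext fun k => ?_)
    · simp [Matrix.add_mul, Matrix.mul_add]; abel
    · simp [Matrix.add_mul, Matrix.mul_add]; abel
    · simp only [Pi.add_apply, Prod.snd_add]; split_ifs <;> simp [add_comm]
  map_smul' s Y := by
    refine Prod.ext (Prod.ext ?_ ?_) (funext fun k => ?_)
    · simp [smul_add]
    · simp [smul_add]
    · simp only [Pi.smul_apply, Prod.smul_snd, RingHom.id_apply]; split_ifs <;> simp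

/-- The linearised effect of a slid bridge with twisting zero. -/
noncomputable def bridgeZeroTail (a : Mat r) :
    Mat r →ₗ[ℂ] Pair r × (Fin b → Mat r) where
  toFun Y := ((-Y * a, 0), 0)
  map_add' Y Z := by simp [Matrix.add_mul, add_comm]
  map_smul' s Y := by simp

/-- The linearised effect of a slid bridge with twisting one. -/
noncomputable def bridgeOneTail (a c : Mat r) :
    Mat r →ₗ[ℂ] Pair r × (Fin b → Mat r) where
  toFun Y := ((-Y * a, c * a⁻¹ * (-Y) * a), 0)
  map_add' Y Z := by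
    refine Prod.ext (Prod.ext ?_ ?_) (by simp)
    · simp [Matrix.add_mul, add_comm]
    · simp only [Prod.fst_add, Prod.snd_add, neg_add, Matrix.mul_add, Matrix.add_mul]
  map_smul' s Y := by simp

variable (A : Fin g → SLC r) (a c : SLC r) (J : Fin b → SLC r)

theorem tail_push (ho1 : o.val = z.val + 1) (hol : o < Fin.last g) (h : SLC r) (j : Fin b) :
    tailL g b r (toLift (lflow (slideWord z o hzo q l, PMove.push z j)
      ((seedPt A a c J, 1) : LSt (g + 1) b r) h)) =
    ((h⁻¹.1 * a.1 * h.1, h⁻¹.1 * c.1 * h.1), fun k => if k ≤ j then h⁻¹.1 else 1) := by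
  have hlz : (Fin.last g) ≠ z := (hzo.trans hol).ne'
  have hlo : (Fin.last g) ≠ o := hol.ne'
  rw [tailL_apply]
  refine Prod.ext ?_ (funext fun k => ?_)
  · simp only [toLift, lflow, tflow, toPt,
      (slideWord_fix hzo q l _ ho1 hlz hlo).2, pflow, if_neg hlz, if_pos (hzo.trans hol),
      (slideWord_fix hzo q l _ ho1 hlz hlo).1]
    simp [seedPt]
  · simp only [toLift, lflow, tpush, pconj]
    split_ifs <;> simp

theorem tail_bridge (ho1 : o.val = z.val + 1) (hol : o < Fin.last g) (h : SLC r) (n : ℕ) :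
    tailL g b r (toLift (lflow (slideWord z o hzo q l,
        PMove.closed (.bridge z (Fin.last g) (hzo.trans hol) n))
      ((seedPt A a c J, 1) : LSt (g + 1) b r) h)) =
    (((h⁻¹ * a).1, ((h⁻¹ * a)⁻¹ * (h⁻¹ * (a * c * (a ^ (1 + n))⁻¹) * h) *
      (h⁻¹ * a) ^ (1 + n)).1), fun _ => 1) := by
  have hlz : (Fin.last g) ≠ z := (hzo.trans hol).ne'
  have hlo : (Fin.last g) ≠ o := hol.ne'
  rw [tailL_apply]
  refine Prod.ext ?_ (funext fun k => ?_)
  · simp only [toLift, lflow, tflow, toPt,
      (slideWord_fix hzo q l _ ho1 hlz hlo).2, pflow, flow, if_neg hlz, if_true,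
      (slideWord_fix hzo q l _ ho1 hlz hlo).1]
    simp [seedPt]
  · simp [toLift, lflow, tpush, pconj]

theorem curve_push (hz : z.val = 0) (ho : o.val = 1) (z' o' : Fin g) (hz' : z'.castSucc = z)
    (ho' : o'.castSucc = o) (j : Fin b) :
    tcurve (slideWord z o hzo q l, PMove.push z j) (seedPt A a c J) =
      omegaW (A z') (A o')⁻¹ q l * (gcomm (a, c) * tpre J (j.val + 1)) := by
  subst hz' ho'
  rw [seedPt, tcurve_push hzo q l _ hz ho (by simp) (by simp), gpre_snoc_last, gpre_handlePt,
    one_mul]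
  simp

theorem curve_bridge (hz : z.val = 0) (ho : o.val = 1) (z' o' : Fin g) (hz' : z'.castSucc = z)
    (ho' : o'.castSucc = o) (hol : o < Fin.last g) (n : ℕ) :
    tcurve (slideWord z o hzo q l, PMove.closed (.bridge z (Fin.last g) (hzo.trans hol) n))
        (seedPt A a c J) =
      omegaW (A z') (A o')⁻¹ q l * (a * c * (a ^ (1 + n))⁻¹) := by
  subst hz' ho'
  rw [seedPt, tcurve_bridge hzo q l _ hz ho (by simp) (by simp) J (Fin.last g) hol
    (hzo.trans hol) n, Fin.val_last, gpre_snoc _ _ g le_rfl, gpre_handlePt, one_mul]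
  simp

theorem hasDerivAt_tail_push (ho1 : o.val = z.val + 1) (hol : o < Fin.last g) (j : Fin b)
    {h : ℂ → SLC r} (h0 : h 0 = 1) {Y : Mat r} (hd : HasDerivAt (fun t => (h t).1) Y 0) :
    HasDerivAt (fun t => tailL g b r (toLift (lflow (slideWord z o hzo q l, PMove.push z j)
      ((seedPt A a c J, 1) : LSt (g + 1) b r) (h t)))) (pushTail a.1 c.1 j Y) 0 := by
  have hi := hasDerivAt_sl_inv h0 hd
  have hh0 : ((h 0)⁻¹).1 = 1 := by simp [h0]
  have hh1 : (h 0).1 = 1 := by simp [h0]
  have hconj : ∀ X : Mat r, HasDerivAt (fun t => ((h t)⁻¹).1 * X * (h t).1) (-Y * X + X * Y) 0 := by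
    intro X
    refine ((hi.mul_const X).mul hd).congr_deriv ?_
    simp [hh0, hh1]
  simp only [tail_push hzo q l A a c J ho1 hol]
  refine ((hconj a.1).prodMk (hconj c.1)).prodMk (hasDerivAt_pi.2 fun k => ?_)
  by_cases hk : k ≤ j
  · simp only [if_pos hk]
    exact hi
  · simp only [if_neg hk]
    exact hasDerivAt_const (0 : ℂ) (1 : Mat r)

theorem hasDerivAt_tail_bridge_zero (ho1 : o.val = z.val + 1) (hol : o < Fin.last g)
    {h : ℂ → SLC r} (h0 : h 0 = 1) {Y : Mat r} (hd : HasDerivAt (fun t => (h t).1) Y 0) :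
    HasDerivAt (fun t => tailL g b r (toLift (lflow (slideWord z o hzo q l,
        PMove.closed (.bridge z (Fin.last g) (hzo.trans hol) 0))
      ((seedPt A a c J, 1) : LSt (g + 1) b r) (h t)))) (bridgeZeroTail a.1 Y) 0 := by
  have hi := hasDerivAt_sl_inv h0 hd
  have he : ∀ t, tailL g b r (toLift (lflow (slideWord z o hzo q l,
      PMove.closed (.bridge z (Fin.last g) (hzo.trans hol) 0))
      ((seedPt A a c J, 1) : LSt (g + 1) b r) (h t))) =
      (((h t)⁻¹.1 * a.1, c.1), fun _ => 1) := fun t => by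
    rw [tail_bridge hzo q l A a c J ho1 hol]
    rw [show ((h t)⁻¹ * a)⁻¹ * ((h t)⁻¹ * (a * c * (a ^ (1 + 0))⁻¹) * h t) *
      ((h t)⁻¹ * a) ^ (1 + 0) = c by simp only [add_zero, pow_one]; group]
    rfl
  simp only [he]
  exact ((hi.mul_const a.1).prodMk (hasDerivAt_const (0 : ℂ) c.1)).prodMk
    (hasDerivAt_const (0 : ℂ) (fun _ => 1 : Fin b → Mat r))

theorem hasDerivAt_tail_bridge_one (ho1 : o.val = z.val + 1) (hol : o < Fin.last g)
    {h : ℂ → SLC r} (h0 : h 0 = 1) {Y : Mat r} (hd : HasDerivAt (fun t => (h t).1) Y 0) :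
    HasDerivAt (fun t => tailL g b r (toLift (lflow (slideWord z o hzo q l,
        PMove.closed (.bridge z (Fin.last g) (hzo.trans hol) 1))
      ((seedPt A a c J, 1) : LSt (g + 1) b r) (h t)))) (bridgeOneTail a.1 c.1 Y) 0 := by
  have hi := hasDerivAt_sl_inv h0 hd
  have he : ∀ t, tailL g b r (toLift (lflow (slideWord z o hzo q l,
      PMove.closed (.bridge z (Fin.last g) (hzo.trans hol) 1))
      ((seedPt A a c J, 1) : LSt (g + 1) b r) (h t))) =
      (((h t)⁻¹.1 * a.1, c.1 * a.1⁻¹ * (h t)⁻¹.1 * a.1), fun _ => 1) := fun t => by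
    rw [tail_bridge hzo q l A a c J ho1 hol]
    rw [show ((h t)⁻¹ * a)⁻¹ * ((h t)⁻¹ * (a * c * (a ^ (1 + 1))⁻¹) * h t) *
      ((h t)⁻¹ * a) ^ (1 + 1) = c * a⁻¹ * (h t)⁻¹ * a by
        rw [show 1 + 1 = 2 from rfl, pow_two, pow_two]; group]
    simp only [Matrix.SpecialLinearGroup.coe_mul, coe_inv_sl]
  simp only [he]
  exact ((hi.mul_const a.1).prodMk ((hi.const_mul (c.1 * a.1⁻¹)).mul_const a.1)).prodMk
    (hasDerivAt_const (0 : ℂ) (fun _ => 1 : Fin b → Mat r))

end Slid

end Vale.Agent.P002.Punct
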